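import Vale.Agent.P342.Core
import Mathlib.Data.Finset.Powerset
import Mathlib.Data.Fintype.Powerset

/-!
Arc graphs: reduction from 64 against many colours to 3 against many colours.
-/

namespace Vale.Agent.P342

open Vale.Agent.Lib.PolyTime Vale.Agent.Lib.PCP

section Arc

variable {V : Type} [DecidableEq V]

/-- The arc graph: its vertices are the arcs, consecutive arcs are joined. -/
def arc (l : List (V × V)) : List ((V × V) × (V × V)) :=
  l.flatMap fun e => (l.filter fun e' => decide (e.2 = e'.1)).map fun e' => (e, e')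

theorem mem_arc {l : List (V × V)} {p : (V × V) × (V × V)} :
    p ∈ arc l ↔ p.1 ∈ l ∧ p.2 ∈ l ∧ p.1.2 = p.2.1 := by
  simp only [arc, List.mem_flatMap, List.mem_map, List.mem_filter, decide_eq_true_eq]
  constructor
  · rintro ⟨e, he, e', ⟨h1, h2⟩, rfl⟩
    exact ⟨he, h1, h2⟩
  · rintro ⟨h1, h2, h3⟩
    exact ⟨p.1, h1, p.2, ⟨h2, h3⟩, rfl⟩

theorem pt_arc [Enc V] [EncInj V] : PT ∅ (arc (V := V)) :=
  PT.flatMap (l := fun l : List (V × V) => l)
    (f := fun l e => (l.filter fun e' => decide (e.2 = e'.1)).map fun e' => (e, e')) PT.id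
    (PT.map (l := fun p : List (V × V) × (V × V) => p.1.filter fun e' => decide (p.2.2 = e'.1))
      (f := fun p e' => (p.2, e'))
      (PT.filter (l := fun p : List (V × V) × (V × V) => p.1)
        (f := fun p e' => decide (p.2.2 = e'.1)) PT.fst' (PT.eq PT.fst'.snd.snd PT.snd'.fst))
      (PT.pair PT.fst'.snd PT.snd'))

/-- A colouring of the arc graph gives a colouring with sets of colours. -/
theorem col_of_arc {c : ℕ} {l : List (V × V)} (h : Col c (arc l)) : Col (2 ^ c) l := by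
  classical
  obtain ⟨col, hcol⟩ := h
  have hc : Fintype.card (Finset (Fin c)) = 2 ^ c := by simp
  let S : V → Finset (Fin c) := fun v => Finset.univ.filter fun x => ∃ w, (v, w) ∈ l ∧ col (v, w) = x
  refine ⟨fun v => Fintype.equivFinOfCardEq hc (S v), fun e he h => ?_⟩
  have h1 : S e.1 = S e.2 := (Fintype.equivFinOfCardEq hc).injective h
  have h2 : col e ∈ S e.1 := Finset.mem_filter.2 ⟨Finset.mem_univ _, e.2, he, rfl⟩
  rw [h1] at h2
  obtain ⟨w, hw, hw'⟩ := (Finset.mem_filter.1 h2).2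
  exact hcol (e, (e.2, w)) (mem_arc.2 ⟨he, hw, rfl⟩) hw'.symm

/-- Antichains of sets give colourings of the arc graph. -/
theorem col_arc {N n : ℕ} (k : ℕ) (hn : 0 < n) (hN : N ≤ n.choose k) {l : List (V × V)}
    (h : Col N l) : Col n (arc l) := by
  classical
  obtain ⟨col, hcol⟩ := h
  have hc : Fintype.card (Fin N) ≤
      Fintype.card (Finset.powersetCard k (Finset.univ : Finset (Fin n))) := by
    simpa using hN
  obtain ⟨s⟩ := Function.Embedding.nonempty_of_card_le hc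
  have hs : ∀ a b : Fin N, ∃ x : Fin n, a ≠ b → x ∈ (s a).1 ∧ x ∉ (s b).1 := by
    intro a b
    by_cases hab : a = b
    · exact ⟨⟨0, hn⟩, fun h => absurd hab h⟩
    · have h1 : ¬ (s a).1 ⊆ (s b).1 := fun h => hab (s.injective (Subtype.ext
        (Finset.eq_of_subset_of_card_le h (by
          rw [(Finset.mem_powersetCard.1 (s a).2).2, (Finset.mem_powersetCard.1 (s b).2).2]))))
      obtain ⟨x, hx, hx'⟩ := Finset.not_subset.1 h1
      exact ⟨x, fun _ => ⟨hx, hx'⟩⟩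
  choose κ hκ using hs
  refine ⟨fun e => κ (col e.1) (col e.2), fun p hp h => ?_⟩
  obtain ⟨h1, h2, h3⟩ := mem_arc.1 hp
  have a1 := (hκ _ _ (hcol _ h1)).2
  have a2 := (hκ _ _ (hcol _ h2)).1
  have h' : κ (col p.1.1) (col p.1.2) = κ (col p.2.1) (col p.2.2) := h
  rw [h', h3] at a1
  exact a1 a2

/-- A colouring with three colours of the second arc graph of the complete graph `K₄`. -/
def kap : Fin 4 → Fin 4 → Fin 4 → Fin 3 :=
  ![![![0, 0, 0, 0], ![0, 0, 0, 0], ![0, 1, 0, 0], ![0, 1, 1, 0]],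
    ![![0, 1, 2, 2], ![0, 0, 0, 0], ![1, 1, 0, 2], ![1, 1, 1, 0]],
    ![![0, 2, 2, 2], ![0, 0, 0, 0], ![0, 0, 0, 0], ![1, 1, 1, 0]],
    ![![0, 2, 2, 2], ![0, 0, 0, 0], ![0, 2, 0, 0], ![0, 0, 0, 0]]]

theorem kap_ne : ∀ a b c d : Fin 4, a ≠ b → b ≠ c → c ≠ d → kap a b c ≠ kap b c d := by
  decide

theorem col_arc_arc {l : List (V × V)} (h : Col 4 l) : Col 3 (arc (arc l)) := by
  obtain ⟨col, hcol⟩ := h
  refine ⟨fun e => kap (col e.1.1) (col e.1.2) (col e.2.2), fun p hp => ?_⟩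
  obtain ⟨h1, h2, h3⟩ := mem_arc.1 hp
  obtain ⟨a1, a2, a3⟩ := mem_arc.1 h1
  obtain ⟨-, b2, b3⟩ := mem_arc.1 h2
  have c1 := hcol _ a1
  have c2 := hcol _ a2
  have c3 := hcol _ b2
  have e1 : p.2.1.1 = p.1.1.2 := by rw [← h3, a3]
  have e2 : p.2.1.2 = p.1.2.2 := by rw [← h3]
  rw [← a3] at c2
  rw [← b3, e2] at c3
  show kap _ _ _ ≠ kap (col p.2.1.1) (col p.2.1.2) (col p.2.2.2)
  rw [e1, e2]
  exact kap_ne _ _ _ _ c1 c2 c3

theorem hard_arc [Enc V] [EncInj V] {N n : ℕ} (k : ℕ) (hn : 0 < n) (hN : N ≤ n.choose k)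
    (h : ∀ c, Hard (GCol V N c)) (c : ℕ) : Hard (GCol (V × V) n c) :=
  (h (2 ^ c)).red ⟨arc, pt_arc, fun _ h => col_arc k hn hN h, fun _ h h' => h (col_of_arc h')⟩

theorem hard_arc_arc [Enc V] [EncInj V] (h : ∀ c, Hard (GCol V 4 c)) (c : ℕ) :
    Hard (GCol ((V × V) × (V × V)) 3 c) :=
  (h (2 ^ 2 ^ c)).red ⟨fun l => arc (arc l), pt_arc.comp pt_arc, fun _ h => col_arc_arc h,
    fun _ h h' => h (col_of_arc (col_of_arc h'))⟩

end Arc

end Vale.Agent.P342
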