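import Vale.Agent.Lib.PCP.Fourier

/-!
The Bonami inequality on the cube and a weak form of the theorem of Kahn, Kalai and Linial.
-/

namespace Vale.Agent.P342.LCode

open Finset Vale.Agent.Lib.PCP
open scoped BigOperators

variable {ι : Type} [Fintype ι] [DecidableEq ι]

/-- The number of nonzero coordinates. -/
def hwt (α : ι → ZMod 2) : ℕ := (univ.filter fun i => α i ≠ 0).card

/-- The function with given Fourier coefficients. -/
noncomputable def syn (c : (ι → ZMod 2) → ℝ) (x : ι → ZMod 2) : ℝ := ∑ α, c α * chi α x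

theorem hwt_add_single {α : ι → ZMod 2} {i : ι} (h : α i = 0) :
    hwt (α + Pi.single i 1) = hwt α + 1 := by
  have : (univ.filter fun j => (α + Pi.single i 1 : ι → ZMod 2) j ≠ 0) =
      insert i (univ.filter fun j => α j ≠ 0) := by
    ext j
    by_cases e : j = i
    · subst e
      simp [h]
    · simp [e]
  rw [hwt, this, card_insert_of_notMem (by simp [h]), hwt]

theorem chi_single (α : ι → ZMod 2) (i : ι) : chi α (Pi.single i 1) = sg (α i) := by
  simp [chi]

omit [Fintype ι] in
theorem add_single_apply (α : ι → ZMod 2) (i : ι) :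
    (α + Pi.single i 1 : ι → ZMod 2) i = 0 ↔ α i ≠ 0 := by
  rcases f2_cases (α i) with h | h <;> simp [h]
  exact f2_add_self 1

theorem sum_split (i : ι) (g : (ι → ZMod 2) → ℝ) :
    ∑ α, g α = ∑ α, (if α i = 0 then g α else 0) +
      ∑ α : ι → ZMod 2, (if α i = 0 then g (α + Pi.single i 1) else 0) := by
  have h1 : ∑ α : ι → ZMod 2, (if α i = 0 then g (α + Pi.single i 1) else 0) =
      ∑ α, (if α i = 0 then 0 else g α) := by
    refine Fintype.sum_equiv (Equiv.addRight (Pi.single i 1)) _ _ fun α => ?_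
    simp only [Equiv.coe_addRight, add_single_apply]
    by_cases h : α i = 0 <;> simp [h]
  rw [h1, ← sum_add_distrib]
  refine sum_congr rfl fun α _ => ?_
  split_ifs <;> simp

theorem syn_add_single {c : (ι → ZMod 2) → ℝ} {i : ι} (h : ∀ α, α i ≠ 0 → c α = 0)
    (x : ι → ZMod 2) : syn c (x + Pi.single i 1) = syn c x := by
  refine sum_congr rfl fun α _ => ?_
  by_cases e : α i = 0
  · rw [chi_add, chi_single, e, sg_zero, mul_one]
  · rw [h α e, zero_mul, zero_mul]

theorem bonami_aux (s : Finset ι) : ∀ c : (ι → ZMod 2) → ℝ,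
    (∀ α i, i ∉ s → α i ≠ 0 → c α = 0) →
      𝔼 x, syn c x ^ 4 ≤ (∑ α, 4 ^ hwt α * c α ^ 2) ^ 2 := by
  induction s using Finset.induction_on with
  | empty =>
    intro c hc
    have h0 : ∀ α, α ≠ 0 → c α = 0 := fun α hα => by
      obtain ⟨i, hi⟩ := Function.ne_iff.1 hα
      exact hc α i (by simp) hi
    have h1 : ∀ x, syn c x = c 0 := fun x => by
      rw [syn, Finset.sum_eq_single 0 (fun α _ hα => by rw [h0 α hα, zero_mul]) (by simp)]
      simp
    rw [Finset.sum_eq_single 0 (fun α _ hα => by rw [h0 α hα]; simp) (by simp)]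
    simp only [h1, Fintype.expect_const, hwt]
    simp [← pow_mul]
  | insert i s hi ih =>
    intro c hc
    set e : ι → ZMod 2 := Pi.single i 1 with he
    set c0 : (ι → ZMod 2) → ℝ := fun α => if α i = 0 then c α else 0 with hc0
    set c1 : (ι → ZMod 2) → ℝ := fun α => if α i = 0 then c (α + e) else 0 with hc1
    have g0 := ih c0 fun α j hj hα => by
      by_cases hji : j = i
      · subst hji
        simp [hc0, hα]
      · simp [hc0, hc α j (by simp [hj, hji]) hα]
    have g1 := ih c1 fun α j hj hα => by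
      by_cases hji : j = i
      · subst hji
        simp [hc1, hα]
      · have := hc (α + e) j (by simp [hj, hji]) (by simpa [he, hji] using hα)
        simp [hc1, this]
    have hsyn : ∀ x, syn c x = syn c0 x + chi e x * syn c1 x := by
      intro x
      rw [syn, sum_split i, syn, syn, mul_sum]
      congr 1
      · refine sum_congr rfl fun α _ => ?_
        simp only [hc0]
        split_ifs <;> simp
      · refine sum_congr rfl fun α _ => ?_
        simp only [hc1]
        split_ifs
        · rw [chi_add_left]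
          ring
        · simp
    have hi0 : ∀ x, syn c0 (x + e) = syn c0 x :=
      syn_add_single fun α hα => by simp [hc0, hα]
    have hi1 : ∀ x, syn c1 (x + e) = syn c1 x :=
      syn_add_single fun α hα => by simp [hc1, hα]
    have hee : chi e e = -1 := by
      rw [he, chi_single]
      simp
    set a := ∑ α, 4 ^ hwt α * c0 α ^ 2 with ha
    set b := ∑ α, 4 ^ hwt α * c1 α ^ 2 with hb
    have ha0 : 0 ≤ a := sum_nonneg fun _ _ => by positivity
    have hb0 : 0 ≤ b := sum_nonneg fun _ _ => by positivity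
    have hab : ∑ α, 4 ^ hwt α * c α ^ 2 = a + 4 * b := by
      rw [sum_split i, ha, hb, mul_sum]
      congr 1
      · refine sum_congr rfl fun α _ => ?_
        simp only [hc0]
        split_ifs <;> simp
      · refine sum_congr rfl fun α _ => ?_
        simp only [hc1]
        split_ifs with h
        · rw [hwt_add_single h]
          ring
        · simp
    have h4 : 𝔼 x, syn c x ^ 4 = 𝔼 x, syn c0 x ^ 4 + 6 * 𝔼 x, syn c0 x ^ 2 * syn c1 x ^ 2 +
        𝔼 x, syn c1 x ^ 4 := by
      have h5 := expect_add_right (fun x => syn c x ^ 4) e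
      have h6 : 𝔼 x, (syn c x ^ 4 + syn c (x + e) ^ 4) =
          𝔼 x, 2 * (syn c0 x ^ 4 + 6 * (syn c0 x ^ 2 * syn c1 x ^ 2) + syn c1 x ^ 4) := by
        refine expect_congr rfl fun x _ => ?_
        rw [hsyn x, hsyn (x + e), hi0, hi1, chi_add, hee]
        have := chi_sq e x
        have h7 : chi e x ^ 4 = 1 := by
          rw [show 4 = 2 * 2 from rfl, pow_mul, this, one_pow]
        calc _ = 2 * (syn c0 x ^ 4 + 6 * (syn c0 x ^ 2 * syn c1 x ^ 2) * chi e x ^ 2 +
            syn c1 x ^ 4 * chi e x ^ 4) := by ring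
          _ = _ := by rw [this, h7]; ring
      rw [expect_add_distrib, h5, ← mul_expect, expect_add_distrib, expect_add_distrib,
        ← mul_expect] at h6
      linarith
    have h8 : 𝔼 x, syn c0 x ^ 2 * syn c1 x ^ 2 ≤ a * b := by
      have h9 := expect_mul_sq_le_sq_mul_sq univ (fun x => syn c0 x ^ 2) fun x => syn c1 x ^ 2
      simp only [← pow_mul] at h9
      refine le_of_sq_le_sq (h9.trans ?_) (mul_nonneg ha0 hb0)
      rw [mul_pow]
      exact mul_le_mul g0 g1 (expect_nonneg fun _ _ => Even.pow_nonneg (by decide) _) (sq_nonneg _)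
    rw [h4, hab]
    nlinarith [mul_nonneg ha0 hb0, sq_nonneg b]

/-- The Bonami inequality. -/
theorem bonami (c : (ι → ZMod 2) → ℝ) :
    𝔼 x, syn c x ^ 4 ≤ (∑ α, 4 ^ hwt α * c α ^ 2) ^ 2 :=
  bonami_aux univ c fun _ i hi _ => absurd (mem_univ i) hi

/-- The low degree part of a function with values in `0, 1, -1` and small support is small. -/
theorem level_le {h : (ι → ZMod 2) → ℝ} (hh : ∀ x, h x ^ 3 = h x) (d : ℕ) {c : ℝ} (hc : 0 ≤ c)
    (hμ : 𝔼 x, h x ^ 2 ≤ c ^ 2) :
    ∑ α, (if hwt α ≤ d then hat h α ^ 2 else 0) ≤ 4 ^ d * c * 𝔼 x, h x ^ 2 := by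
  set cL : (ι → ZMod 2) → ℝ := fun α => if hwt α ≤ d then hat h α else 0 with hcL
  set A := ∑ α, (if hwt α ≤ d then hat h α ^ 2 else 0) with hA
  set μ := 𝔼 x, h x ^ 2 with hμd
  have hA0 : 0 ≤ A := sum_nonneg fun _ _ => by split_ifs <;> positivity
  have hμ0 : 0 ≤ μ := expect_nonneg fun _ _ => sq_nonneg _
  have h4 : ∀ x, (h x ^ 2) ^ 2 = h x ^ 2 := fun x => by
    calc (h x ^ 2) ^ 2 = h x ^ 3 * h x := by ring
      _ = h x ^ 2 := by rw [hh x]; ring
  have h1 : A = 𝔼 x, (syn cL x * h x) * h x ^ 2 := by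
    have : ∀ x, (syn cL x * h x) * h x ^ 2 = ∑ α, cL α * (h x * chi α x) := fun x => by
      calc _ = syn cL x * h x ^ 3 := by ring
        _ = _ := by
          rw [hh x, syn, sum_mul]
          exact sum_congr rfl fun α _ => by ring
    simp only [this]
    rw [expect_sum_comm]
    refine sum_congr rfl fun α _ => ?_
    rw [← mul_expect]
    change _ = cL α * hat h α
    simp only [hcL]
    split_ifs
    · ring
    · simp
  have h2 := expect_mul_sq_le_sq_mul_sq univ (fun x => syn cL x * h x) fun x => h x ^ 2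
  have h3 := expect_mul_sq_le_sq_mul_sq univ (fun x => syn cL x ^ 2) fun x => h x ^ 2
  simp only [h4, mul_pow] at h2 h3
  rw [← h1] at h2
  have h5 : 𝔼 x, (syn cL x ^ 2) ^ 2 ≤ (4 ^ d * A) ^ 2 := by
    simp only [← pow_mul]
    refine (bonami cL).trans (pow_le_pow_left₀ (sum_nonneg fun _ _ => by positivity) ?_ 2)
    rw [hA, mul_sum]
    refine sum_le_sum fun α _ => ?_
    simp only [hcL]
    split_ifs with hα
    · exact mul_le_mul_of_nonneg_right (pow_le_pow_right₀ (by norm_num) hα) (sq_nonneg _)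
    · simp
  set X := 𝔼 x, syn cL x ^ 2 * h x ^ 2 with hX
  have h6 : X ≤ 4 ^ d * A * c := by
    refine le_of_sq_le_sq (h3.trans ?_) (by positivity)
    rw [mul_pow]
    exact mul_le_mul h5 hμ hμ0 (sq_nonneg _)
  have h7 : A ^ 2 ≤ 4 ^ d * A * c * μ := h2.trans (mul_le_mul_of_nonneg_right h6 hμ0)
  rcases hA0.eq_or_lt with h8 | h8
  · rw [← h8]
    positivity
  · refine le_of_mul_le_mul_left ?_ h8
    nlinarith

/-- The influence of a coordinate. -/
noncomputable def infl (f : (ι → ZMod 2) → ℝ) (i : ι) : ℝ :=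
  𝔼 x, (f x - f (x + Pi.single i 1)) ^ 2

theorem hat_diff (f : (ι → ZMod 2) → ℝ) (i : ι) (α : ι → ZMod 2) :
    hat (fun x => f x - f (x + Pi.single i 1)) α = if α i = 0 then 0 else 2 * hat f α := by
  have h1 : hat (fun x => f x - f (x + Pi.single i 1)) α =
      hat f α - hat (fun x => f (x + Pi.single i 1)) α := by
    simp only [hat, sub_mul, expect_sub_distrib]
  rw [h1, hat_translate, chi_single]
  rcases f2_cases (α i) with h | h <;> simp [h]
  ring

/-- A weak form of the theorem of Kahn, Kalai and Linial. -/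
theorem weak_kkl {f : (ι → ZMod 2) → ℝ} (hf : ∀ x, f x = 0 ∨ f x = 1) {d : ℕ} (hd : 0 < d)
    {c : ℝ} (hc : 0 ≤ c) (hi : ∀ i, infl f i ≤ c ^ 2) :
    𝔼 x, f x - (𝔼 x, f x) ^ 2 ≤ (∑ i, infl f i) * (1 / d + 4 ^ d * c) := by
  have hd' : (0 : ℝ) < d := by exact_mod_cast hd
  have h1 : 𝔼 x, f x = ∑ α, hat f α ^ 2 := by
    rw [parseval]
    refine expect_congr rfl fun x _ => ?_
    rcases hf x with h | h <;> simp [h]
  have h2 : ∀ i, ∑ α, (if α i = 0 then 0 else hat f α ^ 2) ≤ infl f i := by
    intro i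
    rw [infl, ← parseval]
    refine sum_le_sum fun α _ => ?_
    rw [hat_diff]
    split_ifs
    · simp
    · nlinarith [sq_nonneg (hat f α)]
  have h3 : ∀ i, ∑ α, (if hwt α ≤ d then (if α i = 0 then 0 else hat f α ^ 2) else 0) ≤
      4 ^ d * c * infl f i := by
    intro i
    refine le_trans ?_ (level_le (h := fun x => f x - f (x + Pi.single i 1)) (fun x => ?_) d hc
      (hi i))
    · refine sum_le_sum fun α _ => ?_
      rw [hat_diff]
      split_ifs
      · simp
      · nlinarith [sq_nonneg (hat f α)]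
      · exact le_rfl
    · rcases hf x with h | h <;> rcases hf (x + Pi.single i 1) with h' | h' <;> simp [h, h']
      norm_num
  have h4 : ∀ α : ι → ZMod 2, ∑ i, (if α i = 0 then 0 else hat f α ^ 2) =
      hwt α * hat f α ^ 2 := by
    intro α
    rw [hwt, card_filter, Nat.cast_sum, sum_mul]
    refine sum_congr rfl fun i _ => ?_
    by_cases h : α i = 0 <;> simp [h]
  have h5 : ∀ α : ι → ZMod 2, hat f α ^ 2 ≤ (if α = 0 then hat f α ^ 2 else 0) +
      (1 / d * ∑ i, (if α i = 0 then 0 else hat f α ^ 2) +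
        ∑ i, (if hwt α ≤ d then (if α i = 0 then 0 else hat f α ^ 2) else 0)) := by
    intro α
    have hs := sq_nonneg (hat f α)
    have hw : (0 : ℝ) ≤ hwt α := Nat.cast_nonneg _
    by_cases h0 : α = 0
    · subst h0
      simp
    · obtain ⟨i, hi⟩ := Function.ne_iff.1 h0
      have hw1 : (1 : ℝ) ≤ hwt α := by
        have : 0 < hwt α := card_pos.2 ⟨i, by simpa using hi⟩
        exact_mod_cast this
      rw [if_neg h0, zero_add]
      by_cases hl : hwt α ≤ d
      · simp only [if_pos hl, h4]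
        have : 0 ≤ 1 / (d : ℝ) * (hwt α * hat f α ^ 2) := by positivity
        nlinarith
      · simp only [if_neg hl, h4, sum_const_zero, add_zero]
        have : (d : ℝ) ≤ hwt α := by exact_mod_cast (not_le.1 hl).le
        rw [one_div, ← mul_assoc, inv_mul_eq_div]
        exact le_mul_of_one_le_left hs ((one_le_div hd').2 this)
  have h6 := sum_le_sum fun α (_ : α ∈ (univ : Finset (ι → ZMod 2))) => h5 α
  rw [sum_add_distrib, sum_add_distrib, sum_ite_eq', if_pos (mem_univ _), hat_zero, ← mul_sum,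
    ← h1, sum_comm, sum_comm (s := univ) (t := univ)
      (f := fun (α : ι → ZMod 2) (i : ι) =>
        if hwt α ≤ d then (if α i = 0 then 0 else hat f α ^ 2) else 0)] at h6
  have h7 := sum_le_sum fun i (_ : i ∈ (univ : Finset ι)) => h2 i
  have h8 := sum_le_sum fun i (_ : i ∈ (univ : Finset ι)) => h3 i
  rw [← mul_sum] at h8
  have h9 := mul_le_mul_of_nonneg_left h7 (by positivity : (0 : ℝ) ≤ 1 / d)
  linarith

end Vale.Agent.P342.LCode
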