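import Vale.Agent.P342.Defs
import Vale.Agent.P342.Arc
import Vale.Agent.Lib.PCP.NPBridge
import Vale.Agent.Lib.PolyTime.OfTM2

/-!
Bridge between the statement (`ColoringNPHard`) and the promise problems of the PCP library.
-/

namespace Vale.Agent.P342

open Vale.Agent.Lib.PolyTime Vale.Agent.Lib.PCP

theorem pair_eq_pr : pair = pr := by
  funext x y
  induction x with
  | nil => rfl
  | cons b x ih => simp [pair, pr, ih]

theorem polyTime_iff {f : List Bool → List Bool} : PolyTime f ↔ FP ∅ f := by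
  constructor
  · rintro ⟨M, -⟩
    exact OfTM2.FP_of_tm2 M
  · intro h
    exact exists_tm2_of_polyTimeFun _ _ f f (polyTimeFun_iff.2 h) fun _ => rfl

theorem cookLevin {L : Set (List Bool)} (hL : L ∈ NP) :
    Red (⟨fun x => x.w ∈ L, fun x => x.w ∉ L⟩ : Promise Raw) SAT3 := by
  simp only [NP, Set.mem_ofPred_eq, polyTime_iff, pair_eq_pr] at hL
  obtain ⟨V, p, hV, h⟩ := hL
  exact cook_levin_fp V p hV h

section Conv

variable {V : Type} [DecidableEq V]

/-- The list of vertices which occur. -/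
def verts (l : List (V × V)) : List V := l.map (fun e => e.1) ++ l.map (fun e => e.2)

theorem idx1_lt {l : List (V × V)} {e : V × V} (h : e ∈ l) :
    (verts l).idxOf e.1 < (verts l).length :=
  List.idxOf_lt_length_iff.2 (List.mem_append_left _ (List.mem_map_of_mem h))

theorem idx2_lt {l : List (V × V)} {e : V × V} (h : e ∈ l) :
    (verts l).idxOf e.2 < (verts l).length :=
  List.idxOf_lt_length_iff.2 (List.mem_append_right _ (List.mem_map_of_mem h))

/-- Adjacency of vertex numbers; a list with a loop gives a complete graph. -/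
def adj (l : List (V × V)) (u v : ℕ) : Bool :=
  !decide (u = v) && l.any fun e => decide (e.1 = e.2) ||
    (decide ((verts l).idxOf e.1 = u) && decide ((verts l).idxOf e.2 = v)) ||
    (decide ((verts l).idxOf e.1 = v) && decide ((verts l).idxOf e.2 = u))

theorem adj_iff {l : List (V × V)} {u v : ℕ} : adj l u v = true ↔ u ≠ v ∧ ∃ e ∈ l, e.1 = e.2 ∨
    ((verts l).idxOf e.1 = u ∧ (verts l).idxOf e.2 = v) ∨
    ((verts l).idxOf e.1 = v ∧ (verts l).idxOf e.2 = u) := by
  simp [adj, or_assoc]

/-- The simple graph of a list of arcs, with `c + 1` additional vertices. -/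
def toG (c : ℕ) (l : List (V × V)) : SimpleGraph (Fin ((verts l).length + (c + 1))) where
  Adj u v := adj l u v = true
  symm := ⟨fun u v h => by
    obtain ⟨h1, e, he, h2⟩ := adj_iff.1 h
    exact adj_iff.2 ⟨h1.symm, e, he, by tauto⟩⟩
  loopless := ⟨fun u h => (adj_iff.1 h).1 rfl⟩

theorem colorable_toG {k : ℕ} (hk : 0 < k) (c : ℕ) {l : List (V × V)} (h : Col k l) :
    (toG c l).Colorable k := by
  obtain ⟨col, hcol⟩ := h
  let f : ℕ → Fin k := fun u => ((verts l)[u]?).elim ⟨0, hk⟩ col
  have f1 : ∀ e ∈ l, f ((verts l).idxOf e.1) = col e.1 := fun e he => by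
    simp only [f]
    rw [List.getElem?_eq_getElem (idx1_lt he), List.getElem_idxOf]
    rfl
  have f2 : ∀ e ∈ l, f ((verts l).idxOf e.2) = col e.2 := fun e he => by
    simp only [f]
    rw [List.getElem?_eq_getElem (idx2_lt he), List.getElem_idxOf]
    rfl
  refine ⟨SimpleGraph.Coloring.mk (fun u => f u) fun {u v} huv => ?_⟩
  obtain ⟨-, e, he, h | ⟨h1, h2⟩ | ⟨h1, h2⟩⟩ := adj_iff.1 huv
  · exact absurd (congrArg col h) (hcol e he)
  · rw [← h1, ← h2, f1 e he, f2 e he]
    exact hcol e he
  · rw [← h1, ← h2, f1 e he, f2 e he]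
    exact (hcol e he).symm

theorem col_of_colorable {c : ℕ} {l : List (V × V)} (h : (toG c l).Colorable c) : Col c l := by
  obtain ⟨C⟩ := h
  have hl : ∀ e ∈ l, e.1 ≠ e.2 := by
    intro e he h
    have h1 : Function.Injective C := fun u v huv => by
      by_contra hne
      exact C.valid (show (toG c l).Adj u v from
        adj_iff.2 ⟨fun h => hne (Fin.ext h), e, he, Or.inl h⟩) huv
    have h2 := Fintype.card_le_of_injective _ h1
    simp only [Fintype.card_fin] at h2
    omega
  have hb : ∀ v : V, (verts l).idxOf v < (verts l).length + (c + 1) := fun v =>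
    lt_of_le_of_lt List.idxOf_le_length (by omega)
  refine ⟨fun v => C ⟨_, hb v⟩, fun e he => C.valid ?_⟩
  refine adj_iff.2 ⟨fun h => hl e he ?_, e, he, Or.inr (Or.inl ⟨rfl, rfl⟩)⟩
  have h' : (verts l).idxOf e.1 = (verts l).idxOf e.2 := h
  exact (List.idxOf_inj (List.idxOf_lt_length_iff.1 (idx1_lt he))).1 h'

/-- The data which is written down. -/
def data (c : ℕ) (l : List (V × V)) : Un × Raw :=
  (⟨(verts l).length + (c + 1)⟩, ⟨((List.range ((verts l).length + (c + 1))).map fun u =>
    (List.range ((verts l).length + (c + 1))).map fun v => adj l u v).flatten⟩)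

theorem ofFn_eq_map_range {α : Type} (n : ℕ) (f : ℕ → α) :
    (List.ofFn fun i : Fin n => f i) = (List.range n).map f := by
  refine List.ext_getElem (by simp) fun i h1 h2 => by simp

theorem code_toG (c : ℕ) (l : List (V × V)) : code (toG c l) = enc (data c l) := by
  rw [data, enc_pair, enc_un, enc_raw, code, pair_eq_pr]
  congr 2
  rw [← ofFn_eq_map_range]
  congr 1
  funext u
  rw [← ofFn_eq_map_range]
  congr 1
  funext v
  rw [Bool.eq_iff_iff]
  simp only [decide_eq_true_eq]
  rfl

theorem pt_data [Enc V] [EncInj V] (c : ℕ) : PT ∅ (data (V := V) c) := by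
  have hv : PT ∅ (verts (V := V)) :=
    PT.append (PT.map (f := fun _ (e : V × V) => e.1) PT.id PT.snd'.fst)
      (PT.map (f := fun _ (e : V × V) => e.2) PT.id PT.snd'.snd)
  have hn : PT ∅ fun l : List (V × V) => (verts l).length + (c + 1) :=
    PT.add hv.length (PT.const _)
  have hb : PBd fun l : List (V × V) => (verts l).length + (c + 1) :=
    (PBd.length hv).add (PBd.const _)
  have hr := PT.range hn hb
  have i1 : PT ∅ fun q : ((List (V × V) × ℕ) × ℕ) × (V × V) => (verts q.1.1.1).idxOf q.2.1 :=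
    PT.idxOf (hv.comp PT.fst'.fst.fst) PT.snd'.fst
  have i2 : PT ∅ fun q : ((List (V × V) × ℕ) × ℕ) × (V × V) => (verts q.1.1.1).idxOf q.2.2 :=
    PT.idxOf (hv.comp PT.fst'.fst.fst) PT.snd'.snd
  have ha : PT ∅ fun p : (List (V × V) × ℕ) × ℕ => adj p.1.1 p.1.2 p.2 :=
    PT.and (PT.eqNat PT.fst'.snd PT.snd').not
      (PT.any (l := fun p : (List (V × V) × ℕ) × ℕ => p.1.1)
        (f := fun p e => decide (e.1 = e.2) ||
          (decide ((verts p.1.1).idxOf e.1 = p.1.2) && decide ((verts p.1.1).idxOf e.2 = p.2)) ||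
          (decide ((verts p.1.1).idxOf e.1 = p.2) && decide ((verts p.1.1).idxOf e.2 = p.1.2)))
        PT.fst'.fst
        (((PT.eq PT.snd'.fst PT.snd'.snd).or
          ((PT.eqNat i1 PT.fst'.fst.snd).and (PT.eqNat i2 PT.fst'.snd))).or
          ((PT.eqNat i1 PT.fst'.snd).and (PT.eqNat i2 PT.fst'.fst.snd))))
  refine PT.pair (PT.mkUn hn hb) (PT.rawOfList (PT.flatten ?_))
  exact PT.map hr (PT.map (hr.comp PT.fst') ha)

end Conv

/-- Hardness of the promise problem in the library gives the statement. -/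
theorem coloringNPHard_of_hard {V : Type} [DecidableEq V] [Enc V] [EncInj V] {k c : ℕ}
    (hk : 0 < k) (h : Hard (GCol V k c)) : ColoringNPHard k c := by
  intro L hL
  obtain ⟨f, hf, f1, f2⟩ := (cookLevin hL).trans h
  refine ⟨_, fun x => toG c (f ⟨x⟩), ?_, fun x hx => colorable_toG hk c (f1 ⟨x⟩ hx),
    fun x hx h => f2 ⟨x⟩ hx (col_of_colorable h)⟩
  obtain ⟨g, hg, hg'⟩ := (pt_data c).comp hf
  refine polyTime_iff.2 (hg.congr fun x => ?_)
  rw [code_toG]
  exact hg' ⟨x⟩

section Chain

variable {V : Type} [DecidableEq V] [Enc V] [EncInj V]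

theorem coloringNPHard_of_four (h : ∀ c, Hard (GCol V 4 c)) (c : ℕ) : ColoringNPHard 3 c :=
  coloringNPHard_of_hard (by norm_num) (hard_arc_arc h c)

theorem coloringNPHard_of_five (h : ∀ c, Hard (GCol V 5 c)) (c : ℕ) : ColoringNPHard 3 c :=
  coloringNPHard_of_four (hard_arc (n := 4) 2 (by norm_num) (by decide) h) c

theorem coloringNPHard_of_eight (h : ∀ c, Hard (GCol V 8 c)) (c : ℕ) : ColoringNPHard 3 c :=
  coloringNPHard_of_five (hard_arc (n := 5) 2 (by norm_num) (by decide) h) c

/-- Hardness of 64 against `c` colours for all `c` gives hardness of 3 against `c` colours. -/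
theorem coloringNPHard_of_gen (h : ∀ c, Hard (GCol V 64 c)) (c : ℕ) : ColoringNPHard 3 c :=
  coloringNPHard_of_eight (hard_arc (n := 8) 4 (by norm_num) (by decide) h) c

end Chain

theorem coloringNPHard_of (h : ∀ c, Hard (GCol ℕ 64 c)) (c : ℕ) : ColoringNPHard 3 c :=
  coloringNPHard_of_gen h c

end Vale.Agent.P342
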