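import Vale.Agent.Lib.PCP.Bilin.Fourier
import Vale.Agent.Lib.PCP.Defs

/-!
Definitions shared by the parts of the proof of hardness of approximate graph colouring, and the
statements of the main intermediate theorems.
-/

namespace Vale.Agent.P342

open Finset Matrix Vale.Agent.Lib.PCP
open scoped BigOperators

/-! ### Colouring of lists of arcs -/

/-- The list of arcs (loops are allowed) has a proper colouring with `k` colours. -/
def Col {V : Type} (k : ℕ) (l : List (V × V)) : Prop :=
  ∃ col : V → Fin k, ∀ e ∈ l, col e.1 ≠ col e.2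

/-- `k`-colourable against not `c`-colourable, for lists of arcs. -/
def GCol (V : Type) (k c : ℕ) : Promise (List (V × V)) where
  yes l := Col k l
  no l := ¬ Col c l

/-! ### Vectors -/

/-- Vectors of length `s` over the field with two elements. -/
abbrev Vec (s : ℕ) : Type := Fin s → ZMod 2

/-- The class of `v` modulo `w`. -/
def cls {s : ℕ} (w v : Vec s) : Finset (Vec s) := {v, v + w}

/-! ### The long code lemma -/

/-- Dense sets of words get short lists of coordinates, such that the lists of two sets without an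
edge between them meet after the projections. -/
def LongCodeThm : Prop :=
  ∀ ε : ℝ, 0 < ε → ∃ t : ℕ, ∀ (B : Type) [Fintype B] [DecidableEq B],
    ∃ T : Finset (B → Vec 3) → Finset B, (∀ I, (T I).card ≤ t) ∧
      ∀ (B' : Type) [DecidableEq B'] (π π' : B → B'),
        (∀ y, (univ.filter fun b => π b = y).card ≤ 2) →
        (∀ y, (univ.filter fun b => π' b = y).card ≤ 2) →
        ∀ I I' : Finset (B → Vec 3),
          ε * Fintype.card (B → Vec 3) ≤ I.card → ε * Fintype.card (B → Vec 3) ≤ I'.card →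
          (∀ x ∈ I, ∀ x' ∈ I', ∃ b b', π b = π' b' ∧ x b = x' b') →
          ∃ b ∈ T I, ∃ b' ∈ T I', π b = π' b'

/-! ### The structure theorem -/

/-- A zoom `T + P * C * Q` together with a list of linear functionals. -/
structure St (m n : Type) where
  /-- the base point -/
  T : Matrix m n (ZMod 2)
  /-- the allowed columns -/
  P : Matrix m m (ZMod 2)
  /-- the allowed rows -/
  Q : Matrix n n (ZMod 2)
  /-- the functionals -/
  Gs : Finset (n → ZMod 2)

/-- The point of the zoom with parameter `C`. -/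
def St.pt {m n : Type} [Fintype m] [Fintype n] (σ : St m n) (C : Matrix m n (ZMod 2)) :
    Matrix m n (ZMod 2) := σ.T + σ.P * C * σ.Q

/-- The zoom has order at most `ρ` on both sides, there are at most `t` functionals, and one of
them has weight at least `δ`. -/
def St.Good {m n : Type} [Fintype m] [Fintype n] [DecidableEq m] [DecidableEq n] (t ρ : ℕ) (δ : ℝ)
    (ξ : St m n → (m → ZMod 2) → Matrix m n (ZMod 2) → (m → ZMod 2) → ℝ) (σ : St m n) : Prop :=
  Fintype.card m ≤ σ.P.rank + ρ ∧ Fintype.card n ≤ σ.Q.rank + ρ ∧ σ.Gs.card ≤ t ∧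
    ∃ G ∈ σ.Gs, δ ≤ 𝔼 C : Matrix m n (ZMod 2), 𝔼 a : m → ZMod 2,
      if σ.P *ᵥ a = 0 then 0 else ξ σ (σ.P *ᵥ a) (σ.pt C) (σ.pt C *ᵥ G)

/-- Weights on labels: `ξ σ w A` is a sub-distribution on lists of classes modulo `w`, which
depends on `A` only modulo `w`. -/
structure Weights {m n : Type} [Fintype m] [Fintype n] [DecidableEq m] (t : ℕ)
    (ξ : St m n → (m → ZMod 2) → Matrix m n (ZMod 2) → (m → ZMod 2) → ℝ) : Prop where
  nonneg : ∀ σ w A φ, 0 ≤ ξ σ w A φ
  le_one : ∀ σ w A φ, ξ σ w A φ ≤ 1
  sum_le : ∀ σ w A, ∑ φ, ξ σ w A φ ≤ 2 * t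
  row : ∀ σ w A x φ, ξ σ w (A + vecMulVec w x) φ = ξ σ w A φ
  lab : ∀ σ w A φ, ξ σ w A (φ + w) = ξ σ w A φ

open Classical in
/-- Lists which are consistent with the weights on a dense set come from a linear functional on a
zoom of bounded order. -/
def StructThm : Prop :=
  ∀ (t : ℕ) (ε : ℝ), 0 < ε → ∃ (ρ : ℕ) (δ : ℝ), 0 < δ ∧
    ∀ (m n : Type) [Fintype m] [Fintype n] [DecidableEq m] [DecidableEq n]
      (B : Matrix m n (ZMod 2) → Prop) (L : Matrix m n (ZMod 2) → Finset (m → ZMod 2))
      (ξ : St m n → (m → ZMod 2) → Matrix m n (ZMod 2) → (m → ZMod 2) → ℝ),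
      ρ < Fintype.card m → (2 : ℝ) ^ (Fintype.card m + ρ) ≤ δ * 2 ^ Fintype.card n →
      ε ≤ (𝔼 A, if B A then (1 : ℝ) else 0) → (∀ A, B A → A.rank = Fintype.card m) →
      (∀ A, (L A).card ≤ t) → Weights t ξ →
      (∀ σ a A, σ.P *ᵥ a ≠ 0 → B A → 1 ≤ ∑ f ∈ L A, ξ σ (σ.P *ᵥ a) A f) →
      ∃ σ : St m n, σ.Good t ρ δ ξ ∧ ∃ C, B (σ.pt C)

/-! ### The game -/

/-- Tables of left vertices: a vector for each block and each label with an additional bit. -/
abbrev Tab (l k : ℕ) (SA : Type) : Type := Fin k → SA × Bool → Vec l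

/-- Left vertices: names of the blocks and a table. -/
abbrev Left (l k : ℕ) (SA : Type) : Type := (Fin k → ℕ) × Tab l k SA

/-- The finite data of a half edge: the direction `w`, the projected block `j`, the noise block
`i`, the noise `h`, the table `A`, the table `F` of the projected block, the multiples `r` of the
direction, and the shift `c`. -/
structure Tape (l k : ℕ) (SA SB : Type) where
  /-- direction -/
  w : Vec l
  /-- projected block -/
  j : Fin k
  /-- noise block -/
  i : Fin k
  /-- noise -/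
  h : SA → Bool
  /-- table -/
  A : Tab l k SA
  /-- table of the projected block -/
  F : SB → Vec l
  /-- multiples of the direction -/
  r : SA × Bool → ZMod 2
  /-- shift -/
  c : Vec l

variable {l k : ℕ} {SA SB : Type}

/-- Admissible data. -/
def Tape.Ok (τ : Tape l k SA SB) : Prop := τ.w ≠ 0 ∧ τ.i ≠ τ.j

/-- The projected block of the left table. -/
def blk (π : SA → SB) (w : Vec l) (F : SB → Vec l) (r : SA × Bool → ZMod 2) :
    SA × Bool → Vec l := fun q => F (π q.1) + r q • w

/-- The left vertex of a half edge; `e b = (small vertex, big vertex, projection)`. -/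
def left (e : Fin k → PEdge ℕ ℕ SA SB) (τ : Tape l k SA SB) : Left l k SA :=
  (fun b => (e b).2.1, Function.update τ.A τ.j (blk (e τ.j).2.2 τ.w τ.F τ.r))

/-- The finite part of a right vertex. -/
abbrev KFin (l k : ℕ) (SA SB : Type) : Type :=
  Vec l × Fin k × Fin k × (SA → Bool) × (Fin k → SA × Bool → Finset (Vec l)) ×
    (SB → Finset (Vec l))

/-- The finite part of the right vertex of a half edge. -/
def kfin (τ : Tape l k SA SB) : KFin l k SA SB :=
  (τ.w, τ.j, τ.i, τ.h,
    fun b q => if b = τ.j then ∅ else if b = τ.i then cls τ.w (τ.A b (q.1, τ.h q.1))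
      else cls τ.w (τ.A b q),
    fun s => cls τ.w (τ.F s + τ.c))

/-- Right vertices. -/
abbrev Key (l k : ℕ) (SA SB : Type) : Type := (Fin k → ℕ) × KFin l k SA SB

/-- The right vertex of a half edge. -/
def key (e : Fin k → PEdge ℕ ℕ SA SB) (τ : Tape l k SA SB) : Key l k SA SB :=
  (fun b => if b = τ.j then (e b).1 else (e b).2.1, kfin τ)

/-- The projection game with edges `ed e` has value at most `δ`. -/
def ValLE {E : Type} [Fintype E] [DecidableEq SB] (ed : E → PEdge ℕ ℕ SA SB) (δ : ℝ) : Prop :=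
  ∀ (g : ℕ → SB) (f : ℕ → SA),
    (𝔼 e, if (ed e).2.2 (f (ed e).2.1) = g (ed e).1 then (1 : ℝ) else 0) ≤ δ

open Classical in
/-- Soundness: a set of left vertices with pairwise consistent short lists has small measure. -/
def SoundThm : Prop :=
  ∀ (t : ℕ) (ε : ℝ), 0 < ε → ∃ (l : ℕ) (δ : ℝ), 0 < δ ∧
    ∀ (SA SB : Type) [Fintype SA] [DecidableEq SA] [Nonempty SA] [Fintype SB] [DecidableEq SB]
      [Nonempty SB], ∃ k : ℕ,
      ∀ (E : Type) [Fintype E] [DecidableEq E] [Nonempty E] (ed : E → PEdge ℕ ℕ SA SB),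
        ValLE ed δ → ∀ (S : Left l k SA → Prop) (T : Left l k SA → Finset (Vec l)),
          (∀ p, (T p).card ≤ t) →
          (∀ (e e' : Fin k → E) (τ τ' : Tape l k SA SB), τ.Ok → τ'.Ok →
            key (ed ∘ e) τ = key (ed ∘ e') τ' → S (left (ed ∘ e) τ) → S (left (ed ∘ e') τ') →
            ∃ f ∈ T (left (ed ∘ e) τ), ∃ f' ∈ T (left (ed ∘ e') τ'),
              cls τ.w (f + τ.c) = cls τ'.w (f' + τ'.c)) →
          (𝔼 e : Fin k → E, 𝔼 A : Tab l k SA,
            if S (fun b => (ed (e b)).2.1, A) then (1 : ℝ) else 0) < ε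

end Vale.Agent.P342
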