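import Mathlib.Computability.TuringMachine.Computable
import Mathlib.Combinatorics.SimpleGraph.Coloring.Vertex

/-!
Graphs and their binary code, the class NP, and NP-hardness of approximate graph colouring.
-/

namespace Vale.Agent.P342

/-- A function on binary words is computed in polynomial time by a deterministic Turing machine
(the multi-stack machines of Mathlib, with finite alphabets). -/
def PolyTime (f : List Bool → List Bool) : Prop :=
  ∃ M : Turing.TM2ComputableInPolyTime (fun w : List Bool => w) (fun w : List Bool => w) f,
    ∀ k, Finite (M.tm.Γ k)

/-- The word `x` in self-delimiting form (each bit is preceded by `true`, the end is marked by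
`false`), followed by the word `y`. -/
def pair : List Bool → List Bool → List Bool
  | [], y => false :: y
  | c :: x, y => true :: c :: pair x y

/-- The class NP: languages with polynomially long witnesses checked in polynomial time. -/
def NP : Set (Set (List Bool)) :=
  {L | ∃ (V : List Bool → List Bool) (p : Polynomial ℕ), PolyTime V ∧
    ∀ x, x ∈ L ↔ ∃ w : List Bool, w.length ≤ p.eval x.length ∧ V (pair x w) = [true]}

open Classical in
/-- The binary code of a simple graph on `Fin n`: the number of vertices in unary, then the rows
of the adjacency matrix. -/
noncomputable def code {n : ℕ} (G : SimpleGraph (Fin n)) : List Bool :=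
  pair (List.replicate n true)
    (List.ofFn fun u : Fin n => List.ofFn fun v : Fin n => decide (G.Adj u v)).flatten

/-- It is NP-hard to distinguish `k`-colourable graphs from graphs that are not `c`-colourable:
every language in NP has a polynomial time map to graphs which sends members to `k`-colourable
graphs and non-members to graphs that are not `c`-colourable. -/
def ColoringNPHard (k c : ℕ) : Prop :=
  ∀ L ∈ NP, ∃ (n : List Bool → ℕ) (G : ∀ x, SimpleGraph (Fin (n x))),
    PolyTime (fun x => code (G x)) ∧ (∀ x, x ∈ L → (G x).Colorable k) ∧
      (∀ x, x ∉ L → ¬ (G x).Colorable c)

end Vale.Agent.P342
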