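import Vale.Agent.P342.Bonami
import Vale.Agent.P325.Cover

/-!
Sets of words with small total sensitivity have large density in a subcube of bounded codimension.
-/

namespace Vale.Agent.P342.LCode

open Finset Vale.Agent.Lib.PCP Vale.Agent.P325
open scoped BigOperators

open Classical in
/-- The indicator of a proposition. -/
noncomputable def ind (p : Prop) : ℝ := if p then 1 else 0

theorem ind_nonneg (p : Prop) : 0 ≤ ind p := by
  unfold ind
  split_ifs <;> norm_num

theorem ind_le_one (p : Prop) : ind p ≤ 1 := by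
  unfold ind
  split_ifs <;> norm_num

theorem ind_pos {p : Prop} (h : p) : ind p = 1 := if_pos h

theorem ind_neg {p : Prop} (h : ¬ p) : ind p = 0 := if_neg h

theorem ind_mono {p q : Prop} (h : p → q) : ind p ≤ ind q := by
  by_cases hp : p
  · rw [ind_pos hp, ind_pos (h hp)]
  · rw [ind_neg hp]
    exact ind_nonneg q

theorem ind_congr {p q : Prop} (h : p ↔ q) : ind p = ind q := by rw [propext h]

theorem ind_cases (p : Prop) : ind p = 0 ∨ ind p = 1 := by
  by_cases hp : p
  exacts [Or.inr (ind_pos hp), Or.inl (ind_neg hp)]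

section

variable {B Γ : Type} [Fintype B] [DecidableEq B] [Fintype Γ]

/-- The density of a set of words. -/
noncomputable def dens (G : (B → Γ) → Prop) : ℝ := 𝔼 z, ind (G z)

/-- The probability that membership can be changed by changing the coordinate `b`. -/
noncomputable def sens (G : (B → Γ) → Prop) (b : B) : ℝ :=
  𝔼 z, ind (∃ q, ¬ (G (Function.update z b q) ↔ G z))

theorem dens_nonneg (G : (B → Γ) → Prop) : 0 ≤ dens G := expect_nonneg fun _ _ => ind_nonneg _

theorem dens_le_one [Nonempty Γ] (G : (B → Γ) → Prop) : dens G ≤ 1 :=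
  expect_le univ_nonempty fun _ _ => ind_le_one _

theorem sens_nonneg (G : (B → Γ) → Prop) (b : B) : 0 ≤ sens G b :=
  expect_nonneg fun _ _ => ind_nonneg _

/-- The weak KKL theorem for blocks. -/
theorem block_kkl {κ : Type} [Fintype κ] [DecidableEq κ] (e : Γ ≃ (κ → ZMod 2))
    (G : (B → Γ) → Prop) {d : ℕ} (hd : 0 < d) {c : ℝ} (hc : 0 ≤ c) (hi : ∀ b, sens G b ≤ c ^ 2) :
    dens G - dens G ^ 2 ≤ (Fintype.card κ * ∑ b, sens G b) * (1 / d + 4 ^ d * c) := by
  let E : (B × κ → ZMod 2) ≃ (B → Γ) :=
    (Equiv.curry B κ (ZMod 2)).trans (Equiv.piCongrRight fun _ => e.symm)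
  have hE : ∀ x b, E x b = e.symm fun k => x (b, k) := fun _ _ => rfl
  have h1 : 𝔼 x, ind (G (E x)) = dens G := Fintype.expect_equiv E _ _ fun _ => rfl
  have h2 : ∀ p : B × κ, infl (fun x => ind (G (E x))) p ≤ sens G p.1 := by
    rintro ⟨b, k⟩
    rw [sens, ← Fintype.expect_equiv E (fun x => ind (∃ q,
      ¬ (G (Function.update (E x) b q) ↔ G (E x)))) _ fun _ => rfl]
    refine expect_le_expect fun x _ => ?_
    have h3 : E (x + Pi.single (b, k) 1) =
        Function.update (E x) b (E (x + Pi.single (b, k) 1) b) := by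
      funext b'
      by_cases h : b' = b
      · subst h
        simp
      · rw [Function.update_of_ne h, hE, hE]
        congr 1
        funext k'
        simp [h]
    dsimp only
    by_cases h : G (E (x + Pi.single (b, k) 1)) ↔ G (E x)
    · rw [ind_congr h]
      simpa using ind_nonneg _
    · rw [h3] at h
      rw [ind_pos (p := ∃ q, ¬ (G (Function.update (E x) b q) ↔ G (E x))) ⟨_, h⟩]
      rcases ind_cases (G (E x)) with h4 | h4 <;>
        rcases ind_cases (G (E (x + Pi.single (b, k) 1))) with h5 | h5 <;> simp [h4, h5]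
  have h4 := weak_kkl (f := fun x => ind (G (E x))) (fun x => ind_cases _) hd hc
    fun p => (h2 p).trans (hi p.1)
  rw [h1] at h4
  refine h4.trans (mul_le_mul_of_nonneg_right ?_ (by positivity))
  refine (sum_le_sum fun p _ => h2 p).trans (le_of_eq ?_)
  rw [Fintype.sum_prod_type, mul_sum]
  simp

theorem expect_dens_update [Nonempty Γ] (G : (B → Γ) → Prop) (b : B) :
    𝔼 q, dens (fun z => G (Function.update z b q)) = dens G := by
  unfold dens
  rw [expect_comm]
  exact expect_update (fun z => ind (G z)) b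

theorem expect_sens_update [Nonempty Γ] (G : (B → Γ) → Prop) (b : B) :
    𝔼 q, ∑ b', sens (fun z => G (Function.update z b q)) b' = ∑ b', sens G b' - sens G b := by
  rw [expect_sum_comm, ← Finset.sum_erase_add _ _ (mem_univ b),
    ← Finset.sum_erase_add univ (sens G) (mem_univ b), add_sub_cancel_right]
  have h0 : 𝔼 q, sens (fun z => G (Function.update z b q)) b = 0 := by
    refine expect_eq_zero fun q _ => expect_eq_zero fun z _ => ind_neg ?_
    simp
  rw [h0, add_zero]
  refine sum_congr rfl fun b' hb' => ?_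
  have hne : b' ≠ b := ne_of_mem_erase hb'
  unfold sens
  rw [expect_comm, ← expect_update
    (fun z => ind (∃ q, ¬ (G (Function.update z b' q) ↔ G z))) b]
  refine expect_congr rfl fun z _ => expect_congr rfl fun q _ => ?_
  simp only [Function.update_comm hne]

/-- A set with bounded total sensitivity has density `7 / 8` in a subcube of bounded codimension,
where the total sensitivity is still bounded. -/
theorem exists_core {κ : Type} [Fintype κ] [DecidableEq κ] (Γ : Type) [Fintype Γ]
    (e : Γ ≃ (κ → ZMod 2)) {ε K : ℝ} (hε : 0 < ε) (hK : 0 < K) :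
    ∃ (m : ℕ) (K' : ℝ), ∀ (B : Type) [Fintype B] [DecidableEq B] (G : (B → Γ) → Prop),
      ε ≤ dens G → ∑ b, sens G b ≤ K → ∃ (J : Finset B) (z₀ : B → Γ), J.card ≤ m ∧
        7 / 8 ≤ dens (fun z => G (J.piecewise z₀ z)) ∧
        ∑ b, sens (fun z => G (J.piecewise z₀ z)) b ≤ K' := by
  have : Nonempty Γ := ⟨e.symm 0⟩
  set lam : ℝ := ε / (2 * K) with hlam
  have hl : 0 < lam := by positivity
  set M : ℝ := (Fintype.card κ + 1) / lam with hM
  have hM0 : 0 < M := by positivity
  obtain ⟨d, hd⟩ := exists_nat_gt (64 * M / ε)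
  have hd0 : (0 : ℝ) < d := lt_trans (by positivity) hd
  set c : ℝ := ε / (64 * M * 4 ^ d) with hc
  have hc0 : 0 < c := by positivity
  obtain ⟨m, hm⟩ := exists_nat_gt (1 / (lam * c ^ 2))
  have key : ∀ (B : Type) [Fintype B] [DecidableEq B] (j : ℕ) (G : (B → Γ) → Prop),
      ε / 2 ≤ dens G - lam * ∑ b, sens G b →
      1 - j * (lam * c ^ 2) < dens G - lam * ∑ b, sens G b →
      ∃ (J : Finset B) (z₀ : B → Γ), J.card ≤ j ∧
        7 / 8 ≤ dens (fun z => G (J.piecewise z₀ z)) ∧
        ∑ b, sens (fun z => G (J.piecewise z₀ z)) b ≤ 1 / lam := by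
    intro B _ _ j
    induction j with
    | zero =>
      intro G _ h2
      have h3 := dens_le_one G
      have h4 : 0 ≤ lam * ∑ b, sens G b := mul_nonneg hl.le (sum_nonneg fun b _ => sens_nonneg G b)
      simp only [Nat.cast_zero, zero_mul, sub_zero] at h2
      linarith
    | succ j ih =>
      intro G h1 h2
      have h3 := dens_le_one G
      have hS0 : 0 ≤ ∑ b, sens G b := sum_nonneg fun b _ => sens_nonneg G b
      have hS : ∑ b, sens G b ≤ 1 / lam := by
        rw [le_div_iff₀ hl]
        linarith
      by_cases h78 : 7 / 8 ≤ dens G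
      · exact ⟨∅, fun _ => Classical.arbitrary Γ, by simp, by simpa using h78, by simpa using hS⟩
      have hb : ∃ b, c ^ 2 < sens G b := by
        by_contra hb
        push Not at hb h78
        have h4 := block_kkl e G (d := d) (by exact_mod_cast hd0) hc0.le hb
        have h5 : Fintype.card κ * ∑ b, sens G b ≤ M := by
          rw [hM, div_eq_mul_one_div]
          exact mul_le_mul (by linarith) hS hS0 (by positivity)
        have h6 : 1 / (d : ℝ) + 4 ^ d * c < ε / (32 * M) := by
          have a1 : 1 / (d : ℝ) < ε / (64 * M) := by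
            rw [div_lt_div_iff₀ hd0 (by positivity)]
            rw [div_lt_iff₀ hε] at hd
            linarith
          have a2 : 4 ^ d * c = ε / (64 * M) := by
            rw [hc]
            field_simp
          have a3 : ε / (32 * M) = ε / (64 * M) + ε / (64 * M) := by
            field_simp
            norm_num
          linarith
        have h7 : (Fintype.card κ * ∑ b, sens G b) * (1 / d + 4 ^ d * c) ≤ ε / 32 := by
          calc _ ≤ M * (ε / (32 * M)) := mul_le_mul h5 h6.le (by positivity) hM0.le
            _ = ε / 32 := by field_simp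
        have h8 : ε / 2 ≤ dens G := by nlinarith [mul_nonneg hl.le hS0]
        nlinarith
      obtain ⟨b, hb⟩ := hb
      have h4 : 𝔼 q, (dens (fun z => G (Function.update z b q)) -
          lam * ∑ b', sens (fun z => G (Function.update z b q)) b') =
          dens G - lam * (∑ b', sens G b' - sens G b) := by
        rw [expect_sub_distrib, ← mul_expect, expect_dens_update, expect_sens_update]
      obtain ⟨q, -, hq⟩ := exists_le_of_le_expect univ_nonempty h4.ge
      have h5 : lam * c ^ 2 ≤ lam * sens G b := mul_le_mul_of_nonneg_left hb.le hl.le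
      have h6 : 0 ≤ lam * c ^ 2 := by positivity
      obtain ⟨J, z₀, hJ, g1, g2⟩ := ih (fun z => G (Function.update z b q)) (by nlinarith)
        (by push_cast at h2; nlinarith)
      have h7 : ∀ z, (insert b J).piecewise (Function.update z₀ b q) z =
          Function.update (J.piecewise z₀ z) b q := by
        intro z
        funext b'
        by_cases h : b' = b
        · subst h
          simp
        · by_cases h' : b' ∈ J <;> simp [h, h']
      refine ⟨insert b J, Function.update z₀ b q, (card_insert_le _ _).trans (by omega), ?_, ?_⟩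
      · simpa only [h7] using g1
      · simpa only [h7] using g2
  refine ⟨m, 1 / lam, fun B _ _ G h1 h2 => ?_⟩
  have h3 : ε / 2 ≤ dens G - lam * ∑ b, sens G b := by
    have : lam * ∑ b, sens G b ≤ ε / 2 := by
      calc _ ≤ lam * K := mul_le_mul_of_nonneg_left h2 hl.le
        _ = ε / 2 := by rw [hlam]; field_simp
    linarith
  refine key B m G h3 (lt_of_lt_of_le ?_ h3)
  rw [div_lt_iff₀ (by positivity)] at hm
  linarith

/-- Changing few coordinates of small sensitivity rarely changes membership. -/
theorem bad_le [Nonempty Γ] (G : (B → Γ) → Prop) {τ : ℝ} (hτ : 0 ≤ τ) (N : Finset B)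
    (hN : ∀ b ∈ N, sens G b ≤ τ) :
    𝔼 z, ind (∃ a, (∀ b, b ∉ N → a b = z b) ∧ ¬ (G a ↔ G z)) ≤
      τ * ((Fintype.card Γ : ℝ) + 1) ^ N.card := by
  induction N using Finset.induction_on with
  | empty =>
    refine le_trans (le_of_eq (expect_eq_zero fun z _ => ind_neg ?_)) (by positivity)
    rintro ⟨a, h1, h2⟩
    have : a = z := funext fun b => h1 b (by simp)
    exact h2 (by rw [this])
  | insert b N hb ih =>
    have h1 := ih fun b' hb' => hN b' (mem_insert_of_mem hb')
    set P : (B → Γ) → Prop := fun z => ∃ a, (∀ b, b ∉ N → a b = z b) ∧ ¬ (G a ↔ G z) with hP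
    have h2 : ∀ z, ind (∃ a, (∀ b', b' ∉ insert b N → a b' = z b') ∧ ¬ (G a ↔ G z)) ≤
        ind (∃ q, ¬ (G (Function.update z b q) ↔ G z)) +
          Fintype.card Γ * 𝔼 q, ind (P (Function.update z b q)) := by
      intro z
      rw [Fintype.card_mul_expect]
      have h3 : 0 ≤ ∑ q, ind (P (Function.update z b q)) := sum_nonneg fun _ _ => ind_nonneg _
      by_cases h : ∃ a, (∀ b', b' ∉ insert b N → a b' = z b') ∧ ¬ (G a ↔ G z)
      · rw [ind_pos h]
        obtain ⟨a, a1, a2⟩ := h
        by_cases h4 : G (Function.update z b (a b)) ↔ G z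
        · have h5 : P (Function.update z b (a b)) := by
            refine ⟨a, fun b' hb' => ?_, fun h6 => a2 (h6.trans h4)⟩
            by_cases h7 : b' = b
            · subst h7
              simp
            · rw [Function.update_of_ne h7]
              exact a1 b' (by simp [h7, hb'])
          have h6 := single_le_sum (f := fun q => ind (P (Function.update z b q)))
            (fun _ _ => ind_nonneg _) (mem_univ (a b))
          rw [ind_pos h5] at h6
          linarith [ind_nonneg (∃ q, ¬ (G (Function.update z b q) ↔ G z))]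
        · rw [ind_pos ⟨a b, h4⟩]
          linarith
      · rw [ind_neg h]
        exact add_nonneg (ind_nonneg _) h3
    refine (expect_le_expect fun z _ => h2 z).trans ?_
    rw [expect_add_distrib, ← mul_expect, expect_update (fun z => ind (P z)) b,
      card_insert_of_notMem hb, pow_succ]
    have h3 : sens G b ≤ τ := hN b (mem_insert_self _ _)
    have h4 : (1 : ℝ) ≤ ((Fintype.card Γ : ℝ) + 1) ^ N.card :=
      one_le_pow₀ (by linarith [Nat.cast_nonneg (α := ℝ) (Fintype.card Γ)])
    have h5 := mul_le_mul_of_nonneg_left h1 (Nat.cast_nonneg (α := ℝ) (Fintype.card Γ))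
    have h6 := mul_le_mul_of_nonneg_left h4 hτ
    change sens G b + _ ≤ _
    nlinarith

/-- Robust cores: outside a short list `T`, few coordinates can be changed arbitrarily. -/
theorem exists_robust_core {κ : Type} [Fintype κ] [DecidableEq κ] (Γ : Type) [Fintype Γ]
    (e : Γ ≃ (κ → ZMod 2)) {ε K : ℝ} (hε : 0 < ε) (hK : 0 < K) :
    ∃ (m t : ℕ), ∀ (B : Type) [Fintype B] [DecidableEq B] (G : (B → Γ) → Prop),
      ε ≤ dens G → ∑ b, sens G b ≤ K → ∃ (J T : Finset B) (z₀ : B → Γ), J.card ≤ m ∧ J ⊆ T ∧
        T.card ≤ t ∧ ∀ N : Finset B, N.card ≤ 2 * m → Disjoint N T →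
          3 / 4 ≤ 𝔼 z, ind (∀ a, (∀ b, b ∉ N → a b = J.piecewise z₀ z b) → G a) := by
  have : Nonempty Γ := ⟨e.symm 0⟩
  obtain ⟨m, K', h⟩ := exists_core Γ e hε hK
  set τ : ℝ := 1 / (8 * ((Fintype.card Γ : ℝ) + 1) ^ (2 * m)) with hτ
  have hτ0 : 0 < τ := by positivity
  obtain ⟨t, ht⟩ := exists_nat_ge (K' / τ)
  refine ⟨m, m + t, fun B _ _ G h1 h2 => ?_⟩
  obtain ⟨J, z₀, hJ, g1, g2⟩ := h B G h1 h2
  set G' : (B → Γ) → Prop := fun z => G (J.piecewise z₀ z) with hG'
  classical
  set T₀ : Finset B := univ.filter fun b => τ < sens G' b with hT₀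
  have hT : T₀.card ≤ t := by
    have a1 : (T₀.card : ℝ) * τ ≤ K' := by
      calc (T₀.card : ℝ) * τ = ∑ _b ∈ T₀, τ := by simp
        _ ≤ ∑ b ∈ T₀, sens G' b := sum_le_sum fun b hb => (mem_filter.1 hb).2.le
        _ ≤ ∑ b, sens G' b :=
          sum_le_sum_of_subset_of_nonneg (subset_univ _) fun b _ _ => sens_nonneg G' b
        _ ≤ K' := g2
    rw [div_le_iff₀ hτ0] at ht
    exact_mod_cast le_of_mul_le_mul_right (a1.trans ht) hτ0
  refine ⟨J, J ∪ T₀, z₀, hJ, subset_union_left, (card_union_le _ _).trans (by omega),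
    fun N hN hd => ?_⟩
  have h3 := bad_le G' hτ0.le N fun b hb => by
    by_contra h4
    exact disjoint_left.1 hd hb (mem_union_right _ (mem_filter.2 ⟨mem_univ _, not_le.1 h4⟩))
  have h4 : τ * ((Fintype.card Γ : ℝ) + 1) ^ N.card ≤ 1 / 8 := by
    calc _ ≤ τ * ((Fintype.card Γ : ℝ) + 1) ^ (2 * m) := mul_le_mul_of_nonneg_left
          (pow_le_pow_right₀ (by linarith [Nat.cast_nonneg (α := ℝ) (Fintype.card Γ)]) hN) hτ0.le
      _ = 1 / 8 := by rw [hτ]; field_simp
  have h5 : ∀ z, ind (G' z) - ind (∃ a, (∀ b, b ∉ N → a b = z b) ∧ ¬ (G' a ↔ G' z)) ≤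
      ind (∀ a, (∀ b, b ∉ N → a b = J.piecewise z₀ z b) → G a) := by
    intro z
    by_cases a1 : ∃ a, (∀ b, b ∉ N → a b = z b) ∧ ¬ (G' a ↔ G' z)
    · rw [ind_pos a1]
      linarith [ind_le_one (G' z),
        ind_nonneg (∀ a, (∀ b, b ∉ N → a b = J.piecewise z₀ z b) → G a)]
    · rw [ind_neg a1, sub_zero]
      refine ind_mono fun a2 a ha => ?_
      push Not at a1
      have a3 := (a1 (N.piecewise a z) fun b hb => by simp [hb]).2 a2
      have a4 : J.piecewise z₀ (N.piecewise a z) = a := by
        funext b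
        by_cases hb : b ∈ N
        · have : b ∉ J := fun hJ' => disjoint_left.1 hd hb (mem_union_left _ hJ')
          simp [hb, this]
        · rw [ha b hb]
          by_cases hb' : b ∈ J <;> simp [hb, hb']
      simpa only [hG', a4] using a3
  have h6 := expect_le_expect fun z (_ : z ∈ (univ : Finset (B → Γ))) => h5 z
  rw [expect_sub_distrib] at h6
  change dens G' - _ ≤ _ at h6
  linarith

end

end Vale.Agent.P342.LCode
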