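import Vale.Agent.P342.Core
import Vale.Agent.P342.Junta
import Vale.Agent.P325.GadgetLin
import Mathlib.Analysis.Calculus.Deriv.MeanValue

/-!
The long code lemma.
-/

namespace Vale.Agent.P342.LCode

open Finset
open scoped BigOperators

section

variable {B V : Type} [Fintype B] [DecidableEq B]

theorem sum_update_bool (h : (B → Bool) → ℝ) (b : B) :
    2 * ∑ R, h R = ∑ R, (h (Function.update R b true) + h (Function.update R b false)) := by
  have h1 := P325.expect_update h b
  have h2 : ∀ R, 𝔼 c, h (Function.update R b c) =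
      (h (Function.update R b true) + h (Function.update R b false)) / 2 := by
    intro R
    rw [Fintype.expect_eq_sum_div_card]
    simp
  simp only [h2] at h1
  rw [Fintype.expect_eq_sum_div_card, Fintype.expect_eq_sum_div_card,
    div_left_inj' (by positivity)] at h1
  rw [← h1, mul_sum]
  exact sum_congr rfl fun R _ => by ring

/-- A point with small total increment. -/
theorem russo (φ : (B → Bool) → ℝ) (h0 : ∀ R, 0 ≤ φ R) (h1 : ∀ R, φ R ≤ 1) :
    ∃ R, ∑ b, (φ (Function.update R b true) - φ (Function.update R b false)) ≤ 1 := by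
  let ω : ℝ → Bool → ℝ := fun p c => if c then p else 1 - p
  let ω' : Bool → ℝ := fun c => if c then 1 else -1
  have hω : ∀ c p, HasDerivAt (fun p => ω p c) (ω' c) p := by
    intro c p
    cases c
    · simpa [ω, ω'] using (hasDerivAt_id p).const_sub 1
    · simpa [ω, ω'] using hasDerivAt_id' p
  have hsum : ∀ p, ∑ R : B → Bool, ∏ b, ω p (R b) = 1 := by
    intro p
    rw [← Fintype.piFinset_univ, ← prod_univ_sum]
    simp [ω]
  have hnn : ∀ p, 0 ≤ p → p ≤ 1 → ∀ R : B → Bool, 0 ≤ ∏ b, ω p (R b) := by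
    intro p a1 a2 R
    refine prod_nonneg fun b _ => ?_
    simp only [ω]
    split_ifs <;> linarith
  let Φ : ℝ → ℝ := fun p => ∑ R : B → Bool, φ R * ∏ b, ω p (R b)
  have hΦ : ∀ p, HasDerivAt Φ (∑ R : B → Bool,
      φ R * ∑ b, (∏ j ∈ univ.erase b, ω p (R j)) • ω' (R b)) p := fun p =>
    HasDerivAt.fun_sum fun R _ => (HasDerivAt.fun_finsetProd fun b _ => hω (R b) p).const_mul _
  obtain ⟨p, ⟨p0, p1⟩, hp⟩ := exists_hasDerivAt_eq_slope Φ _ zero_lt_one
    (fun p _ => (hΦ p).continuousAt.continuousWithinAt) fun p _ => hΦ p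
  have a1 : Φ 1 ≤ 1 := le_of_le_of_eq
    (sum_le_sum fun R _ => mul_le_of_le_one_left (hnn 1 zero_le_one le_rfl R) (h1 R)) (hsum 1)
  have a0 : 0 ≤ Φ 0 := sum_nonneg fun R _ => mul_nonneg (h0 R) (hnn 0 le_rfl zero_le_one R)
  have a2 : ∑ R : B → Bool, φ R * ∑ b, (∏ j ∈ univ.erase b, ω p (R j)) • ω' (R b) =
      ∑ R : B → Bool, (∏ b, ω p (R b)) *
        ∑ b, (φ (Function.update R b true) - φ (Function.update R b false)) := by
    simp only [mul_sum]
    rw [sum_comm, sum_comm (s := (univ : Finset (B → Bool)))]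
    refine sum_congr rfl fun b _ => mul_left_cancel₀ two_ne_zero ?_
    rw [sum_update_bool _ b, sum_update_bool _ b]
    refine sum_congr rfl fun R _ => ?_
    have e1 : ∀ c, ∏ j ∈ univ.erase b, ω p (Function.update R b c j) =
        ∏ j ∈ univ.erase b, ω p (R j) := fun c =>
      prod_congr rfl fun j hj => by rw [Function.update_of_ne (ne_of_mem_erase hj)]
    simp only [← mul_prod_erase univ _ (mem_univ b), e1, Function.update_self,
      Function.update_idem, ω, ω', smul_eq_mul, if_true, Bool.false_eq_true, if_false]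
    ring
  by_contra hc
  push Not at hc
  have a3 : ∑ R : B → Bool, ∏ b, ω p (R b) < ∑ R : B → Bool, (∏ b, ω p (R b)) *
      ∑ b, (φ (Function.update R b true) - φ (Function.update R b false)) := by
    refine sum_lt_sum_of_nonempty univ_nonempty fun R _ => lt_mul_of_one_lt_right ?_ (hc R)
    refine prod_pos fun b _ => ?_
    simp only [ω]
    split_ifs <;> linarith
  rw [hsum, ← a2, hp] at a3
  linarith

/-- Pairs of words such that a word of `I` can be read, with a second choice on `R`. -/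
def up (I : Finset (B → V)) (R : B → Bool) (z : B → V × V) : Prop :=
  ∃ y ∈ I, ∀ b, y b = (z b).1 ∨ (R b = true ∧ y b = (z b).2)

theorem sens_up [Fintype V] [Nonempty V] (I : Finset (B → V)) (R : B → Bool) (b : B) :
    sens (up I R) b ≤ Fintype.card (V × V) *
      (dens (up I (Function.update R b true)) - dens (up I (Function.update R b false))) := by
  unfold sens dens
  rw [← expect_sub_distrib, ← P325.expect_update (fun z =>
    ind (up I (Function.update R b true) z) - ind (up I (Function.update R b false) z)) b,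
    mul_expect]
  refine expect_le_expect fun z _ => ?_
  rw [Fintype.card_mul_expect]
  set Y : V → Prop := fun c => ∃ y ∈ I, y b = c ∧
    ∀ b', b' ≠ b → y b' = (z b').1 ∨ (R b' = true ∧ y b' = (z b').2) with hY
  have key : ∀ c q, up I (Function.update R b c) (Function.update z b q) ↔
      Y q.1 ∨ (c = true ∧ Y q.2) := by
    intro c q
    constructor
    · rintro ⟨y, hy, h⟩
      have h1 : ∀ b', b' ≠ b → y b' = (z b').1 ∨ (R b' = true ∧ y b' = (z b').2) :=
        fun b' hb' => by simpa [hb'] using h b'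
      have h2 := h b
      simp only [Function.update_self] at h2
      exact h2.imp (fun a => ⟨y, hy, a, h1⟩) fun a => ⟨a.1, y, hy, a.2, h1⟩
    · rintro (⟨y, hy, a, h⟩ | ⟨a', y, hy, a, h⟩) <;> refine ⟨y, hy, fun b' => ?_⟩ <;>
        by_cases hb' : b' = b
      · simp [hb', a]
      · simpa [hb'] using h b' hb'
      · simp [hb', a, a']
      · simpa [hb'] using h b' hb'
  have hnn : ∀ q ∈ (univ : Finset (V × V)),
      0 ≤ ind (up I (Function.update R b true) (Function.update z b q)) -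
        ind (up I (Function.update R b false) (Function.update z b q)) := fun q _ =>
    sub_nonneg.2 (ind_mono fun h => (key _ _).2 (Or.inl (by simpa using (key _ _).1 h)))
  by_cases h : ∃ q, ¬ (up I R (Function.update z b q) ↔ up I R z)
  · rw [ind_pos h]
    obtain ⟨q, hq⟩ := h
    have k1 := key (R b) q
    have k2 := key (R b) (z b)
    rw [Function.update_eq_self] at k1 k2
    rw [Function.update_eq_self] at k2
    rw [k1, k2] at hq
    obtain ⟨c, hc⟩ : ∃ c, Y c := by
      by_contra h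
      push Not at h
      simp [h] at hq
    obtain ⟨c', hc'⟩ : ∃ c', ¬ Y c' := by
      by_contra h
      push Not at h
      simp [h] at hq
    refine le_trans ?_ (single_le_sum hnn (mem_univ (c', c)))
    rw [ind_pos ((key _ _).2 (Or.inr ⟨rfl, hc⟩)),
      ind_neg fun h => by simpa [hc'] using (key _ _).1 h]
    norm_num
  · rw [ind_neg h]
    exact sum_nonneg hnn

theorem dens_up [Fintype V] [AddCommGroup V] (I : Finset (B → V)) (R : B → Bool) :
    (I.card : ℝ) / Fintype.card (B → V) ≤ dens (up I R) := by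
  classical
  have h1 := P325.expect_hom (A := B → V × V) (B := B → V)
    ((AddMonoidHom.fst V V).compLeft B) (fun y => ⟨fun b => (y b, 0), rfl⟩) fun y => ind (y ∈ I)
  have h2 : 𝔼 y, ind (y ∈ I) = (I.card : ℝ) / Fintype.card (B → V) := by
    rw [Fintype.expect_eq_sum_div_card]
    congr 1
    rw [sum_congr rfl fun y _ => (show ind (y ∈ I) = if y ∈ I then 1 else 0 by simp [ind])]
    simp
  rw [← h2, ← h1]
  exact expect_le_expect fun z _ => ind_mono fun h => ⟨_, h, fun b => Or.inl rfl⟩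

theorem expect_comp_inj {P Γ : Type} [Fintype P] [DecidableEq P] [Fintype Γ] [AddCommGroup Γ]
    {ι : B → P} (hι : Function.Injective ι) (Φ : (B → Γ) → ℝ) :
    𝔼 s : P → Γ, Φ (fun b => s (ι b)) = 𝔼 z, Φ z :=
  P325.expect_hom (A := P → Γ) (B := B → Γ)
    { toFun := fun s b => s (ι b), map_zero' := rfl, map_add' := fun _ _ => rfl }
    (fun z => ⟨Function.extend ι z 0, funext fun b => hι.extend_apply _ _ b⟩) Φ

omit [DecidableEq B] in
theorem exists_slots {B' : Type} [DecidableEq B'] {π : B → B'}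
    (h : ∀ y, (univ.filter fun b => π b = y).card ≤ 2) :
    ∃ ι : B → B' × Fin 2, Function.Injective ι ∧ ∀ b, (ι b).1 = π b := by
  have h1 : ∀ y, Nonempty ({b // π b = y} ↪ Fin 2) := fun y =>
    Function.Embedding.nonempty_of_card_le (by simpa [Fintype.card_subtype] using h y)
  refine ⟨fun b => (π b, (h1 (π b)).some ⟨b, rfl⟩), fun b b' hb => ?_, fun _ => rfl⟩
  obtain ⟨a1, a2⟩ := Prod.ext_iff.1 hb
  have a3 : ∀ y (hy : π b = y), (h1 (π b)).some ⟨b, rfl⟩ = (h1 y).some ⟨b, hy⟩ := by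
    rintro y rfl
    rfl
  exact congrArg Subtype.val ((h1 (π b')).some.injective ((a3 _ a1).symm.trans a2))

end

/-- No common symbol. -/
def Sep (x y : Fin 2 → Vec 3 × Vec 3) : Prop :=
  ∀ i j, ∀ c ∈ ({(x i).1, (x i).2} : Finset (Vec 3)), c ≠ (y j).1 ∧ c ≠ (y j).2

theorem exists_sep : ∃ φ : (Fin 2 → Vec 3 × Vec 3) ≃ (Fin 2 → Vec 3 × Vec 3), ∀ x, Sep x (φ x) := by
  let D : (Fin 2 → Vec 3 × Vec 3) → Finset (Vec 3) := fun x =>
    {0, (x 0).1 + (x 0).2, (x 0).1 + (x 1).1, (x 0).1 + (x 1).2, (x 0).2 + (x 1).1,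
      (x 0).2 + (x 1).2, (x 1).1 + (x 1).2}
  have h1 : ∀ S : Finset (Vec 3), ∃ δ, S.card ≤ 7 → δ ∉ S := by
    intro S
    by_contra h
    push Not at h
    have h2 : S = univ := eq_univ_of_forall fun δ => (h δ).2
    have h3 := (h 0).1
    rw [h2] at h3
    simp at h3
  choose pick hp using h1
  have h2 : ∀ a : Vec 3, a + a = 0 := by decide
  have h3 : ∀ a b c : Vec 3, a + c + (b + c) = a + b := by decide
  have hD : ∀ x δ, D (fun i => x i + (δ, δ)) = D x := by
    intro x δ
    simp only [D, Prod.fst_add, Prod.snd_add, h3]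
  have hinv : Function.Involutive fun x i => x i + (pick (D x), pick (D x)) := by
    intro x
    funext i
    simp only [hD]
    ext1 <;> simp [add_assoc, h2]
  refine ⟨hinv.toPerm, fun x => ?_⟩
  have h4 := hp (D x) ((card_insert_le _ _).trans (Nat.succ_le_succ card_le_six))
  have h5 : ∀ a b c : Vec 3, c ≠ a + b → a ≠ b + c ∧ b ≠ a + c := by decide
  have h6 : ∀ a c : Vec 3, c ≠ 0 → a ≠ a + c := by decide
  simp only [D, mem_insert, mem_singleton, not_or] at h4
  obtain ⟨a0, a1, a2, a3, a4, a5, a6⟩ := h4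
  have b0 := fun a => h6 a _ a0
  have b1 := h5 _ _ _ a1
  have b2 := h5 _ _ _ a2
  have b3 := h5 _ _ _ a3
  have b4 := h5 _ _ _ a4
  have b5 := h5 _ _ _ a5
  have b6 := h5 _ _ _ a6
  simp only [Sep, Fin.forall_fin_two, mem_insert, mem_singleton, forall_eq_or_imp, forall_eq,
    Function.Involutive.coe_toPerm, Prod.fst_add, Prod.snd_add]
  tauto

theorem long_code_fin {m : ℕ} {B B' : Type} [Fintype B] [DecidableEq B] [Fintype B']
    [DecidableEq B'] {π π' : B → B'} (hπ : ∀ y, (univ.filter fun b => π b = y).card ≤ 2)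
    (hπ' : ∀ y, (univ.filter fun b => π' b = y).card ≤ 2) {I I' : Finset (B → Vec 3)}
    {R R' : B → Bool} {J J' T T' : Finset B} {z₀ z₀' : B → Vec 3 × Vec 3} (hJ : J.card ≤ m)
    (hJ' : J'.card ≤ m) (hT : J ⊆ T) (hT' : J' ⊆ T')
    (h : ∀ N : Finset B, N.card ≤ 2 * m → Disjoint N T →
      3 / 4 ≤ 𝔼 z, ind (∀ a, (∀ b, b ∉ N → a b = J.piecewise z₀ z b) → up I R a))
    (h' : ∀ N : Finset B, N.card ≤ 2 * m → Disjoint N T' →
      3 / 4 ≤ 𝔼 z, ind (∀ a, (∀ b, b ∉ N → a b = J'.piecewise z₀' z b) → up I' R' a))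
    (hI : ∀ x ∈ I, ∀ x' ∈ I', ∃ b b', π b = π' b' ∧ x b = x' b') :
    ∃ b ∈ T, ∃ b' ∈ T', π b = π' b' := by
  by_contra hc
  push Not at hc
  obtain ⟨ι, hι, e⟩ := exists_slots hπ
  obtain ⟨ι', hι', e'⟩ := exists_slots hπ'
  obtain ⟨φ, hφ⟩ := exists_sep
  have hN : ∀ (p p' : B → B') (K : Finset B), (∀ y, (univ.filter fun b => p b = y).card ≤ 2) →
      K.card ≤ m → (univ.filter fun b => p b ∈ K.image p').card ≤ 2 * m := by
    intro p p' K hp hK
    refine (card_le_mul_card_image_of_maps_to (f := p) (t := K.image p')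
      (fun b hb => (mem_filter.1 hb).2) 2 fun y _ => le_trans (card_le_card fun b hb => ?_)
      (hp y)).trans (Nat.mul_le_mul_left 2 (card_image_le.trans hK))
    exact mem_filter.2 ⟨mem_univ _, (mem_filter.1 hb).2⟩
  set N := univ.filter fun b => π b ∈ J'.image π' with hNd
  set N' := univ.filter fun b => π' b ∈ J.image π with hNd'
  have g := h N (hN π π' J' hπ hJ') (disjoint_left.2 fun b hb hb' => by
    obtain ⟨c, hc1, hc2⟩ := mem_image.1 (mem_filter.1 hb).2
    exact hc b hb' c (hT' hc1) hc2.symm)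
  have g' := h' N' (hN π' π J hπ' hJ) (disjoint_left.2 fun b hb hb' => by
    obtain ⟨c, hc1, hc2⟩ := mem_image.1 (mem_filter.1 hb).2
    exact hc c (hT hc1) b hb' hc2)
  let Ψ : (B' × Fin 2 → Vec 3 × Vec 3) ≃ (B' × Fin 2 → Vec 3 × Vec 3) :=
    ((Equiv.curry _ _ _).trans (Equiv.piCongrRight fun _ => φ)).trans (Equiv.curry _ _ _).symm
  have hΨ : ∀ s p, Ψ s p = φ (fun i => s (p.1, i)) p.2 := fun _ _ => rfl
  rw [← expect_comp_inj hι] at g
  rw [← expect_comp_inj hι', ← Fintype.expect_equiv Ψ _ _ fun _ => rfl] at g'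
  obtain ⟨s, a, a'⟩ : ∃ s : B' × Fin 2 → Vec 3 × Vec 3,
      (∀ a, (∀ b, b ∉ N → a b = J.piecewise z₀ (fun b => s (ι b)) b) → up I R a) ∧
      (∀ a, (∀ b, b ∉ N' → a b = J'.piecewise z₀' (fun b => Ψ s (ι' b)) b) → up I' R' a) := by
    by_contra hs
    have h1 := add_le_add g g'
    rw [← expect_add_distrib] at h1
    refine absurd (h1.trans (expect_le (a := 1) univ_nonempty fun s _ => ?_)) (by norm_num)
    rcases not_and_or.1 (not_exists.1 hs s) with h2 | h2 <;> rw [ind_neg h2] <;>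
      simp [ind_le_one]
  have how : ∀ (κ : B → B' × Fin 2) (K : Finset B) (z : B → Vec 3 × Vec 3)
      (s : B' × Fin 2 → Vec 3 × Vec 3), Function.Injective κ →
      ∃ w : B' × Fin 2 → Vec 3 × Vec 3, (∀ b, w (κ b) = K.piecewise z (fun b => s (κ b)) b) ∧
        ∀ p, (∀ b ∈ K, (κ b).1 ≠ p.1) → w p = s p := by
    intro κ K z s hκ
    refine ⟨Function.extend κ (K.piecewise z fun b => s (κ b)) s,
      fun b => hκ.extend_apply _ _ b, fun p hp => ?_⟩
    by_cases h1 : ∃ b, κ b = p
    · obtain ⟨b, rfl⟩ := h1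
      rw [hκ.extend_apply, piecewise_eq_of_notMem _ _ _ fun hb => hp b hb rfl]
    · exact Function.extend_apply' _ _ _ h1
  obtain ⟨w, w1, w2⟩ := how ι J z₀ s hι
  obtain ⟨w', w1', w2'⟩ := how ι' J' z₀' (Ψ s) hι'
  let L : B' → Fin 2 → Vec 3 × Vec 3 := fun u =>
    if u ∈ J'.image π' then φ.symm fun i => w' (u, i) else fun i => w (u, i)
  let M : B' → Fin 2 → Vec 3 × Vec 3 := fun u =>
    if u ∈ J.image π then φ fun i => w (u, i) else fun i => w' (u, i)
  have hLM : ∀ u, Sep (L u) (M u) := by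
    intro u
    by_cases h1 : u ∈ J'.image π' <;> by_cases h2 : u ∈ J.image π
    · obtain ⟨b, b1, b2⟩ := mem_image.1 h2
      obtain ⟨c, c1, c2⟩ := mem_image.1 h1
      exact absurd (b2.trans c2.symm) (hc b (hT b1) c (hT' c1))
    · simpa only [L, M, if_pos h1, if_neg h2, Equiv.apply_symm_apply] using
        hφ (φ.symm fun i => w' (u, i))
    · simpa only [L, M, if_neg h1, if_pos h2] using hφ fun i => w (u, i)
    · have e1 : (fun i => w (u, i)) = fun i => s (u, i) := funext fun i =>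
        w2 _ fun b hb hu => h2 (mem_image.2 ⟨b, hb, (e b).symm.trans hu⟩)
      have e2 : (fun i => w' (u, i)) = φ fun i => s (u, i) := funext fun i =>
        (w2' _ fun b hb hu => h1 (mem_image.2 ⟨b, hb, (e' b).symm.trans hu⟩)).trans (hΨ _ _)
      simpa only [L, M, if_neg h1, if_neg h2, e1, e2] using hφ fun i => s (u, i)
  obtain ⟨y, y1, y2⟩ := a (fun b => L (π b) (ι b).2) fun b hb => by
    have h1 : π b ∉ J'.image π' := fun h1 => hb (mem_filter.2 ⟨mem_univ _, h1⟩)
    simp only [L, if_neg h1]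
    rw [← e b]
    exact w1 b
  obtain ⟨y', y1', y2'⟩ := a' (fun b => M (π' b) (ι' b).2) fun b hb => by
    have h1 : π' b ∉ J.image π := fun h1 => hb (mem_filter.2 ⟨mem_univ _, h1⟩)
    simp only [M, if_neg h1]
    rw [← e' b]
    exact w1' b
  obtain ⟨b, b', c1, c2⟩ := hI y y1 y' y1'
  have h1 := hLM (π b) (ι b).2 (ι' b').2 (y b) (by
    rcases y2 b with h1 | h1
    · simp [h1]
    · simp [h1.2])
  rw [c1, c2] at h1
  rcases y2' b' with h2 | h2
  exacts [h1.1 h2, h1.2 h2.2]

end Vale.Agent.P342.LCode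

namespace Vale.Agent.P342

open Finset LCode
open scoped BigOperators

theorem long_code : LongCodeThm := by
  intro ε hε
  let e : Vec 3 × Vec 3 ≃ (Fin 3 ⊕ Fin 3 → ZMod 2) := (Equiv.sumArrowEquivProdArrow _ _ _).symm
  obtain ⟨m, t, h⟩ := exists_robust_core (Vec 3 × Vec 3) e hε
    (K := Fintype.card (Vec 3 × Vec 3)) (by exact_mod_cast Fintype.card_pos)
  refine ⟨t, fun B _ _ => ?_⟩
  have h1 : ∀ I : Finset (B → Vec 3), ∃ T : Finset B, T.card ≤ t ∧
      (ε * Fintype.card (B → Vec 3) ≤ I.card → ∃ (R : B → Bool) (J : Finset B)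
        (z₀ : B → Vec 3 × Vec 3), J.card ≤ m ∧ J ⊆ T ∧ ∀ N : Finset B, N.card ≤ 2 * m →
          Disjoint N T →
          3 / 4 ≤ 𝔼 z, ind (∀ a, (∀ b, b ∉ N → a b = J.piecewise z₀ z b) → up I R a)) := by
    intro I
    by_cases hI : ε * Fintype.card (B → Vec 3) ≤ I.card
    · obtain ⟨R, hR⟩ := russo (fun R => dens (up I R)) (fun _ => dens_nonneg _)
        fun _ => dens_le_one _
      obtain ⟨J, T, z₀, a1, a2, a3, a4⟩ := h B (up I R)
        (le_trans ((le_div_iff₀ (by exact_mod_cast Fintype.card_pos)).2 hI) (dens_up I R)) (by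
          refine (sum_le_sum fun b _ => sens_up I R b).trans ?_
          rw [← mul_sum]
          exact mul_le_of_le_one_right (Nat.cast_nonneg _) hR)
      exact ⟨T, a3, fun _ => ⟨R, J, z₀, a1, a2, a4⟩⟩
    · exact ⟨∅, Nat.zero_le _, fun h => absurd h hI⟩
  choose T hT hT' using h1
  refine ⟨T, hT, fun B' _ π π' hπ hπ' I I' hI hI' hII => ?_⟩
  obtain ⟨R, J, z₀, a1, a2, a3⟩ := hT' I hI
  obtain ⟨R', J', z₀', a1', a2', a3'⟩ := hT' I' hI'
  let S : Finset B' := univ.image π ∪ univ.image π'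
  let p : B → S := fun b => ⟨π b, mem_union_left _ (mem_image_of_mem _ (mem_univ b))⟩
  let p' : B → S := fun b => ⟨π' b, mem_union_right _ (mem_image_of_mem _ (mem_univ b))⟩
  obtain ⟨b, b1, b', b2, b3⟩ := long_code_fin (π := p) (π' := p')
    (fun y => by simpa only [p, Subtype.ext_iff] using hπ y.1)
    (fun y => by simpa only [p', Subtype.ext_iff] using hπ' y.1) a1 a1' a2 a2' a3 a3'
    fun x hx x' hx' => by simpa only [p, p', Subtype.ext_iff] using hII x hx x' hx'
  exact ⟨b, b1, b', b2, congrArg Subtype.val b3⟩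

end Vale.Agent.P342
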