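import Vale.Agent.P342.Core
import Vale.Agent.Lib.PCP.LabelCover

/-!
The reduction from label cover to colouring of lists of arcs: polynomial time, completeness with
64 colours, and soundness from the long code lemma and the soundness of the game.
-/

namespace Vale.Agent.P342

open Finset Vale.Agent.Lib.PCP Vale.Agent.Lib.PolyTime
open scoped BigOperators

/-! ### All tuples of members of a list -/

section Tuples

variable {α : Type}

/-- The list of all `k`-tuples of members of `L`. -/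
def tup : (k : ℕ) → List α → List (Fin k → α)
  | 0, _ => [Fin.elim0]
  | k + 1, L => L.flatMap fun a => (tup k L).map fun T => Fin.cons a T

theorem mem_tup {k : ℕ} {L : List α} {T : Fin k → α} : T ∈ tup k L ↔ ∀ i, T i ∈ L := by
  induction k with
  | zero =>
    simp only [tup, List.mem_singleton, IsEmpty.forall_iff, iff_true]
    exact Subsingleton.elim _ _
  | succ k ih =>
    simp only [tup, List.mem_flatMap, List.mem_map]
    constructor
    · rintro ⟨a, ha, T', hT', rfl⟩ i
      refine Fin.cases ?_ (fun i => ?_) i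
      · exact ha
      · exact ih.1 hT' i
    · intro h
      exact ⟨T 0, h 0, Fin.tail T, ih.2 fun i => h _, Fin.cons_self_tail T⟩

theorem PT_tup [Enc α] (k : ℕ) : PT ∅ (tup k : List α → List (Fin k → α)) := by
  induction k with
  | zero => exact PT.const _
  | succ k ih =>
    refine PT.flatMap (f := fun (L : List α) (a : α) =>
      (tup k L).map fun T => (Fin.cons a T : Fin (k + 1) → α)) PT.id ?_
    refine PT.map (f := fun (p : List α × α) (T : Fin k → α) =>
      (Fin.cons p.2 T : Fin (k + 1) → α)) (ih.comp PT.fst') (PT.funMk fun i => ?_)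
    refine Fin.cases ?_ (fun i => ?_) i
    · exact PT.fst'.snd
    · exact PT.funAt PT.snd' i

end Tuples

/-! ### Classes modulo a vector -/

section Cls

variable {s : ℕ}

theorem vec_add_self (w : Vec s) : w + w = 0 := by
  funext i
  have : ∀ a : ZMod 2, a + a = 0 := by decide
  exact this _

theorem cls_eq_iff {w u v : Vec s} : cls w u = cls w v ↔ ∃ r : ZMod 2, u = v + r • w := by
  constructor
  · intro h
    have h1 : u ∈ cls w v := h ▸ (by simp [cls])
    simp only [cls, mem_insert, mem_singleton] at h1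
    rcases h1 with h1 | h1
    · exact ⟨0, by simp [h1]⟩
    · exact ⟨1, by simp [h1]⟩
  · rintro ⟨r, rfl⟩
    have hr : ∀ r : ZMod 2, r = 0 ∨ r = 1 := by decide
    rcases hr r with rfl | rfl
    · simp
    · rw [one_smul, cls, cls, add_assoc, vec_add_self, add_zero, Finset.pair_comm]

theorem cls_sum {ι : Type} [Fintype ι] {w : Vec s} {a a' : ι → Vec s}
    (h : ∀ b, cls w (a b) = cls w (a' b)) : cls w (∑ b, a b) = cls w (∑ b, a' b) := by
  choose r hr using fun b => cls_eq_iff.1 (h b)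
  refine cls_eq_iff.2 ⟨∑ b, r b, ?_⟩
  rw [Finset.sum_smul, ← Finset.sum_add_distrib]
  exact Finset.sum_congr rfl fun b _ => hr b

theorem cls_add_smul (w u : Vec s) (r : ZMod 2) : cls w (u + r • w) = cls w u :=
  cls_eq_iff.2 ⟨r, rfl⟩

theorem card_fibre_cls (w c : Vec s) (y : Finset (Vec s)) :
    (univ.filter fun b => cls w (b + c) = y).card ≤ 2 := by
  rcases (univ.filter fun b => cls w (b + c) = y).eq_empty_or_nonempty with h | ⟨b0, h0⟩
  · simp [h]
  · refine (Finset.card_le_card (t := {b0, b0 + w}) fun b hb => ?_).trans Finset.card_le_two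
    rw [mem_filter] at hb h0
    obtain ⟨r, hr⟩ := cls_eq_iff.1 (hb.2.trans h0.2.symm)
    have h1 : b = b0 + r • w := by
      have : b + c = b0 + r • w + c := by rw [hr]; abel
      exact add_right_cancel this
    have hr : ∀ r : ZMod 2, r = 0 ∨ r = 1 := by decide
    rcases hr r with rfl | rfl <;> simp [h1]

end Cls

/-! ### The graph -/

section Graph

variable {l k : ℕ} {SA SB : Type}

instance [Finite SA] [Finite SB] : Finite (Tape l k SA SB) :=
  Finite.of_injective (fun τ : Tape l k SA SB => (τ.w, τ.j, τ.i, τ.h, τ.A, τ.F, τ.r, τ.c)) (by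
    rintro ⟨_, _, _, _, _, _, _, _⟩ ⟨_, _, _, _, _, _, _, _⟩ h
    simp only [Prod.mk.injEq] at h
    obtain ⟨rfl, rfl, rfl, rfl, rfl, rfl, rfl, rfl⟩ := h
    rfl)

/-- The finite data of an arc. -/
abbrev ArcData (l k : ℕ) (SA SB : Type) : Type :=
  Tape l k SA SB × Tape l k SA SB × (Vec l → Vec 3) × (Vec l → Vec 3)

/-- The list of all finite data of arcs. -/
noncomputable def allData (l k : ℕ) (SA SB : Type) [Finite SA] [Finite SB] :
    List (ArcData l k SA SB) :=
  (@Finset.univ _ (Fintype.ofFinite _)).toList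

theorem mem_allData [Finite SA] [Finite SB] (q : ArcData l k SA SB) : q ∈ allData l k SA SB :=
  Finset.mem_toList.2 (@Finset.mem_univ _ (Fintype.ofFinite _) q)

/-- The number of the finite part of a vertex. -/
noncomputable def fcode [Finite SA] (A : Tab l k SA) (x : Vec l → Vec 3) : ℕ :=
  (Finite.equivFin (Tab l k SA × (Vec l → Vec 3)) (A, x) : ℕ)

/-- The name of a vertex of the graph. -/
noncomputable def vname [Finite SA] (v : Left l k SA × (Vec l → Vec 3)) : ℕ :=
  name (v.1.1, fcode v.1.2 v.2)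

theorem vname_injective [Finite SA] :
    Function.Injective (vname : Left l k SA × (Vec l → Vec 3) → ℕ) := by
  rintro ⟨⟨U, A⟩, x⟩ ⟨⟨U', A'⟩, x'⟩ h
  have h1 := name_injective h
  simp only [Prod.mk.injEq] at h1
  obtain ⟨rfl, h2⟩ := h1
  have h3 := (Finite.equivFin (Tab l k SA × (Vec l → Vec 3))).injective (Fin.ext h2)
  simp only [Prod.mk.injEq] at h3
  obtain ⟨rfl, rfl⟩ := h3
  rfl

/-- The condition for an arc. -/
def IsArc (e e' : Fin k → PEdge ℕ ℕ SA SB) (q : ArcData l k SA SB) : Prop :=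
  q.1.Ok ∧ q.2.1.Ok ∧ key e q.1 = key e' q.2.1 ∧
    ∀ f f', cls q.1.w (f + q.1.c) = cls q.2.1.w (f' + q.2.1.c) → q.2.2.1 f ≠ q.2.2.2 f'

open Classical in
/-- The arcs of a pair of tuples of edges. -/
noncomputable def arcs (l : ℕ) [Finite SA] [Finite SB] (e e' : Fin k → PEdge ℕ ℕ SA SB) :
    List (ℕ × ℕ) :=
  ((allData l k SA SB).filter fun q => decide (IsArc e e' q)).map fun q =>
    (vname (left e q.1, q.2.2.1), vname (left e' q.2.1, q.2.2.2))

/-- The list of arcs of a projection game. -/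
noncomputable def graph (l k : ℕ) [Finite SA] [Finite SB] (L : List (PEdge ℕ ℕ SA SB)) :
    List (ℕ × ℕ) :=
  (tup k L).flatMap fun e => (tup k L).flatMap fun e' => arcs l e e'

theorem mem_graph [Finite SA] [Finite SB] {L : List (PEdge ℕ ℕ SA SB)} {a : ℕ × ℕ} :
    a ∈ graph l k L ↔ ∃ (e e' : Fin k → PEdge ℕ ℕ SA SB) (q : ArcData l k SA SB),
      (∀ i, e i ∈ L) ∧ (∀ i, e' i ∈ L) ∧ IsArc e e' q ∧
        a = (vname (left e q.1, q.2.2.1), vname (left e' q.2.1, q.2.2.2)) := by
  simp only [graph, arcs, List.mem_flatMap, List.mem_map, List.mem_filter, mem_tup,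
    decide_eq_true_eq]
  constructor
  · rintro ⟨e, he, e', he', q, ⟨-, hq⟩, rfl⟩
    exact ⟨e, e', q, he, he', hq, rfl⟩
  · rintro ⟨e, e', q, he, he', hq, rfl⟩
    exact ⟨e, he, e', he', q, ⟨mem_allData q, hq⟩, rfl⟩

/-! ### Polynomial time -/

section PT

variable [Fintype SA] [Finite SB] [Enc SB] [EncInj SB] {α : Type} [Enc α]

theorem PT_vname {e : α → Fin k → PEdge ℕ ℕ SA SB} (he : PT ∅ e) (τ : Tape l k SA SB)
    (x : Vec l → Vec 3) : PT ∅ fun a => vname (left (e a) τ, x) := by
  refine PT.name (PT.pair (PT.funMk fun b => (PT.funAt he b).snd.fst) ?_)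
  exact PT.finComp (fun π : SA → SB =>
    fcode (Function.update τ.A τ.j (blk π τ.w τ.F τ.r)) x) (PT.funAt he τ.j).snd.snd

omit [Finite SB] [EncInj SB] in
theorem PT_keyName {e : α → Fin k → PEdge ℕ ℕ SA SB} (he : PT ∅ e) (τ : Tape l k SA SB) :
    PT ∅ fun a => (key (e a) τ).1 := by
  refine PT.funMk fun b => ?_
  by_cases h : b = τ.j
  · exact (PT.funAt he b).fst.congr fun a => by simp [key, h]
  · exact (PT.funAt he b).snd.fst.congr fun a => by simp [key, h]

omit [Finite SB] [EncInj SB] in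
open Classical in
theorem PT_isArc {e e' : α → Fin k → PEdge ℕ ℕ SA SB} (he : PT ∅ e) (he' : PT ∅ e')
    (q : ArcData l k SA SB) : PT ∅ fun a => decide (IsArc (e a) (e' a) q) := by
  refine ((PT.eq (PT_keyName he q.1) (PT_keyName he' q.2.1)).and (PT.const (decide (q.1.Ok ∧
    q.2.1.Ok ∧ kfin q.1 = kfin q.2.1 ∧ ∀ f f', cls q.1.w (f + q.1.c) = cls q.2.1.w (f' + q.2.1.c) →
      q.2.2.1 f ≠ q.2.2.2 f')))).congr fun a => ?_
  rw [Bool.eq_iff_iff, Bool.and_eq_true, decide_eq_true_eq, decide_eq_true_eq, decide_eq_true_eq]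
  constructor
  · rintro ⟨h1, h2, h3, h4, h5⟩
    exact ⟨h2, h3, Prod.ext h1 h4, h5⟩
  · rintro ⟨h2, h3, h1, h5⟩
    exact ⟨congrArg Prod.fst h1, h2, h3, congrArg Prod.snd h1, h5⟩

theorem PT_graph (l k : ℕ) : PT ∅ (graph l k : List (PEdge ℕ ℕ SA SB) → List (ℕ × ℕ)) := by
  classical
  refine PT.flatMap (f := fun (L : List (PEdge ℕ ℕ SA SB)) (e : Fin k → PEdge ℕ ℕ SA SB) =>
    (tup k L).flatMap fun e' => arcs l e e') (PT_tup k) ?_
  refine PT.flatMap (f := fun (p : List (PEdge ℕ ℕ SA SB) × (Fin k → PEdge ℕ ℕ SA SB))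
    (e' : Fin k → PEdge ℕ ℕ SA SB) => arcs l p.2 e') ((PT_tup k).comp PT.fst') ?_
  exact PT.filterMapConst (allData l k SA SB) (fun q _ => PT_isArc PT.fst'.snd PT.snd' q)
    fun q _ => (PT_vname PT.fst'.snd _ _).pair (PT_vname PT.snd' _ _)

end PT

/-! ### Completeness -/

/-- The two honest labels of a left vertex. -/
def lam (f : ℕ → SA) (z : Bool) (p : Left l k SA) : Vec l := ∑ b, p.2 b (f (p.1 b), z)

theorem lam_add (f : ℕ → SA) (z : Bool) (e : Fin k → PEdge ℕ ℕ SA SB) (τ : Tape l k SA SB) :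
    lam f z (left e τ) + τ.c = ∑ b, ((left e τ).2 b (f (e b).2.1, z) +
      if b = τ.j then τ.c else 0) := by
  rw [Finset.sum_add_distrib, Finset.sum_ite_eq' univ τ.j fun _ => τ.c, if_pos (mem_univ _)]
  rfl

theorem lam_key {g : ℕ → SB} {f : ℕ → SA} {e e' : Fin k → PEdge ℕ ℕ SA SB}
    (he : ∀ b, (e b).2.2 (f (e b).2.1) = g (e b).1)
    (he' : ∀ b, (e' b).2.2 (f (e' b).2.1) = g (e' b).1) {τ τ' : Tape l k SA SB} (hτ : τ.Ok)
    (h : key e τ = key e' τ') :
    ∃ z, cls τ.w (lam f z (left e τ) + τ.c) = cls τ'.w (lam f z (left e' τ') + τ'.c) := by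
  obtain ⟨w, j, i, hh, A, F, r, c⟩ := τ
  obtain ⟨w', j', i', hh', A', F', r', c'⟩ := τ'
  simp only [key, kfin, Prod.mk.injEq] at h
  obtain ⟨hn, rfl, rfl, rfl, rfl, hA, hF⟩ := h
  refine ⟨hh (f (e i).2.1), ?_⟩
  rw [lam_add, lam_add]
  refine cls_sum fun b => ?_
  have hn' := congrFun hn b
  by_cases hb : b = j
  · subst hb
    simp only [if_true] at hn'
    simp only [left, Function.update_self, blk, if_true, he, he']
    rw [add_right_comm, add_right_comm (F' _), cls_add_smul, cls_add_smul, ← hn']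
    exact congrFun hF _
  · simp only [if_neg hb] at hn'
    simp only [left, Function.update_of_ne hb, if_neg hb, add_zero]
    rw [← hn']
    have h1 := congrFun (congrFun hA b) (f (e b).2.1, hh (f (e i).2.1))
    simp only [if_neg hb] at h1
    by_cases hi : b = i
    · subst hi
      simpa using h1
    · simpa [if_neg hi] using h1

theorem graph_complete [Finite SA] [Finite SB] {L : List (PEdge ℕ ℕ SA SB)} {g : ℕ → SB}
    {f : ℕ → SA} (h : ∀ c ∈ L, c.2.2 (f c.2.1) = g c.1) : Col 64 (graph l k L) := by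
  have hc : Fintype.card (Vec 3 × Vec 3) = 64 := by simp
  obtain ⟨col, hcol⟩ := exists_transport' (vname_injective (l := l) (k := k) (SA := SA))
    fun v => Fintype.equivFinOfCardEq hc (v.2 (lam f false v.1), v.2 (lam f true v.1))
  refine ⟨col, fun a ha => ?_⟩
  obtain ⟨e, e', q, he, he', ⟨h1, -, h3, h4⟩, rfl⟩ := mem_graph.1 ha
  simp only [hcol]
  intro h5
  have h6 := (Fintype.equivFinOfCardEq hc).injective h5
  simp only [Prod.mk.injEq] at h6
  obtain ⟨z, hz⟩ := lam_key (fun b => h _ (he b)) (fun b => h _ (he' b)) h1 h3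
  cases z
  · exact h4 _ _ hz h6.1
  · exact h4 _ _ hz h6.2

/-! ### Soundness -/

theorem exists_ge_of_sum {c : ℕ} {m : Fin c → ℝ} (h : ∑ γ, m γ = 1) :
    ∃ γ, 1 / ((c : ℝ) + 1) ≤ m γ := by
  by_contra h1
  push Not at h1
  have h2 : ∑ γ, m γ ≤ ∑ _γ : Fin c, 1 / ((c : ℝ) + 1) :=
    Finset.sum_le_sum fun γ _ => (h1 γ).le
  rw [h, Finset.sum_const, card_univ, Fintype.card_fin, nsmul_eq_mul, mul_one_div,
    le_div_iff₀ (by positivity)] at h2
  linarith

theorem exists_dense {X : Type} [Fintype X] [Nonempty X] {c : ℕ} (φ : X → Fin c) :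
    ∃ γ, 1 / ((c : ℝ) + 1) * Fintype.card X ≤ (univ.filter fun x => φ x = γ).card := by
  have h0 : (0 : ℝ) < Fintype.card X := by exact_mod_cast Fintype.card_pos
  obtain ⟨γ, h⟩ := exists_ge_of_sum (m := fun γ =>
      ((univ.filter fun x => φ x = γ).card : ℝ) / Fintype.card X) (by
    rw [← Finset.sum_div, div_eq_one_iff_eq h0.ne', ← Nat.cast_sum, ← card_univ,
      Finset.card_eq_sum_card_fiberwise (f := φ) (s := univ) (t := univ) fun _ _ => mem_univ _])
  exact ⟨γ, (le_div_iff₀ h0).1 h⟩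

end Graph

/-- Hardness of `64`-colourable against not `c`-colourable lists of arcs. -/
theorem hard_of (hL : LongCodeThm) (hS : SoundThm) (c : ℕ) : Hard (GCol ℕ 64 c) := by
  classical
  have hε : (0 : ℝ) < 1 / ((c : ℝ) + 1) := by positivity
  obtain ⟨t, ht⟩ := hL _ hε
  obtain ⟨l, δ, hδ, hS⟩ := hS t _ hε
  obtain ⟨a, b, hH⟩ := hard_label_cover δ hδ
  obtain ⟨k, hk⟩ := hS (Fin (a + 1)) (Fin (b + 1))
  obtain ⟨TT, hT1, hT2⟩ := ht (Vec l)
  refine hH.red ⟨graph l k, PT_graph l k, fun L hL => ?_, fun L hL => ?_⟩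
  · obtain ⟨-, ⟨g, f⟩, h⟩ := gap_yes_one.1 hL
    exact graph_complete (g := g) (f := f) fun c hc => by simpa [satP] using h c hc
  · rintro ⟨col, hcol⟩
    have hl0 : 0 < L.length := List.length_pos_iff.2 hL.1
    have : Nonempty (Fin L.length) := ⟨⟨0, hl0⟩⟩
    have hval : ValLE (fun i : Fin L.length => L[i]) δ := by
      intro g f
      have h1 := hL.2 (g, f)
      rw [cnt_eq_sum, sum_map_eq_sum_fin] at h1
      rw [Fintype.expect_eq_sum_div_card, Fintype.card_fin, div_le_iff₀ (by exact_mod_cast hl0)]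
      refine le_trans (le_of_eq (Finset.sum_congr rfl fun i _ => ?_)) h1
      simp [satP]
    choose gam hgam using fun p : Left l k (Fin (a + 1)) =>
      exists_dense fun x : Vec l → Vec 3 => col (vname (p, x))
    obtain ⟨γ, hγ⟩ := exists_ge_of_sum (m := fun γ => 𝔼 e : Fin k → Fin L.length,
        𝔼 A : Tab l k (Fin (a + 1)),
          if gam (fun b => (L[e b]).2.1, A) = γ then (1 : ℝ) else 0) (by
      rw [← Finset.expect_sum_comm]
      simp only [← Finset.expect_sum_comm]
      simp)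
    refine absurd hγ (not_le.2 ?_)
    refine lt_of_le_of_lt (le_of_eq ?_) (hk (Fin L.length) (fun i => L[i]) hval
      (fun p => gam p = γ)
      (fun p => TT (univ.filter fun x => col (vname (p, x)) = gam p)) (fun p => hT1 _) ?_)
    · refine Finset.expect_congr (by congr) fun e _ => Finset.expect_congr (by congr) fun A _ => ?_
      congr
    · intro e e' τ τ' hτ hτ' hkey hS hS'
      refine hT2 (Finset (Vec l)) (fun f => cls τ.w (f + τ.c)) (fun f => cls τ'.w (f + τ'.c))
        (card_fibre_cls _ _) (card_fibre_cls _ _) _ _ (hgam _) (hgam _) ?_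
      intro x hx x' hx'
      by_contra hne
      push Not at hne
      have h1 := hcol _ (mem_graph.2 ⟨_, _, (τ, τ', x, x'), fun i => List.getElem_mem (e i).2,
        fun i => List.getElem_mem (e' i).2, ⟨hτ, hτ', hkey, hne⟩, rfl⟩)
      exact h1 (((mem_filter.1 hx).2.trans hS).trans ((mem_filter.1 hx').2.trans hS').symm)

end Vale.Agent.P342
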