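import Vale.Agent.P342.Sound5

/-!
Soundness: the final estimate.
-/

set_option linter.unusedSectionVars false

namespace Vale.Agent.P342

open Finset Matrix Vale.Agent.Lib.PCP Vale.Agent.Lib.PCP.Bilin
open scoped BigOperators Classical

variable {l k : ℕ} {SA SB E : Type} [Fintype SA] [DecidableEq SA] [Nonempty SA] [Fintype SB]
  [DecidableEq SB] [Nonempty SB] [Fintype E] [DecidableEq E] [Nonempty E]

theorem eqMod_iff {P : Matrix (Fin l) (Fin l) (ZMod 2)} {M M' : Mat l k SA} :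
    EqMod P (ofMat M) (ofMat M') ↔ ∃ C : Mat l k SA, M = M' + P * C := by
  constructor
  · intro h
    choose u hu using h
    refine ⟨Matrix.of fun r p => u p.1 p.2 r, ?_⟩
    ext r p
    have := congrFun (hu p.1 p.2) r
    simp only [mulVec, dotProduct, ofMat, Pi.add_apply] at this
    simp only [Matrix.add_apply, Matrix.mul_apply, Matrix.of_apply]
    rw [this, add_comm (M r p), ← add_assoc, f2_add_self, zero_add]
  · rintro ⟨C, rfl⟩ b q
    refine ⟨fun r => C r (b, q), ?_⟩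
    funext r
    simp only [mulVec, dotProduct, ofMat, Pi.add_apply, Matrix.add_apply, Matrix.mul_apply]
    rw [add_right_comm, f2_add_self, zero_add]

theorem EqMod.symm {P : Matrix (Fin l) (Fin l) (ZMod 2)} {A A' : Tab l k SA} (h : EqMod P A A') :
    EqMod P A' A := fun b q => add_comm (A b q) _ ▸ h b q

theorem EqMod.trans {P : Matrix (Fin l) (Fin l) (ZMod 2)} {A A' A'' : Tab l k SA}
    (h : EqMod P A A') (h' : EqMod P A' A'') : EqMod P A A'' := fun b q => by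
  have := inIm_add (h b q) (h' b q)
  rwa [← add_assoc, vec_add_add] at this

/-- The advantage of a functional over its translates. -/
noncomputable def adv (ξ : St (Fin l) (Pt k SA) → Vec l → Mat l k SA → Vec l → ℝ)
    (σ : St (Fin l) (Pt k SA)) (G : Pt k SA → ZMod 2) (M : Mat l k SA) : ℝ :=
  𝔼 a : Vec l, 𝔼 a' : Vec l, if σ.P *ᵥ a = 0 then 0 else
    ξ σ (σ.P *ᵥ a) M (M *ᵥ G) - ξ σ (σ.P *ᵥ a) M (M *ᵥ G + σ.P *ᵥ a')

theorem expect_translate_le {t ρ : ℕ} {ξ : St (Fin l) (Pt k SA) → Vec l → Mat l k SA → Vec l → ℝ}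
    (hξ : Weights t ξ) (σ : St (Fin l) (Pt k SA)) (hP : l ≤ σ.P.rank + ρ) {δ : ℝ}
    (hl : 2 * t * 2 ^ ρ ≤ δ / 2 * 2 ^ l) (w : Vec l) (M : Mat l k SA) (φ : Vec l) :
    𝔼 a' : Vec l, ξ σ w M (φ + σ.P *ᵥ a') ≤ δ / 2 := by
  have h1 : ∀ a' : Vec l, ξ σ w M (φ + σ.P *ᵥ a') =
      ∑ v, ξ σ w M (φ + v) * if σ.P *ᵥ a' = v then 1 else 0 := fun a' => by simp
  simp only [h1]
  rw [expect_sum_comm]
  simp only [← mul_expect]
  have h2 : ∀ v, (𝔼 a' : Vec l, if σ.P *ᵥ a' = v then (1 : ℝ) else 0) ≤ (1 / 2) ^ σ.P.rank := by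
    intro v
    refine le_trans (le_of_eq ?_) (show (if InIm σ.P v then (1 / 2 : ℝ) ^ σ.P.rank else 0) ≤ _ by
      split_ifs
      · exact le_rfl
      · positivity)
    convert prob_eq σ.P v
  refine (sum_le_sum fun v _ => mul_le_mul_of_nonneg_left (h2 v) (hξ.nonneg _ _ _ _)).trans ?_
  rw [← sum_mul, Fintype.sum_equiv (Equiv.addLeft φ) (fun v => ξ σ w M (φ + v)) (ξ σ w M)
    fun _ => rfl]
  refine (mul_le_mul_of_nonneg_right (hξ.sum_le σ w M) (by positivity)).trans ?_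
  have h3 : (2 : ℝ) ^ l ≤ 2 ^ σ.P.rank * 2 ^ ρ := by
    rw [← pow_add]; exact pow_le_pow_right₀ one_le_two hP
  have h4 : 0 ≤ δ / 2 := by
    by_contra h
    have : δ / 2 * 2 ^ l < 0 := mul_neg_of_neg_of_pos (not_le.1 h) (by positivity)
    have : (0 : ℝ) ≤ 2 * t * 2 ^ ρ := by positivity
    linarith
  rw [one_div, inv_pow, ← div_eq_mul_inv, div_le_iff₀ (by positivity)]
  refine le_of_mul_le_mul_right (hl.trans ?_) (show (0 : ℝ) < 2 ^ ρ by positivity)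
  rw [mul_assoc]
  exact mul_le_mul_of_nonneg_left h3 h4

theorem adv_coset {t ρ : ℕ} {ξ : St (Fin l) (Pt k SA) → Vec l → Mat l k SA → Vec l → ℝ}
    (hξ : Weights t ξ) (σ : St (Fin l) (Pt k SA)) (hP : l ≤ σ.P.rank + ρ)
    (hQ : Fintype.card (Pt k SA) ≤ σ.Q.rank + ρ) {δ : ℝ} (hδ : 0 ≤ δ)
    (hl : 2 * t * 2 ^ ρ ≤ δ / 2 * 2 ^ l) (G : Pt k SA → ZMod 2)
    (hG : δ ≤ 𝔼 C : Mat l k SA, 𝔼 a : Vec l,
      if σ.P *ᵥ a = 0 then 0 else ξ σ (σ.P *ᵥ a) (σ.pt C) (σ.pt C *ᵥ G)) :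
    (1 / 2) ^ (ρ * l) * (δ / 2) ≤ 𝔼 C : Mat l k SA,
      if InZoom σ (σ.T + σ.P * C) then adv ξ σ G (σ.T + σ.P * C) else 0 := by
  obtain ⟨μ, h1, h2⟩ := zoom_measure σ.P σ.Q hQ
  rw [Fintype.card_fin] at h1
  have h3 : δ / 2 ≤ 𝔼 C : Mat l k SA, adv ξ σ G (σ.T + σ.P * C * σ.Q) := by
    have h4 : ∀ C : Mat l k SA, (𝔼 a : Vec l,
        if σ.P *ᵥ a = 0 then 0 else ξ σ (σ.P *ᵥ a) (σ.pt C) (σ.pt C *ᵥ G)) - δ / 2 ≤
        adv ξ σ G (σ.pt C) := by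
      intro C
      rw [← Fintype.expect_const (ι := Vec l) (δ / 2), ← expect_sub_distrib]
      refine expect_le_expect fun a _ => ?_
      split_ifs
      · rw [Fintype.expect_const]; linarith
      · rw [expect_sub_distrib, Fintype.expect_const]
        have := expect_translate_le hξ σ hP hl (σ.P *ᵥ a) (σ.pt C) (σ.pt C *ᵥ G)
        linarith
    have h5 := expect_le_expect fun C (_ : C ∈ univ) => h4 C
    rw [expect_sub_distrib, Fintype.expect_const] at h5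
    exact le_trans (by linarith) h5
  refine le_trans (mul_le_mul h1 h3 (by positivity) (le_trans (by positivity) h1))
    (le_of_eq ?_)
  rw [← h2 fun X => adv ξ σ G (σ.T + X)]
  exact expect_congr rfl fun C _ => if_congr (by simp only [InZoom, add_right_inj]) rfl rfl

/-- A good state through the table. -/
def GoodSt (ξ : St (Fin l) (Pt k SA) → Vec l → Mat l k SA → Vec l → ℝ) (t ρ : ℕ) (δ : ℝ)
    (P : Matrix (Fin l) (Fin l) (ZMod 2)) (A : Tab l k SA) (σ : St (Fin l) (Pt k SA)) : Prop :=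
  σ.P = P ∧ EqMod P A (ofMat σ.T) ∧ σ.Good t ρ δ ξ

/-- A state with the given property. -/
noncomputable def stOf (p : St (Fin l) (Pt k SA) → Prop) : St (Fin l) (Pt k SA) :=
  @Classical.epsilon _ ⟨⟨0, 0, 0, ∅⟩⟩ p

/-- The functional of a good state. -/
noncomputable def fnOf (ξ : St (Fin l) (Pt k SA) → Vec l → Mat l k SA → Vec l → ℝ) (δ : ℝ)
    (σ : St (Fin l) (Pt k SA)) : Pt k SA → ZMod 2 :=
  Classical.epsilon fun G => G ∈ σ.Gs ∧ δ ≤ 𝔼 C : Mat l k SA, 𝔼 a : Vec l,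
    if σ.P *ᵥ a = 0 then 0 else ξ σ (σ.P *ᵥ a) (σ.pt C) (σ.pt C *ᵥ G)

theorem goodSt_congr (ξ : St (Fin l) (Pt k SA) → Vec l → Mat l k SA → Vec l → ℝ) (t ρ : ℕ) (δ : ℝ)
    {P : Matrix (Fin l) (Fin l) (ZMod 2)} {A A' : Tab l k SA} (h : EqMod P A A') :
    GoodSt ξ t ρ δ P A = GoodSt ξ t ρ δ P A' := by
  funext σ
  exact propext (and_congr_right fun _ => and_congr_left fun _ => ⟨h.symm.trans, h.trans⟩)

theorem stOf_spec {p : St (Fin l) (Pt k SA) → Prop} (h : ∃ σ, p σ) : p (stOf p) :=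
  Classical.epsilon_spec h

theorem fnOf_spec {ξ : St (Fin l) (Pt k SA) → Vec l → Mat l k SA → Vec l → ℝ} {t ρ : ℕ} {δ : ℝ}
    {σ : St (Fin l) (Pt k SA)} (h : σ.Good t ρ δ ξ) :
    fnOf ξ δ σ ∈ σ.Gs ∧ δ ≤ 𝔼 C : Mat l k SA, 𝔼 a : Vec l,
      if σ.P *ᵥ a = 0 then 0 else ξ σ (σ.P *ᵥ a) (σ.pt C) (σ.pt C *ᵥ fnOf ξ δ σ) := by
  obtain ⟨G, h1, h2⟩ := h.2.2.2
  refine Classical.epsilon_spec (p := fun G => G ∈ σ.Gs ∧ δ ≤ 𝔼 C : Mat l k SA, 𝔼 a : Vec l,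
    if σ.P *ᵥ a = 0 then 0 else ξ σ (σ.P *ᵥ a) (σ.pt C) (σ.pt C *ᵥ G)) ⟨G, h1, ?_⟩
  convert h2

theorem sel_good (ξ : (Fin k → ℕ) → St (Fin l) (Pt k SA) → Vec l → Mat l k SA → Vec l → ℝ)
    (t ρ : ℕ) (δ : ℝ) (P : Matrix (Fin l) (Fin l) (ZMod 2)) :
    Sel P t ρ (fun U A => ∃ σ, GoodSt (ξ U) t ρ δ P A σ)
      (fun U A => stOf (GoodSt (ξ U) t ρ δ P A))
      (fun U A => fnOf (ξ U) δ (stOf (GoodSt (ξ U) t ρ δ P A))) where
  inv U A A' h := by rw [goodSt_congr _ t ρ δ h]; exact ⟨Iff.rfl, rfl, rfl⟩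
  spec U A h := by
    obtain ⟨h1, h2, h3⟩ := stOf_spec h
    exact ⟨h1, h2, card_fam h3.2.2.1 h3.2.1, (fnOf_spec h3).1⟩

theorem good_le_adv {t ρ : ℕ} {ξ : St (Fin l) (Pt k SA) → Vec l → Mat l k SA → Vec l → ℝ}
    (hξ : Weights t ξ) {δ : ℝ} (hδ : 0 ≤ δ) (hl : 2 * t * 2 ^ ρ ≤ δ / 2 * 2 ^ l)
    (P : Matrix (Fin l) (Fin l) (ZMod 2)) :
    (1 / 2) ^ (ρ * l) * (δ / 2) *
      (𝔼 A : Tab l k SA, if ∃ σ, GoodSt ξ t ρ δ P A σ then (1 : ℝ) else 0) ≤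
      𝔼 A : Tab l k SA, if (∃ σ, GoodSt ξ t ρ δ P A σ) ∧
          InZoom (stOf (GoodSt ξ t ρ δ P A)) (toMat A) then
        adv ξ (stOf (GoodSt ξ t ρ δ P A)) (fnOf ξ δ (stOf (GoodSt ξ t ρ δ P A))) (toMat A)
        else 0 := by
  set Φ : Mat l k SA → ℝ := fun M => if (∃ σ, GoodSt ξ t ρ δ P (ofMat M) σ) ∧
      InZoom (stOf (GoodSt ξ t ρ δ P (ofMat M))) M then
    adv ξ (stOf (GoodSt ξ t ρ δ P (ofMat M))) (fnOf ξ δ (stOf (GoodSt ξ t ρ δ P (ofMat M)))) M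
    else 0 with hΦ
  refine le_trans ?_ (le_of_eq (expect_toMat Φ).symm)
  rw [← expect_fibration Φ fun C : Mat l k SA => P * C, ← expect_toMat, mul_expect]
  refine expect_le_expect fun A _ => ?_
  have h1 : ∀ C : Mat l k SA, GoodSt ξ t ρ δ P (ofMat (toMat A + P * C)) = GoodSt ξ t ρ δ P A :=
    fun C => goodSt_congr _ _ _ _ (eqMod_iff.2 ⟨C, rfl⟩)
  simp only [hΦ, h1]
  by_cases hg : ∃ σ, GoodSt ξ t ρ δ P A σ
  · obtain ⟨h2, h3, h4⟩ := stOf_spec hg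
    set σ := stOf (GoodSt ξ t ρ δ P A)
    obtain ⟨C₀, h5⟩ := (eqMod_iff (M := toMat A)).1 h3
    simp only [hg, true_and, if_true, mul_one]
    have h6 := h4.1
    rw [Fintype.card_fin] at h6
    refine (adv_coset hξ σ h6 h4.2.1 hδ hl _ (fnOf_spec h4).2).trans (le_of_eq ?_)
    rw [← expect_add_left' _ C₀, h5, h2]
    simp only [Matrix.mul_add, add_assoc]
  · simp [hg]

theorem adv_le_Av (ed : E → PEdge ℕ ℕ SA SB) (Tk : Key l k SA SB → Finset (Vec l)) (R : ℕ)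
    {P : Matrix (Fin l) (Fin l) (ZMod 2)} {t ρ : ℕ} {good : (Fin k → ℕ) → Tab l k SA → Prop}
    {st : (Fin k → ℕ) → Tab l k SA → St (Fin l) (Pt k SA)}
    {fn : (Fin k → ℕ) → Tab l k SA → Pt k SA → ZMod 2} (H : Sel P t ρ good st fn)
    (U : Fin k → ℕ) (A : Tab l k SA) :
    (if good U A ∧ InZoom (st U A) (toMat A) then
      adv (xi ed Tk R U) (st U A) (fn U A) (toMat A) else 0) ≤
      𝔼 a : Vec l, 𝔼 a' : Vec l, if P *ᵥ a = 0 then 0 else
        Av ed U P (P *ᵥ a) A (Dif ed Tk R P good st fn (P *ᵥ a) (P *ᵥ a') U A) +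
          |Th ed U P (P *ᵥ a) A - 1| := by
  split_ifs with h
  · have h1 := (H.spec U A h.1).1
    refine expect_le_expect fun a _ => expect_le_expect fun a' _ => ?_
    rw [h1]
    split_ifs
    · exact le_rfl
    · refine (xi_sub_le ed Tk R U _ _ A _ _).trans (le_of_eq ?_)
      rw [Nw, Nw, ← Av_sub, h1]
      congr 2
      funext j x F
      rw [Dif, if_pos h]
  · refine expect_nonneg fun a _ => expect_nonneg fun a' _ => ?_
    split_ifs
    · exact le_rfl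
    · have : Dif ed Tk R P good st fn (P *ᵥ a) (P *ᵥ a') U A = fun _ _ _ => 0 := by
        funext j x F
        rw [Dif, if_neg h]
      rw [this, Av_zero, zero_add]
      exact abs_nonneg _

theorem prob_good_le (hk : 0 < k) {ed : E → PEdge ℕ ℕ SA SB} {t ρ : ℕ} {S : Left l k SA → Prop}
    {T : Left l k SA → Finset (Vec l)} {Tk : Key l k SA SB → Finset (Vec l)}
    (H : RLists ed t S T Tk) {δ δ' : ℝ} (hδ : 0 ≤ δ) (hl : 2 * t * 2 ^ ρ ≤ δ / 2 * 2 ^ l)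
    (hδ' : 0 ≤ δ') (hv : ValLE ed δ') (R : ℕ) {L : ℕ} (hL : 0 < L) {τ : ℝ} (h0 : 0 < τ) {N : ℕ}
    (hN : 1 ≤ N * τ ^ 2) (hk' : nB l SA / k ≤ τ ^ 2) (P : Matrix (Fin l) (Fin l) (ZMod 2)) :
    (1 / 2) ^ (ρ * l) * (δ / 2) * (𝔼 e : Fin k → E, 𝔼 A : Tab l k SA,
      if ∃ σ, GoodSt (xi ed Tk R (bigs ed e)) t ρ δ P A σ then (1 : ℝ) else 0) ≤
      τ + (t * 2 ^ ρ) * (1 / 2) ^ R + 2 ^ (t * 2 ^ ρ) * (1 / L + nB l SA / k) +
        L * ((t * 2 ^ ρ * R : ℕ) * (2 ^ l * N : ℕ) * δ') + τ := by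
  have HS := sel_good (xi ed Tk R) t ρ δ P
  rw [mul_expect]
  refine (expect_le_expect fun e _ => (good_le_adv (weights_xi H R _) hδ hl P).trans
    (expect_le_expect fun A _ => adv_le_Av ed Tk R HS (bigs ed e) A)).trans ?_
  simp only [expect_comm (s := (univ : Finset (Tab l k SA))) (t := (univ : Finset (Vec l)))]
  rw [expect_comm]
  refine expect_le univ_nonempty fun a _ => ?_
  rw [expect_comm]
  refine expect_le univ_nonempty fun a' _ => ?_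
  split_ifs
  · simp only [Fintype.expect_const]
    have := nB_pos (l := l) (SA := SA)
    positivity
  · simp only [expect_add_distrib]
    exact add_le_add (advantage_le hk HS hδ' hv Tk R hL h0 hN a a') (Th_abs hk ed P _ h0 hk')

theorem sound_of (hS : StructThm) : SoundThm := by
  intro t ε hε
  obtain ⟨ρ, δ, hδ, hS⟩ := hS t (ε / 2) (by positivity)
  obtain ⟨l, hl1, hl2⟩ : ∃ l : ℕ, ρ < l ∧ (2 * t * 2 ^ ρ : ℝ) ≤ δ / 2 * 2 ^ l := by
    obtain ⟨n, hn⟩ := exists_nat_ge (2 * t * 2 ^ ρ / (δ / 2) : ℝ)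
    refine ⟨n + ρ + 1, by omega, ?_⟩
    rw [div_le_iff₀ (by positivity)] at hn
    refine hn.trans ?_
    rw [mul_comm]
    refine mul_le_mul_of_nonneg_left ?_ (by positivity)
    have : n ≤ 2 ^ (n + ρ + 1) :=
      Nat.lt_two_pow_self.le.trans (Nat.pow_le_pow_right two_pos (by omega))
    exact_mod_cast this
  set γ : ℝ := (1 / 2) ^ (ρ * l) * (δ / 2) with hγ
  have hγ0 : 0 < γ := by positivity
  set τ : ℝ := γ * (ε / 8 / 2 ^ (l * l)) / 6 with hτ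
  have hτ0 : 0 < τ := by positivity
  obtain ⟨R, hR⟩ : ∃ R : ℕ, (t * 2 ^ ρ : ℝ) * (1 / 2) ^ R ≤ τ := by
    obtain ⟨R, hR⟩ := exists_pow_lt_of_lt_one (show 0 < τ / (t * 2 ^ ρ + 1) by positivity)
      (show (1 / 2 : ℝ) < 1 by norm_num)
    refine ⟨R, ?_⟩
    rw [lt_div_iff₀ (by positivity)] at hR
    have : (0 : ℝ) < (1 / 2) ^ R := by positivity
    nlinarith
  obtain ⟨L, hL0, hL⟩ : ∃ L : ℕ, 0 < L ∧ (2 : ℝ) ^ (t * 2 ^ ρ) * (1 / L) ≤ τ := by
    obtain ⟨L, hL⟩ := exists_nat_ge ((2 : ℝ) ^ (t * 2 ^ ρ) / τ)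
    have h1 : (0 : ℝ) < L := lt_of_lt_of_le (by positivity) hL
    refine ⟨L, Nat.cast_pos.1 h1, ?_⟩
    rw [mul_one_div, div_le_iff₀ h1, mul_comm τ, ← div_le_iff₀ hτ0]
    exact hL
  obtain ⟨N, hN⟩ : ∃ N : ℕ, 1 ≤ N * τ ^ 2 := by
    obtain ⟨N, hN⟩ := exists_nat_ge (1 / τ ^ 2)
    exact ⟨N, (div_le_iff₀ (by positivity)).1 hN⟩
  set W : ℝ := L * ((t * 2 ^ ρ * R : ℕ) * (2 ^ l * N : ℕ)) with hW
  have hW0 : 0 ≤ W := by positivity
  refine ⟨l, τ / (W + 1), by positivity, fun SA SB _ _ _ _ _ _ => ?_⟩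
  have hB := nB_pos (l := l) (SA := SA)
  obtain ⟨k, hk⟩ := exists_nat_ge (2 + nB l SA / τ ^ 2 + 2 ^ (t * 2 ^ ρ) * nB l SA / τ +
    2 ^ (l * l) * (2 ^ l * nB l SA) / (ε / 8) + 2 ^ (l + ρ) / δ + 2 ^ l / (ε / 8))
  have p1 : 0 ≤ nB l SA / τ ^ 2 := by positivity
  have p2 : 0 ≤ 2 ^ (t * 2 ^ ρ) * nB l SA / τ := by positivity
  have p3 : 0 ≤ 2 ^ (l * l) * (2 ^ l * nB l SA) / (ε / 8) := by positivity
  have p4 : (0 : ℝ) ≤ 2 ^ (l + ρ) / δ := by positivity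
  have p5 : (0 : ℝ) ≤ 2 ^ l / (ε / 8) := by positivity
  have hk2 : 2 ≤ k := by exact_mod_cast (show (2 : ℝ) ≤ k by linarith)
  have hk0 : 0 < k := by omega
  have hk0' : (0 : ℝ) < k := Nat.cast_pos.2 hk0
  have hkP : (k : ℝ) ≤ 2 ^ Fintype.card (Pt k SA) := by
    have h1 : k ≤ Fintype.card (Pt k SA) := by
      rw [Fintype.card_prod, Fintype.card_fin]
      exact Nat.le_mul_of_pos_right _ Fintype.card_pos
    exact_mod_cast h1.trans Nat.lt_two_pow_self.le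
  have q1 : nB l SA / k ≤ τ ^ 2 := by
    rw [div_le_iff₀ hk0', mul_comm, ← div_le_iff₀ (by positivity)]; linarith
  have q2 : 2 ^ (t * 2 ^ ρ) * (nB l SA / k) ≤ τ := by
    rw [← mul_div_assoc, div_le_iff₀ hk0', mul_comm τ, ← div_le_iff₀ hτ0]; linarith
  have q3 : 2 ^ (l * l) * (2 ^ l * (nB l SA / k)) ≤ ε / 8 := by
    rw [← mul_div_assoc, ← mul_div_assoc, div_le_iff₀ hk0', mul_comm (ε / 8),
      ← div_le_iff₀ (by positivity)]
    linarith
  have q4 : (2 : ℝ) ^ (l + ρ) ≤ δ * 2 ^ Fintype.card (Pt k SA) := by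
    rw [mul_comm, ← div_le_iff₀ hδ]; linarith
  have q5 : (2 : ℝ) ^ l / 2 ^ Fintype.card (Pt k SA) ≤ ε / 8 := by
    rw [div_le_iff₀ (by positivity), mul_comm, ← div_le_iff₀ (by positivity)]; linarith
  refine ⟨k, fun E _ _ _ ed hv S T hT hc => ?_⟩
  obtain ⟨Tk, H⟩ := exists_rlists ed S T hT hc
  have g1 : ∀ P : Matrix (Fin l) (Fin l) (ZMod 2), (𝔼 e : Fin k → E, 𝔼 A : Tab l k SA,
      if ∃ σ, GoodSt (xi ed Tk R (bigs ed e)) t ρ δ P A σ then (1 : ℝ) else 0) ≤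
      ε / 8 / 2 ^ (l * l) := by
    intro P
    refine le_of_mul_le_mul_left ((prob_good_le hk0 H hδ.le hl2 (by positivity) hv R hL0 hτ0 hN
      q1 P).trans ?_) hγ0
    have h1 : W * (τ / (W + 1)) ≤ τ := by
      rw [← mul_div_assoc, div_le_iff₀ (by positivity)]; nlinarith
    have h2 : γ * (ε / 8 / 2 ^ (l * l)) = 6 * τ := by rw [hτ]; ring
    rw [h2, mul_add, ← mul_assoc (L : ℝ), ← hW]
    linarith
  let B : (Fin k → E) → Mat l k SA → Prop := fun e M => S (bigs ed e, ofMat M) ∧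
    M.rank = Fintype.card (Fin l) ∧ (∀ P w, Th ed (bigs ed e) P w (ofMat M) ≠ 0) ∧
      ∀ P σ, ¬ GoodSt (xi ed Tk R (bigs ed e)) t ρ δ P (ofMat M) σ
  have g2 : ∀ e, (𝔼 M, if B e M then (1 : ℝ) else 0) ≤ ε / 2 := by
    intro e
    by_contra h
    obtain ⟨σ, h1, C, h2⟩ := hS (Fin l) (Pt k SA) (B e) (fun M => T (bigs ed e, ofMat M))
      (xi ed Tk R (bigs ed e)) (by simpa using hl1) (by simpa using q4)
      ((not_le.1 h).le.trans (le_of_eq (expect_congr rfl fun _ _ => by congr)))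
      (fun _ h => h.2.1) (fun _ => hT _) (weights_xi H R _)
      fun σ a M ha hM => one_le_sum_xi hk2 H R e σ ha M hM.1 (hM.2.2.1 _ _)
    exact h2.2.2.2 σ.P σ ⟨rfl, eqMod_iff.2 ⟨C * σ.Q, by rw [St.pt, Matrix.mul_assoc]⟩, h1⟩
  have g3 : ∀ (e : Fin k → E) (A : Tab l k SA), (if S (bigs ed e, A) then (1 : ℝ) else 0) ≤
      (if B e (toMat A) then 1 else 0) + (if (toMat A).rank = Fintype.card (Fin l) then 0 else 1) +
      (∑ P, ∑ w, if Th ed (bigs ed e) P w A = 0 then 1 else 0) +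
      ∑ P, if ∃ σ, GoodSt (xi ed Tk R (bigs ed e)) t ρ δ P A σ then 1 else 0 := by
    intro e A
    have n1 : (0 : ℝ) ≤ if B e (toMat A) then 1 else 0 := by split_ifs <;> norm_num
    have n2 : (0 : ℝ) ≤ if (toMat A).rank = Fintype.card (Fin l) then 0 else 1 := by
      split_ifs <;> norm_num
    have m3 : ∀ P w, (0 : ℝ) ≤ if Th ed (bigs ed e) P w A = 0 then 1 else 0 := fun P w => by
      split_ifs <;> norm_num
    have m4 : ∀ P, (0 : ℝ) ≤ if ∃ σ, GoodSt (xi ed Tk R (bigs ed e)) t ρ δ P A σ then 1 else 0 :=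
      fun P => by split_ifs <;> norm_num
    have n3 := sum_nonneg fun P (_ : P ∈ univ) => sum_nonneg fun w (_ : w ∈ univ) => m3 P w
    have n4 := sum_nonneg fun P (_ : P ∈ univ) => m4 P
    by_cases h1 : S (bigs ed e, A)
    swap
    · rw [if_neg h1]; linarith
    rw [if_pos h1]
    by_cases h2 : (toMat A).rank = Fintype.card (Fin l)
    swap
    · rw [if_neg h2]; linarith
    by_cases h3 : ∃ P w, Th ed (bigs ed e) P w A = 0
    · obtain ⟨P, w, h3⟩ := h3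
      have h4 := (single_le_sum (fun w _ => m3 P w) (mem_univ w)).trans
        (single_le_sum (fun P _ => sum_nonneg fun w (_ : w ∈ univ) => m3 P w) (mem_univ P))
      rw [if_pos h3] at h4
      linarith
    by_cases h4 : ∃ P σ, GoodSt (xi ed Tk R (bigs ed e)) t ρ δ P A σ
    · obtain ⟨P, h4⟩ := h4
      have h5 := single_le_sum (fun P _ => m4 P) (mem_univ P)
      rw [if_pos h4] at h5
      linarith
    push Not at h3 h4
    rw [if_pos (show B e (toMat A) from ⟨h1, h2, h3, h4⟩)]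
    linarith
  have hM : (Fintype.card (Matrix (Fin l) (Fin l) (ZMod 2)) : ℝ) = 2 ^ (l * l) := by
    rw [Fintype.card_congr (Matrix.of (m := Fin l) (n := Fin l) (α := ZMod 2)).symm]
    simp [← pow_mul]
  refine lt_of_le_of_lt (expect_le_expect fun e _ => expect_le_expect fun A _ => g3 e A) ?_
  simp only [expect_add_distrib, expect_sum_comm]
  have b1 : (𝔼 e : Fin k → E, 𝔼 A : Tab l k SA, if B e (toMat A) then (1 : ℝ) else 0) ≤ ε / 2 :=
    expect_le univ_nonempty fun e _ =>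
      (expect_toMat fun M => if B e M then (1 : ℝ) else 0).trans_le (g2 e)
  have b2 : (𝔼 _e : Fin k → E, 𝔼 A : Tab l k SA,
      if (toMat A).rank = Fintype.card (Fin l) then (0 : ℝ) else 1) ≤ ε / 8 := by
    rw [Fintype.expect_const, expect_toMat fun M =>
      if M.rank = Fintype.card (Fin l) then (0 : ℝ) else 1]
    refine le_trans (prob_rank_ne (m := Fin l) (n := Pt k SA)) ?_
    rwa [Fintype.card_fin]
  have b3 : (∑ P : Matrix (Fin l) (Fin l) (ZMod 2), ∑ w : Vec l, 𝔼 e : Fin k → E,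
      𝔼 A : Tab l k SA, if Th ed (bigs ed e) P w A = 0 then (1 : ℝ) else 0) ≤ ε / 8 := by
    refine (sum_le_sum fun P _ => sum_le_sum fun w _ => Th_zero hk0 ed P w).trans
      (le_trans (le_of_eq ?_) q3)
    simp only [sum_const, card_univ, nsmul_eq_mul, hM]
    simp
  have b4 := sum_le_sum fun P (_ : P ∈ univ) => g1 P
  rw [sum_const, card_univ, nsmul_eq_mul, hM, mul_div_cancel₀ _ (by positivity)] at b4
  linarith

end Vale.Agent.P342
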