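import Vale.Agent.P342.Core
import Vale.Agent.P325.Cover

/-!
Soundness, part one: the lists of right vertices and the weights.
-/

set_option linter.unusedSectionVars false

namespace Vale.Agent.P342

open Finset Matrix Vale.Agent.Lib.PCP Vale.Agent.Lib.PCP.Bilin
open scoped BigOperators Classical

variable {l k : ℕ} {SA SB E : Type} [Fintype SA] [DecidableEq SA] [Nonempty SA] [Fintype SB]
  [DecidableEq SB] [Nonempty SB] [Fintype E] [DecidableEq E] [Nonempty E]

theorem vec_add_add (v w : Vec l) : v + w + w = v := by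
  rw [add_assoc, f2_vec_add_self, add_zero]

theorem mem_cls {w v u : Vec l} : u ∈ cls w v ↔ u = v ∨ u = v + w := by simp [cls]

theorem cls_add (w v : Vec l) : cls w (v + w) = cls w v := by
  rw [cls, cls, vec_add_add, pair_comm]

theorem cls_smul_add (w v : Vec l) (a : ZMod 2) : cls w (v + a • w) = cls w v := by
  rcases f2_cases a with rfl | rfl
  · simp
  · rw [one_smul, cls_add]

theorem add_mem_cls {w v u : Vec l} : u + w ∈ cls w v ↔ u ∈ cls w v := by
  rw [mem_cls, mem_cls]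
  constructor
  · rintro (h | h)
    · right; rw [← h, vec_add_add]
    · left; exact add_right_cancel h
  · rintro (h | h)
    · right; rw [h]
    · left; rw [h, vec_add_add]

theorem card_cls_le (w v : Vec l) : (cls w v).card ≤ 2 := card_le_two

/-- Points: a block, a label and a bit. -/
abbrev Pt (k : ℕ) (SA : Type) : Type := Fin k × (SA × Bool)

/-- Matrices whose columns are indexed by points. -/
abbrev Mat (l k : ℕ) (SA : Type) : Type := Matrix (Fin l) (Pt k SA) (ZMod 2)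

/-- A table as a matrix. -/
def toMat (A : Tab l k SA) : Mat l k SA := fun r p => A p.1 p.2 r

/-- A matrix as a table. -/
def ofMat (M : Mat l k SA) : Tab l k SA := fun b q r => M r (b, q)

@[simp] theorem ofMat_toMat (A : Tab l k SA) : ofMat (toMat A) = A := rfl
@[simp] theorem toMat_ofMat (M : Mat l k SA) : toMat (ofMat M) = M := rfl

theorem expect_toMat (Φ : Mat l k SA → ℝ) : 𝔼 A : Tab l k SA, Φ (toMat A) = 𝔼 M, Φ M :=
  Fintype.expect_equiv ⟨toMat, ofMat, ofMat_toMat, toMat_ofMat⟩ _ _ fun _ => rfl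

/-- Lists for the right vertices. -/
structure RLists (ed : E → PEdge ℕ ℕ SA SB) (t : ℕ) (S : Left l k SA → Prop)
    (T : Left l k SA → Finset (Vec l)) (Tk : Key l k SA SB → Finset (Vec l)) : Prop where
  card : ∀ K, (Tk K).card ≤ 2 * t
  lab : ∀ K φ, φ + K.2.1 ∈ Tk K ↔ φ ∈ Tk K
  edge : ∀ (e : Fin k → E) (τ : Tape l k SA SB), τ.Ok → S (left (ed ∘ e) τ) →
    ∃ f ∈ T (left (ed ∘ e) τ), f + τ.c ∈ Tk (key (ed ∘ e) τ)

theorem exists_rlists (ed : E → PEdge ℕ ℕ SA SB) {t : ℕ} (S : Left l k SA → Prop)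
    (T : Left l k SA → Finset (Vec l)) (hT : ∀ p, (T p).card ≤ t)
    (h : ∀ (e e' : Fin k → E) (τ τ' : Tape l k SA SB), τ.Ok → τ'.Ok →
      key (ed ∘ e) τ = key (ed ∘ e') τ' → S (left (ed ∘ e) τ) → S (left (ed ∘ e') τ') →
      ∃ f ∈ T (left (ed ∘ e) τ), ∃ f' ∈ T (left (ed ∘ e') τ'),
        cls τ.w (f + τ.c) = cls τ'.w (f' + τ'.c)) :
    ∃ Tk, RLists ed t S T Tk := by
  let p : Key l k SA SB → (Fin k → E) × Tape l k SA SB → Prop := fun K x =>
    x.2.Ok ∧ key (ed ∘ x.1) x.2 = K ∧ S (left (ed ∘ x.1) x.2)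
  refine ⟨fun K => if hK : ∃ x, p K x then
    (T (left (ed ∘ hK.choose.1) hK.choose.2)).biUnion
      (fun f => cls K.2.1 (f + hK.choose.2.c)) else ∅, fun K => ?_, fun K φ => ?_,
      fun e τ h1 h2 => ?_⟩
  · split_ifs with hK
    · refine (card_biUnion_le_card_mul _ _ 2 fun f _ => card_cls_le _ _).trans ?_
      rw [mul_comm]
      exact Nat.mul_le_mul_left _ (hT _)
    · simp
  · split_ifs with hK
    · simp only [mem_biUnion, add_mem_cls]
    · simp
  · have hK : ∃ x, p (key (ed ∘ e) τ) x := ⟨(e, τ), h1, rfl, h2⟩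
    obtain ⟨a1, a2, a3⟩ := hK.choose_spec
    obtain ⟨f, hf, f', hf', h3⟩ := h e _ τ _ h1 a1 a2.symm h2 a3
    refine ⟨f, hf, ?_⟩
    rw [dif_pos hK, mem_biUnion]
    refine ⟨f', hf', ?_⟩
    have hw : hK.choose.2.w = τ.w := congrArg (fun K : Key l k SA SB => K.2.1) a2
    have : (key (ed ∘ e) τ).2.1 = τ.w := rfl
    rw [this, ← hw, ← h3]
    exact mem_cls.2 (Or.inl rfl)

/-- The family of functionals of a state. -/
noncomputable def fam (σ : St (Fin l) (Pt k SA)) : Finset (Pt k SA → ZMod 2) :=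
  (σ.Gs ×ˢ (univ.filter fun y => σ.Q *ᵥ y = 0)).image fun p => p.1 + p.2

/-- The support of a functional in a block. -/
noncomputable def supp (g : Pt k SA → ZMod 2) (b : Fin k) : Finset (SA × Bool) :=
  univ.filter fun q => g (b, q) ≠ 0

/-- The signature of a block: the functionals of the family with small support in the block. -/
noncomputable def sig (R : ℕ) (σ : St (Fin l) (Pt k SA)) (b : Fin k) :
    Finset (Pt k SA → ZMod 2) := (fam σ).filter fun g => (supp g b).card ≤ R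

/-- All vectors of the block are in the image of `P`. -/
def ZeroAdv (P : Matrix (Fin l) (Fin l) (ZMod 2)) (a : SA × Bool → Vec l) : Prop :=
  ∀ q, InIm P (a q)

/-- The blocks without advice. -/
noncomputable def Zs (P : Matrix (Fin l) (Fin l) (ZMod 2)) (A : Tab l k SA) : Finset (Fin k) :=
  univ.filter fun b => ZeroAdv P (A b)

/-- The other blocks without advice which have the same signature. -/
noncomputable def atom (R : ℕ) (σ : St (Fin l) (Pt k SA)) (j : Fin k) : Finset (Fin k) :=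
  (Zs σ.P (ofMat σ.T)).filter fun i => i ≠ j ∧ sig R σ i = sig R σ j

/-- The possible noise blocks. -/
noncomputable def Iset (R : ℕ) (σ : St (Fin l) (Pt k SA)) (j : Fin k) : Finset (Fin k) :=
  if (atom R σ j).Nonempty then atom R σ j else univ.erase j

theorem ne_of_mem_Iset {R : ℕ} {σ : St (Fin l) (Pt k SA)} {i j : Fin k} (h : i ∈ Iset R σ j) :
    i ≠ j := by
  unfold Iset at h
  split_ifs at h
  · exact (mem_filter.1 h).2.1
  · exact ne_of_mem_erase h

theorem Iset_nonempty (hk : 2 ≤ k) (R : ℕ) (σ : St (Fin l) (Pt k SA)) (j : Fin k) :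
    (Iset R σ j).Nonempty := by
  unfold Iset
  split_ifs with h
  · exact h
  · rw [← card_pos, card_erase_of_mem (mem_univ _), card_univ, Fintype.card_fin]
    omega

/-- Indicator of the list of a right vertex. -/
noncomputable def ind (Tk : Key l k SA SB → Finset (Vec l)) (K : Key l k SA SB) (φ : Vec l) : ℝ :=
  if φ ∈ Tk K then 1 else 0

theorem ind_nonneg (Tk : Key l k SA SB → Finset (Vec l)) (K φ) : 0 ≤ ind Tk K φ := by
  unfold ind; split_ifs <;> norm_num

theorem ind_le_one (Tk : Key l k SA SB → Finset (Vec l)) (K φ) : ind Tk K φ ≤ 1 := by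
  unfold ind; split_ifs <;> norm_num

/-- The right vertex with names `U` outside `j` and `v` at `j`. -/
def rkey (U : Fin k → ℕ) (v : ℕ) (w : Vec l) (j i : Fin k) (h : SA → Bool) (A : Tab l k SA)
    (F : SB → Vec l) (c : Vec l) : Key l k SA SB :=
  (Function.update U j v, kfin ⟨w, j, i, h, A, F, 0, c⟩)

theorem key_eq_rkey (e : Fin k → PEdge ℕ ℕ SA SB) (τ : Tape l k SA SB) :
    key e τ = rkey (fun b => (e b).2.1) (e τ.j).1 τ.w τ.j τ.i τ.h τ.A τ.F τ.c := by
  refine Prod.ext ?_ rfl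
  funext b
  simp only [key, rkey]
  by_cases h : b = τ.j
  · subst h; simp
  · simp [h]

theorem rkey_update (U : Fin k → ℕ) (v : ℕ) (w : Vec l) (j i : Fin k) (h : SA → Bool)
    (A : Tab l k SA) (F : SB → Vec l) (c : Vec l) (u : ℕ) (a : SA × Bool → Vec l) :
    rkey (Function.update U j u) v w j i h (Function.update A j a) F c =
      rkey U v w j i h A F c := by
  refine Prod.ext (by simp [rkey]) ?_
  simp only [rkey, kfin, Prod.mk.injEq, true_and, and_true]
  funext b q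
  by_cases hb : b = j
  · simp [hb]
  · simp [hb]

theorem rkey_row (U : Fin k → ℕ) (v : ℕ) (w : Vec l) (j i : Fin k) (h : SA → Bool)
    (A : Tab l k SA) (F : SB → Vec l) (c : Vec l) (x : Pt k SA → ZMod 2) :
    rkey U v w j i h (fun b q => A b q + x (b, q) • w) F c = rkey U v w j i h A F c := by
  refine Prod.ext rfl ?_
  simp only [rkey, kfin, cls_smul_add]

/-- The weight of a label for a fixed projected block. -/
noncomputable def Wt (Tk : Key l k SA SB → Finset (Vec l)) (R : ℕ) (σ : St (Fin l) (Pt k SA))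
    (w : Vec l) (U : Fin k → ℕ) (j : Fin k) (v : ℕ) (A : Tab l k SA) (F : SB → Vec l)
    (φ : Vec l) : ℝ :=
  𝔼 i ∈ Iset R σ j, 𝔼 h : SA → Bool, 𝔼 c : Vec l, ind Tk (rkey U v w j i h A F c) (φ + c)

theorem Wt_nonneg (Tk : Key l k SA SB → Finset (Vec l)) (R σ w U j v A F φ) :
    0 ≤ Wt Tk R σ w U j v A F φ :=
  expect_nonneg fun _ _ => expect_nonneg fun _ _ => expect_nonneg fun _ _ => ind_nonneg _ _ _

theorem expect_le_of_nonneg {ι : Type*} {s : Finset ι} {f : ι → ℝ} {c : ℝ} (hc : 0 ≤ c)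
    (h : ∀ i ∈ s, f i ≤ c) : 𝔼 i ∈ s, f i ≤ c := by
  rcases s.eq_empty_or_nonempty with rfl | hs
  · simpa using hc
  · exact expect_le hs h

theorem Wt_le_one (Tk : Key l k SA SB → Finset (Vec l)) (R σ w U j v A F φ) :
    Wt Tk R σ w U j v A F φ ≤ 1 :=
  expect_le_of_nonneg zero_le_one fun _ _ => expect_le univ_nonempty fun _ _ =>
    expect_le univ_nonempty fun _ _ => ind_le_one _ _ _

theorem sum_ind_le {Tk : Key l k SA SB → Finset (Vec l)} {t : ℕ} (hc : ∀ K, (Tk K).card ≤ 2 * t)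
    (K : Key l k SA SB) (c : Vec l) : ∑ φ, ind Tk K (φ + c) ≤ 2 * t := by
  rw [Fintype.sum_equiv (Equiv.addRight c) (fun φ => ind Tk K (φ + c)) (fun φ => ind Tk K φ)
    fun _ => rfl]
  simp only [ind, sum_boole, filter_mem_eq_inter, univ_inter]
  exact_mod_cast hc K

theorem sum_Wt_le {Tk : Key l k SA SB → Finset (Vec l)} {t : ℕ} (hc : ∀ K, (Tk K).card ≤ 2 * t)
    (R σ w U j v A F) : ∑ φ, Wt Tk R σ w U j v A F φ ≤ 2 * t := by
  simp only [Wt, ← expect_sum_comm]
  exact expect_le_of_nonneg (by positivity) fun _ _ => expect_le univ_nonempty fun _ _ =>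
    expect_le univ_nonempty fun _ _ => sum_ind_le hc _ _

theorem Wt_lab {Tk : Key l k SA SB → Finset (Vec l)} (hl : ∀ K φ, φ + K.2.1 ∈ Tk K ↔ φ ∈ Tk K)
    (R σ w U j v A F φ) : Wt Tk R σ w U j v A F (φ + w) = Wt Tk R σ w U j v A F φ := by
  refine expect_congr rfl fun i _ => expect_congr rfl fun h _ => expect_congr rfl fun c _ => ?_
  have := hl (rkey U v w j i h A F c) (φ + c)
  simp only [ind, add_right_comm φ w c]
  exact if_congr this rfl rfl

/-- The edges with a given big vertex. -/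
noncomputable def fib (ed : E → PEdge ℕ ℕ SA SB) (u : ℕ) : Finset E :=
  univ.filter fun e => (ed e).2.1 = u

/-- The number of blocks. -/
noncomputable def nB (l : ℕ) (SA : Type) [Fintype SA] [DecidableEq SA] : ℝ :=
  Fintype.card (SA × Bool → Vec l)

theorem nB_pos : 0 < nB l SA := by
  unfold nB; exact_mod_cast Fintype.card_pos

/-- The density of the projected block. -/
noncomputable def dens (P : Matrix (Fin l) (Fin l) (ZMod 2)) (w : Vec l) (π : SA → SB)
    (a : SA × Bool → Vec l) (F : SB → Vec l) (r : SA × Bool → ZMod 2) : ℝ :=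
  if a = blk π w (fun s => P *ᵥ F s) r then nB l SA else 0

theorem dens_nonneg (P : Matrix (Fin l) (Fin l) (ZMod 2)) (w : Vec l) (π : SA → SB)
    (a : SA × Bool → Vec l) (F : SB → Vec l) (r : SA × Bool → ZMod 2) : 0 ≤ dens P w π a F r := by
  unfold dens; split_ifs
  · exact nB_pos.le
  · exact le_rfl

/-- Averaging over the projected block. -/
noncomputable def Av (ed : E → PEdge ℕ ℕ SA SB) (U : Fin k → ℕ)
    (P : Matrix (Fin l) (Fin l) (ZMod 2)) (w : Vec l) (A : Tab l k SA)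
    (Ψ : Fin k → E → (SB → Vec l) → ℝ) : ℝ :=
  𝔼 j, 𝔼 e ∈ fib ed (U j), 𝔼 F : SB → Vec l, 𝔼 r : SA × Bool → ZMod 2,
    dens P w (ed e).2.2 (A j) F r * Ψ j e F

theorem Av_mono {ed : E → PEdge ℕ ℕ SA SB} {U : Fin k → ℕ} {P : Matrix (Fin l) (Fin l) (ZMod 2)}
    {w : Vec l} {A : Tab l k SA} {Ψ Ψ' : Fin k → E → (SB → Vec l) → ℝ}
    (h : ∀ j e F r, (ed e).2.1 = U j → A j = blk (ed e).2.2 w (fun s => P *ᵥ F s) r →
      Ψ j e F ≤ Ψ' j e F) : Av ed U P w A Ψ ≤ Av ed U P w A Ψ' := by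
  refine expect_le_expect fun j _ => expect_le_expect fun e he => expect_le_expect fun F _ =>
    expect_le_expect fun r _ => ?_
  unfold dens
  split_ifs with h1
  · exact mul_le_mul_of_nonneg_left (h j e F r (mem_filter.1 he).2 h1) nB_pos.le
  · simp

theorem Av_const_mul (ed : E → PEdge ℕ ℕ SA SB) (U : Fin k → ℕ)
    (P : Matrix (Fin l) (Fin l) (ZMod 2)) (w : Vec l) (A : Tab l k SA) (c : ℝ)
    (Ψ : Fin k → E → (SB → Vec l) → ℝ) :
    Av ed U P w A (fun j e F => c * Ψ j e F) = c * Av ed U P w A Ψ := by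
  simp only [Av, mul_expect, mul_left_comm]

theorem Av_sum {ι : Type*} (s : Finset ι) (ed : E → PEdge ℕ ℕ SA SB) (U : Fin k → ℕ)
    (P : Matrix (Fin l) (Fin l) (ZMod 2)) (w : Vec l) (A : Tab l k SA)
    (Ψ : ι → Fin k → E → (SB → Vec l) → ℝ) :
    Av ed U P w A (fun j e F => ∑ x ∈ s, Ψ x j e F) = ∑ x ∈ s, Av ed U P w A (Ψ x) := by
  simp only [Av, mul_sum, expect_sum_comm]

theorem Av_sub (ed : E → PEdge ℕ ℕ SA SB) (U : Fin k → ℕ)
    (P : Matrix (Fin l) (Fin l) (ZMod 2)) (w : Vec l) (A : Tab l k SA)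
    (Ψ Ψ' : Fin k → E → (SB → Vec l) → ℝ) :
    Av ed U P w A (fun j e F => Ψ j e F - Ψ' j e F) = Av ed U P w A Ψ - Av ed U P w A Ψ' := by
  simp only [Av, mul_sub, expect_sub_distrib]

theorem Av_row (ed : E → PEdge ℕ ℕ SA SB) (U : Fin k → ℕ)
    (P : Matrix (Fin l) (Fin l) (ZMod 2)) (w : Vec l) (A : Tab l k SA) (x : Pt k SA → ZMod 2)
    (Ψ : Fin k → E → (SB → Vec l) → ℝ) :
    Av ed U P w (fun b q => A b q + x (b, q) • w) Ψ = Av ed U P w A Ψ := by
  refine expect_congr rfl fun j _ => expect_congr rfl fun e _ => expect_congr rfl fun F _ => ?_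
  rw [← expect_add_right (fun r => dens P w (ed e).2.2 (fun q => A j q + x (j, q) • w) F r *
    Ψ j e F) (fun q => x (j, q))]
  refine expect_congr rfl fun r _ => ?_
  congr 1
  unfold dens
  refine if_congr ?_ rfl rfl
  simp only [funext_iff (f := fun q => A j q + x (j, q) • w), funext_iff (f := A j), blk,
    Pi.add_apply, add_smul, ← add_assoc, add_left_inj]

/-- The total weight. -/
noncomputable def Th (ed : E → PEdge ℕ ℕ SA SB) (U : Fin k → ℕ)
    (P : Matrix (Fin l) (Fin l) (ZMod 2)) (w : Vec l) (A : Tab l k SA) : ℝ :=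
  Av ed U P w A fun _ _ _ => 1

/-- The weight of a label, not normalised. -/
noncomputable def Nw (ed : E → PEdge ℕ ℕ SA SB) (Tk : Key l k SA SB → Finset (Vec l)) (R : ℕ)
    (U : Fin k → ℕ) (σ : St (Fin l) (Pt k SA)) (w : Vec l) (A : Tab l k SA) (φ : Vec l) : ℝ :=
  Av ed U σ.P w A fun j e F => Wt Tk R σ w U j (ed e).1 A (fun s => σ.P *ᵥ F s) φ

/-- The weights. -/
noncomputable def xi (ed : E → PEdge ℕ ℕ SA SB) (Tk : Key l k SA SB → Finset (Vec l)) (R : ℕ)
    (U : Fin k → ℕ) (σ : St (Fin l) (Pt k SA)) (w : Vec l) (M : Mat l k SA) (φ : Vec l) : ℝ :=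
  Nw ed Tk R U σ w (ofMat M) φ / Th ed U σ.P w (ofMat M)

theorem Av_zero (ed : E → PEdge ℕ ℕ SA SB) (U : Fin k → ℕ)
    (P : Matrix (Fin l) (Fin l) (ZMod 2)) (w : Vec l) (A : Tab l k SA) :
    Av ed U P w A (fun _ _ _ => 0) = 0 := by simp [Av]

theorem Th_nonneg (ed : E → PEdge ℕ ℕ SA SB) (U : Fin k → ℕ)
    (P : Matrix (Fin l) (Fin l) (ZMod 2)) (w : Vec l) (A : Tab l k SA) : 0 ≤ Th ed U P w A := by
  rw [← Av_zero ed U P w A]
  exact Av_mono fun _ _ _ _ _ _ => zero_le_one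

theorem Nw_nonneg (ed : E → PEdge ℕ ℕ SA SB) (Tk : Key l k SA SB → Finset (Vec l))
    (R U σ w A φ) : 0 ≤ Nw ed Tk R U σ w A φ := by
  rw [← Av_zero ed U σ.P w A]
  exact Av_mono fun _ _ _ _ _ _ => Wt_nonneg _ _ _ _ _ _ _ _ _ _

theorem Nw_le (ed : E → PEdge ℕ ℕ SA SB) (Tk : Key l k SA SB → Finset (Vec l))
    (R U σ w A φ) : Nw ed Tk R U σ w A φ ≤ Th ed U σ.P w A :=
  Av_mono fun _ _ _ _ _ _ => Wt_le_one _ _ _ _ _ _ _ _ _ _

theorem ofMat_row (M : Mat l k SA) (w : Vec l) (x : Pt k SA → ZMod 2) :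
    ofMat (M + vecMulVec w x) = fun b q => ofMat M b q + x (b, q) • w := by
  funext b q r
  simp [ofMat, vecMulVec_apply, mul_comm]

theorem weights_xi {ed : E → PEdge ℕ ℕ SA SB} {t : ℕ} {S : Left l k SA → Prop}
    {T : Left l k SA → Finset (Vec l)} {Tk : Key l k SA SB → Finset (Vec l)}
    (H : RLists ed t S T Tk) (R : ℕ) (U : Fin k → ℕ) : Weights t (xi ed Tk R U) where
  nonneg σ w A φ := div_nonneg (Nw_nonneg _ _ _ _ _ _ _ _) (Th_nonneg _ _ _ _ _)
  le_one σ w A φ := div_le_one_of_le₀ (Nw_le _ _ _ _ _ _ _ _) (Th_nonneg _ _ _ _ _)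
  sum_le σ w A := by
    simp only [xi]
    rw [← sum_div]
    refine div_le_of_le_mul₀ (Th_nonneg _ _ _ _ _) (by positivity) ?_
    simp only [Nw]
    rw [← Av_sum, Th, ← Av_const_mul]
    exact Av_mono fun _ _ _ _ _ _ => by
      rw [mul_one]; exact sum_Wt_le H.card _ _ _ _ _ _ _ _
  row σ w A x φ := by
    simp only [xi, Nw, Th, ofMat_row, Av_row, Wt, rkey_row]
  lab σ w A φ := by
    simp only [xi, Nw, Wt_lab H.lab]

theorem one_le_sum_xi (hk : 2 ≤ k) {ed : E → PEdge ℕ ℕ SA SB} {t : ℕ} {S : Left l k SA → Prop}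
    {T : Left l k SA → Finset (Vec l)} {Tk : Key l k SA SB → Finset (Vec l)}
    (H : RLists ed t S T Tk) (R : ℕ) (e : Fin k → E) (σ : St (Fin l) (Pt k SA)) {w : Vec l}
    (hw : w ≠ 0) (M : Mat l k SA) (hS : S (fun b => (ed (e b)).2.1, ofMat M))
    (hT : Th ed (fun b => (ed (e b)).2.1) σ.P w (ofMat M) ≠ 0) :
    1 ≤ ∑ f ∈ T (fun b => (ed (e b)).2.1, ofMat M), xi ed Tk R (fun b => (ed (e b)).2.1) σ w M f := by
  simp only [xi]
  rw [← sum_div, one_le_div (lt_of_le_of_ne (Th_nonneg _ _ _ _ _) hT.symm)]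
  simp only [Nw]
  rw [← Av_sum]
  refine Av_mono fun j e' F r h1 h2 => ?_
  simp only [Wt, ← expect_sum_comm]
  refine le_expect (Iset_nonempty hk R σ j) fun i hi => le_expect univ_nonempty fun h _ =>
    le_expect univ_nonempty fun c _ => ?_
  let τ : Tape l k SA SB := ⟨w, j, i, h, ofMat M, fun s => σ.P *ᵥ F s, r, c⟩
  have hU : (fun b => ((ed ∘ Function.update e j e') b).2.1) = fun b => (ed (e b)).2.1 := by
    funext b
    by_cases hb : b = j
    · subst hb; simp [h1]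
    · simp [hb]
  have hl : left (ed ∘ Function.update e j e') τ = (fun b => (ed (e b)).2.1, ofMat M) := by
    refine Prod.ext hU ?_
    simp only [left, τ, Function.comp_apply, Function.update_self]
    rw [← h2, Function.update_eq_self]
  have hk' : key (ed ∘ Function.update e j e') τ =
      rkey (fun b => (ed (e b)).2.1) (ed e').1 w j i h (ofMat M) (fun s => σ.P *ᵥ F s) c := by
    rw [key_eq_rkey, hU]
    simp [τ]
  obtain ⟨f, hf, h3⟩ := H.edge (Function.update e j e') τ ⟨hw, ne_of_mem_Iset hi⟩ (hl ▸ hS)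
  rw [hl] at hf
  rw [hk'] at h3
  refine le_trans ?_ (single_le_sum (fun _ _ => ind_nonneg _ _ _) hf)
  rw [ind, if_pos h3]

end Vale.Agent.P342
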