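import Vale.Agent.P342.Sound1

/-!
Soundness, part two: change of measure.
-/

set_option linter.unusedSectionVars false

namespace Vale.Agent.P342

open Finset Matrix Vale.Agent.Lib.PCP Vale.Agent.Lib.PCP.Bilin
open scoped BigOperators Classical

variable {l k : ℕ} {SA SB E : Type} [Fintype SA] [DecidableEq SA] [Nonempty SA] [Fintype SB]
  [DecidableEq SB] [Nonempty SB] [Fintype E] [DecidableEq E] [Nonempty E]

theorem expect_fib (ed : E → PEdge ℕ ℕ SA SB) (φ : ℕ → E → ℝ) :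
    𝔼 x : E, 𝔼 x' ∈ fib ed (ed x).2.1, φ (ed x).2.1 x' = 𝔼 x : E, φ (ed x).2.1 x := by
  simp only [expect_eq_sum_div_card]
  congr 1
  have h1 : ∀ x : E, (∑ x' ∈ fib ed (ed x).2.1, φ (ed x).2.1 x') / ((fib ed (ed x).2.1).card : ℝ) =
      ∑ x' : E, if (ed x').2.1 = (ed x).2.1 then
        φ (ed x').2.1 x' / ((fib ed (ed x').2.1).card : ℝ) else 0 := by
    intro x
    rw [sum_div, ← sum_filter]
    refine sum_congr rfl fun x' hx' => ?_
    rw [(mem_filter.1 hx').2]
  simp only [h1]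
  rw [sum_comm]
  refine sum_congr rfl fun x' _ => ?_
  rw [← sum_filter, sum_const, nsmul_eq_mul]
  have h2 : (univ.filter fun x : E => (ed x').2.1 = (ed x).2.1) = fib ed (ed x').2.1 := by
    ext x; simp [fib, eq_comm]
  have h3 : (0 : ℝ) < (fib ed (ed x').2.1).card :=
    Nat.cast_pos.2 (card_pos.2 (⟨x', mem_filter.2 ⟨mem_univ _, rfl⟩⟩ :
      (fib ed (ed x').2.1).Nonempty))
  rw [h2]
  field_simp

/-- The names of the big vertices. -/
def bigs (ed : E → PEdge ℕ ℕ SA SB) (e : Fin k → E) : Fin k → ℕ := fun b => (ed (e b)).2.1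

theorem bigs_update (ed : E → PEdge ℕ ℕ SA SB) (e : Fin k → E) (j : Fin k) (x : E) :
    bigs ed (Function.update e j x) = Function.update (bigs ed e) j (ed x).2.1 := by
  funext b
  by_cases h : b = j
  · subst h; simp [bigs]
  · simp [bigs, h]

theorem expect_fib_tuple (ed : E → PEdge ℕ ℕ SA SB) (j : Fin k) (Φ : (Fin k → ℕ) → E → ℝ) :
    𝔼 e : Fin k → E, 𝔼 x' ∈ fib ed (bigs ed e j), Φ (bigs ed e) x' =
      𝔼 e : Fin k → E, Φ (bigs ed e) (e j) := by
  rw [← P325.expect_update (fun e => 𝔼 x' ∈ fib ed (bigs ed e j), Φ (bigs ed e) x') j,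
    ← P325.expect_update (fun e => Φ (bigs ed e) (e j)) j]
  refine expect_congr rfl fun e _ => ?_
  simp only [bigs_update, Function.update_self]
  exact expect_fib ed fun u x' => Φ (Function.update (bigs ed e) j u) x'

theorem expect_dirac {B : Type*} [Fintype B] [DecidableEq B] [Nonempty B] (a : B) (Φ : B → ℝ) :
    𝔼 b, (if b = a then (Fintype.card B : ℝ) else 0) * Φ b = Φ a := by
  have h0 : (Fintype.card B : ℝ) ≠ 0 := by exact_mod_cast Fintype.card_ne_zero
  rw [Fintype.expect_eq_sum_div_card]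
  simp only [ite_mul, zero_mul, sum_ite_eq', mem_univ, if_true]
  field_simp

theorem expect_dens (P : Matrix (Fin l) (Fin l) (ZMod 2)) (w : Vec l) (π : SA → SB) (j : Fin k)
    (F : SB → Vec l) (r : SA × Bool → ZMod 2) (Φ : Tab l k SA → ℝ) :
    𝔼 A : Tab l k SA, dens P w π (A j) F r * Φ A =
      𝔼 A : Tab l k SA, Φ (Function.update A j (blk π w (fun s => P *ᵥ F s) r)) := by
  rw [← P325.expect_update (fun A : Tab l k SA => dens P w π (A j) F r * Φ A) j]
  refine expect_congr rfl fun A _ => ?_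
  simp only [Function.update_self]
  have := expect_dirac (blk π w (fun s => P *ᵥ F s) r) fun b => Φ (Function.update A j b)
  rw [← this]
  refine expect_congr rfl fun b _ => ?_
  unfold dens nB
  congr

/-- Change of measure. -/
theorem transfer (ed : E → PEdge ℕ ℕ SA SB) (P : Matrix (Fin l) (Fin l) (ZMod 2)) (w : Vec l)
    (Ψ : (Fin k → ℕ) → Tab l k SA → Fin k → E → (SB → Vec l) → ℝ) :
    𝔼 e : Fin k → E, 𝔼 A : Tab l k SA, Av ed (bigs ed e) P w A (Ψ (bigs ed e) A) =
      𝔼 j, 𝔼 e : Fin k → E, 𝔼 F : SB → Vec l, 𝔼 r : SA × Bool → ZMod 2, 𝔼 A : Tab l k SA,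
        Ψ (bigs ed e) (Function.update A j (blk (ed (e j)).2.2 w (fun s => P *ᵥ F s) r))
          j (e j) F := by
  unfold Av
  have h1 : ∀ e : Fin k → E, 𝔼 A : Tab l k SA, 𝔼 j, 𝔼 x ∈ fib ed (bigs ed e j), 𝔼 F : SB → Vec l,
      𝔼 r : SA × Bool → ZMod 2, dens P w (ed x).2.2 (A j) F r * Ψ (bigs ed e) A j x F =
      𝔼 j, 𝔼 x ∈ fib ed (bigs ed e j), 𝔼 F : SB → Vec l, 𝔼 r : SA × Bool → ZMod 2,
        𝔼 A : Tab l k SA, Ψ (bigs ed e)
          (Function.update A j (blk (ed x).2.2 w (fun s => P *ᵥ F s) r)) j x F := by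
    intro e
    rw [expect_comm]
    refine expect_congr rfl fun j _ => ?_
    rw [expect_comm]
    refine expect_congr rfl fun x _ => ?_
    rw [expect_comm]
    refine expect_congr rfl fun F _ => ?_
    rw [expect_comm]
    refine expect_congr rfl fun r _ => ?_
    exact expect_dens P w _ j F r fun A => Ψ (bigs ed e) A j x F
  simp only [h1]
  rw [expect_comm]
  refine expect_congr rfl fun j _ => ?_
  exact expect_fib_tuple ed j fun U x => 𝔼 F : SB → Vec l, 𝔼 r : SA × Bool → ZMod 2,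
    𝔼 A : Tab l k SA, Ψ U (Function.update A j (blk (ed x).2.2 w (fun s => P *ᵥ F s) r)) j x F

/-- The density of one block. -/
noncomputable def om (ed : E → PEdge ℕ ℕ SA SB) (P : Matrix (Fin l) (Fin l) (ZMod 2)) (w : Vec l)
    (u : ℕ) (a : SA × Bool → Vec l) : ℝ :=
  𝔼 e ∈ fib ed u, 𝔼 F : SB → Vec l, 𝔼 r : SA × Bool → ZMod 2, dens P w (ed e).2.2 a F r

theorem om_nonneg (ed : E → PEdge ℕ ℕ SA SB) (P : Matrix (Fin l) (Fin l) (ZMod 2)) (w : Vec l)
    (u : ℕ) (a : SA × Bool → Vec l) : 0 ≤ om ed P w u a :=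
  expect_nonneg fun _ _ => expect_nonneg fun _ _ => expect_nonneg fun _ _ => dens_nonneg _ _ _ _ _ _

theorem om_le (ed : E → PEdge ℕ ℕ SA SB) (P : Matrix (Fin l) (Fin l) (ZMod 2)) (w : Vec l)
    (u : ℕ) (a : SA × Bool → Vec l) : om ed P w u a ≤ nB l SA :=
  expect_le_of_nonneg nB_pos.le fun _ _ => expect_le univ_nonempty fun _ _ =>
    expect_le univ_nonempty fun _ _ => by
      unfold dens; split_ifs
      · exact le_rfl
      · exact nB_pos.le

theorem expect_om (ed : E → PEdge ℕ ℕ SA SB) (P : Matrix (Fin l) (Fin l) (ZMod 2)) (w : Vec l)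
    (x : E) : 𝔼 a, om ed P w (ed x).2.1 a = 1 := by
  unfold om
  rw [expect_comm]
  have hne : (fib ed (ed x).2.1).Nonempty := ⟨x, mem_filter.2 ⟨mem_univ _, rfl⟩⟩
  rw [← expect_const hne (1 : ℝ)]
  refine expect_congr rfl fun e _ => ?_
  rw [expect_comm, ← Fintype.expect_const (ι := SB → Vec l) (1 : ℝ)]
  refine expect_congr rfl fun F _ => ?_
  rw [expect_comm, ← Fintype.expect_const (ι := SA × Bool → ZMod 2) (1 : ℝ)]
  refine expect_congr rfl fun r _ => ?_
  have := expect_dirac (blk (ed e).2.2 w (fun s => P *ᵥ F s) r) fun _ => (1 : ℝ)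
  rw [← this]
  refine expect_congr rfl fun b _ => ?_
  unfold dens nB
  rw [mul_one]

theorem Th_eq (ed : E → PEdge ℕ ℕ SA SB) (U : Fin k → ℕ) (P : Matrix (Fin l) (Fin l) (ZMod 2))
    (w : Vec l) (A : Tab l k SA) : Th ed U P w A = 𝔼 j, om ed P w (U j) (A j) := by
  simp only [Th, Av, om, mul_one]

theorem expect_pi_prod {J X Y : Type*} [Fintype J] [DecidableEq J] [Fintype X] [Fintype Y]
    (Φ : (J → X) → (J → Y) → ℝ) :
    𝔼 x : J → X, 𝔼 y : J → Y, Φ x y =
      𝔼 z : J → X × Y, Φ (fun j => (z j).1) (fun j => (z j).2) := by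
  rw [← expect_product', univ_product_univ]
  exact (Fintype.expect_equiv (Equiv.arrowProdEquivProdArrow J (fun _ => X) (fun _ => Y)) _ _
    fun _ => rfl).symm

/-- The total weight is concentrated. -/
theorem Th_var (hk : 0 < k) (ed : E → PEdge ℕ ℕ SA SB) (P : Matrix (Fin l) (Fin l) (ZMod 2))
    (w : Vec l) :
    𝔼 e : Fin k → E, 𝔼 A : Tab l k SA, (Th ed (bigs ed e) P w A - 1) ^ 2 ≤ nB l SA / k := by
  haveI : Nonempty (Fin k) := ⟨⟨0, hk⟩⟩
  rw [expect_pi_prod]
  set u : E × (SA × Bool → Vec l) → ℝ := fun b => om ed P w (ed b.1).2.1 b.2 - 1 with hu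
  have hm : 𝔼 b : E × (SA × Bool → Vec l), om ed P w (ed b.1).2.1 b.2 = 1 := by
    rw [← univ_product_univ, expect_product]
    simp only [expect_om, Fintype.expect_const]
  have h1 := P325.expect_sq_avg (J := Fin k) u (by
    rw [hu, expect_sub_distrib, hm]; simp)
  have h2 : ∀ z : Fin k → E × (SA × Bool → Vec l),
      Th ed (bigs ed fun j => (z j).1) P w (fun j => (z j).2) - 1 = 𝔼 j, u (z j) := by
    intro z
    rw [Th_eq, hu, expect_sub_distrib, Fintype.expect_const]
    rfl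
  simp only [h2]
  rw [h1, Fintype.card_fin]
  refine div_le_div_of_nonneg_right ?_ (Nat.cast_nonneg _)
  calc 𝔼 b, u b ^ 2 ≤ 𝔼 b : E × (SA × Bool → Vec l),
        ((nB l SA - 2) * om ed P w (ed b.1).2.1 b.2 + 1) :=
        expect_le_expect fun b _ => by
          have := om_nonneg ed P w (ed b.1).2.1 b.2
          have := om_le ed P w (ed b.1).2.1 b.2
          simp only [hu]; nlinarith
    _ = nB l SA - 1 := by
        rw [expect_add_distrib, ← mul_expect, hm, Fintype.expect_const]; ring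
    _ ≤ nB l SA := by linarith

theorem Th_abs (hk : 0 < k) (ed : E → PEdge ℕ ℕ SA SB) (P : Matrix (Fin l) (Fin l) (ZMod 2))
    (w : Vec l) {η : ℝ} (hη : 0 < η) (h : nB l SA / k ≤ η ^ 2) :
    𝔼 e : Fin k → E, 𝔼 A : Tab l k SA, |Th ed (bigs ed e) P w A - 1| ≤ η := by
  have h1 := (Th_var hk ed P w).trans h
  calc 𝔼 e : Fin k → E, 𝔼 A : Tab l k SA, |Th ed (bigs ed e) P w A - 1|
      ≤ 𝔼 e : Fin k → E, 𝔼 A : Tab l k SA,
        (η / 2 + (Th ed (bigs ed e) P w A - 1) ^ 2 * (1 / (2 * η))) :=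
        expect_le_expect fun e _ => expect_le_expect fun A _ => by
          set x := Th ed (bigs ed e) P w A - 1
          rw [← sq_abs x, mul_one_div, ← sub_le_iff_le_add', le_div_iff₀ (by positivity)]
          nlinarith [sq_nonneg (|x| - η)]
    _ = η / 2 + (𝔼 e : Fin k → E, 𝔼 A : Tab l k SA,
        (Th ed (bigs ed e) P w A - 1) ^ 2) * (1 / (2 * η)) := by
        simp only [expect_add_distrib, Fintype.expect_const, expect_mul]
    _ ≤ η / 2 + η ^ 2 * (1 / (2 * η)) := by gcongr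
    _ = η := by field_simp; ring

theorem Th_zero (hk : 0 < k) (ed : E → PEdge ℕ ℕ SA SB) (P : Matrix (Fin l) (Fin l) (ZMod 2))
    (w : Vec l) :
    (𝔼 e : Fin k → E, 𝔼 A : Tab l k SA,
      if Th ed (bigs ed e) P w A = 0 then (1 : ℝ) else 0) ≤ nB l SA / k := by
  refine le_trans (expect_le_expect fun e _ => expect_le_expect fun A _ => ?_) (Th_var hk ed P w)
  split_ifs with h
  · rw [h]; norm_num
  · positivity

/-- Removing the normalisation. -/
theorem xi_sub_le (ed : E → PEdge ℕ ℕ SA SB) (Tk : Key l k SA SB → Finset (Vec l)) (R : ℕ)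
    (U : Fin k → ℕ) (σ : St (Fin l) (Pt k SA)) (w : Vec l) (A : Tab l k SA) (φ φ' : Vec l) :
    xi ed Tk R U σ w (toMat A) φ - xi ed Tk R U σ w (toMat A) φ' ≤
      Nw ed Tk R U σ w A φ - Nw ed Tk R U σ w A φ' + |Th ed U σ.P w A - 1| := by
  simp only [xi, ofMat_toMat]
  have a0 := Nw_nonneg ed Tk R U σ w A φ
  have a1 := Nw_le ed Tk R U σ w A φ
  have b0 := Nw_nonneg ed Tk R U σ w A φ'
  have b1 := Nw_le ed Tk R U σ w A φ'
  set x := Nw ed Tk R U σ w A φ
  set y := Nw ed Tk R U σ w A φ'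
  set θ := Th ed U σ.P w A
  rcases eq_or_lt_of_le (a0.trans a1) with h | h
  · have hx : x = 0 := by linarith
    have hy : y = 0 := by linarith
    rw [hx, hy]; simp
  · have h1 : x / θ - y / θ - (x - y) = (x / θ - y / θ) * (1 - θ) := by field_simp
    have h2 : |x / θ - y / θ| ≤ 1 := by
      have := div_nonneg a0 h.le
      have := div_nonneg b0 h.le
      have := (div_le_one h).2 a1
      have := (div_le_one h).2 b1
      rw [abs_le]; constructor <;> linarith
    have h3 : (x / θ - y / θ) * (1 - θ) ≤ |θ - 1| := by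
      refine (le_abs_self _).trans ?_
      rw [abs_mul, abs_sub_comm 1 θ]
      exact mul_le_of_le_one_left (abs_nonneg _) h2
    linarith

end Vale.Agent.P342
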