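import Vale.Agent.P342.Core

/-!
Elementary facts on zooms `T + P * C * Q`, on the rank of a random matrix, and on lists of labels
of a projection game.
-/

set_option linter.unusedSectionVars false

namespace Vale.Agent.P342

open Finset Matrix Vale.Agent.Lib.PCP Vale.Agent.Lib.PCP.Bilin
open scoped BigOperators Classical

variable {m n : Type} [Fintype m] [Fintype n] [DecidableEq m] [DecidableEq n]

/-- the probability that all rows lie in the row space of `Q` -/
theorem prob_rows (Q : Matrix n n F) {ρ : ℕ} (h : Fintype.card n ≤ Q.rank + ρ) :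
    (1 / 2 : ℝ) ^ (ρ * Fintype.card m) ≤
      𝔼 C' : Matrix m n F, if ∀ i, InIm Qᵀ (C' i) then (1 : ℝ) else 0 := by
  rw [Fintype.expect_eq_sum_div_card, sum_boole]
  have h1 : (univ.filter fun C' : Matrix m n F => ∀ i, InIm Qᵀ (C' i)).card =
      (2 ^ Q.rank) ^ Fintype.card m := by
    have : (univ.filter fun C' : Matrix m n F => ∀ i, InIm Qᵀ (C' i)).card =
        (Fintype.piFinset fun _ : m => univ.filter (InIm Qᵀ)).card := by
      refine card_bij (fun C _ => C) (fun C hC => ?_) (fun _ _ _ _ e => e) fun C hC => ⟨C, ?_, rfl⟩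
      · exact Fintype.mem_piFinset.2 fun i => mem_filter.2 ⟨mem_univ _, (mem_filter.1 hC).2 i⟩
      · exact mem_filter.2 ⟨mem_univ _, fun i => (mem_filter.1 (Fintype.mem_piFinset.1 hC i)).2⟩
    rw [this, Fintype.card_piFinset, prod_const, card_im, rank_transpose, card_univ]
  have h2 : Fintype.card (Matrix m n F) = (2 ^ Fintype.card n) ^ Fintype.card m := by
    rw [show Fintype.card (Matrix m n F) = Fintype.card (m → n → F) from rfl, Fintype.card_fun,
      Fintype.card_fun, ZMod.card]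
  rw [h1, h2]
  push_cast
  rw [← div_pow, pow_mul]
  refine pow_le_pow_left₀ (by positivity) ?_ _
  rw [le_div_iff₀ (by positivity), one_div, inv_pow, inv_mul_le_iff₀ (by positivity), ← pow_add]
  exact pow_le_pow_right₀ one_le_two (by omega)

theorem zoom_measure (P : Matrix m m F) (Q : Matrix n n F) {ρ : ℕ}
    (h : Fintype.card n ≤ Q.rank + ρ) :
    ∃ μ : ℝ, (1 / 2 : ℝ) ^ (ρ * Fintype.card m) ≤ μ ∧ ∀ Ψ : Matrix m n F → ℝ,
      (𝔼 C' : Matrix m n F, if ∃ C : Matrix m n F, P * C' = P * C * Q then Ψ (P * C') else 0) =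
        μ * 𝔼 C : Matrix m n F, Ψ (P * C * Q) := by
  refine ⟨𝔼 C' : Matrix m n F, if ∃ C : Matrix m n F, P * C' = P * C * Q then 1 else 0, ?_,
    fun Ψ => ?_⟩
  · refine (prob_rows Q h).trans (expect_le_expect fun C' _ => ?_)
    by_cases h1 : ∀ i, InIm Qᵀ (C' i)
    · rw [if_pos h1, if_pos]
      choose C hC using h1
      refine ⟨Matrix.of C, ?_⟩
      rw [Matrix.mul_assoc]
      congr 1
      ext i j
      rw [← hC i, mulVec_transpose]
      rfl
    · rw [if_neg h1]
      split_ifs <;> norm_num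
  · rw [← expect_fibration _ fun D : Matrix m n F => D * Q, expect_mul]
    refine expect_congr rfl fun C' _ => ?_
    by_cases h1 : ∃ C : Matrix m n F, P * C' = P * C * Q
    · rw [if_pos h1, one_mul]
      obtain ⟨C, hC⟩ := h1
      rw [← expect_add_left' (fun D => Ψ (P * D * Q)) C]
      refine expect_congr rfl fun D _ => ?_
      have h2 : P * (C' + D * Q) = P * (C + D) * Q := by
        rw [Matrix.mul_add, hC, Matrix.mul_add, Matrix.add_mul, Matrix.mul_assoc P D]
      rw [if_pos ⟨_, h2⟩, h2]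
    · rw [if_neg h1, zero_mul]
      refine expect_eq_zero fun D _ => if_neg ?_
      rintro ⟨C, hC⟩
      refine h1 ⟨C + D, ?_⟩
      rw [Matrix.mul_add, Matrix.add_mul, ← hC, Matrix.mul_add, Matrix.mul_assoc P D,
        mat_add_cancel']

/-- the indicator function of the row space as an average of characters -/
theorem expect_ker_chi (Q : Matrix n n F) (z : n → F) :
    (𝔼 y : n → F, if Q *ᵥ y = 0 then chi y z else 0) =
      if InIm Qᵀ z then (1 / 2 : ℝ) ^ Q.rank else 0 := by
  have h1 : ∀ y : n → F, (if Q *ᵥ y = 0 then chi y z else 0) =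
      𝔼 u : n → F, chi (Qᵀ *ᵥ u + z) y := by
    intro y
    have h2 : ∀ u : n → F, chi (Qᵀ *ᵥ u + z) y = chi (Q *ᵥ y) u * chi y z := by
      intro u
      rw [chi_add_left, chi_comm z, chi, mulVec_transpose, ← dotProduct_mulVec, dotProduct_comm]
      rfl
    simp only [h2, ← expect_mul, expect_chi]
    split_ifs <;> simp
  simp only [h1]
  rw [expect_comm]
  simp only [expect_chi, f2_vec_add_eq_zero]
  rw [prob_eq, rank_transpose]

theorem zoom_row {Y : Type} [Fintype Y] (T A : Matrix m n F) (P : Matrix m m F) (Q : Matrix n n F)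
    (a : m → F) (ha : P *ᵥ a ≠ 0) (x : Y → n → F) (Φ : Y → ℝ) {τ : ℝ} (h0 : 0 ≤ τ)
    (h : ∀ y, Q *ᵥ y = 0 → |𝔼 p, Φ p * chi y (x p)| ≤ τ) :
    |𝔼 p, if ∃ C : Matrix m n F, A + vecMulVec (P *ᵥ a) (x p) = T + P * C * Q then Φ p else 0| ≤
      τ := by
  by_cases h1 : ∃ (x₀ : n → F) (C : Matrix m n F), A + vecMulVec (P *ᵥ a) x₀ = T + P * C * Q
  swap
  · rw [expect_eq_zero fun p _ => if_neg fun h' => h1 ⟨_, h'⟩, abs_zero]
    exact h0
  obtain ⟨x₀, C₀, h1⟩ := h1
  have h2 : ∀ z : n → F, (∃ C : Matrix m n F, A + vecMulVec (P *ᵥ a) z = T + P * C * Q) ↔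
      InIm Qᵀ (z + x₀) := by
    intro z
    constructor
    · rintro ⟨C, hC⟩
      obtain ⟨i, hi⟩ := Function.ne_iff.1 ha
      have h3 : (P *ᵥ a) i = 1 := f2_ne_zero.1 hi
      have h4 : vecMulVec (P *ᵥ a) (z + x₀) = P * (C + C₀) * Q := by
        calc _ = A + vecMulVec (P *ᵥ a) z + (A + vecMulVec (P *ᵥ a) x₀) := by
              rw [vecMulVec_add, add_add_add_comm, mat_add_self, zero_add]
          _ = _ := by
              rw [hC, h1, add_add_add_comm, mat_add_self, zero_add, Matrix.mul_add, Matrix.add_mul]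
      refine ⟨(P * (C + C₀)) i, ?_⟩
      ext j
      have h5 := congrFun (congrFun h4 i) j
      rw [vecMulVec_apply, h3, one_mul] at h5
      rw [h5, mulVec_transpose]
      rfl
    · rintro ⟨u, hu⟩
      refine ⟨C₀ + vecMulVec a u, ?_⟩
      have h3 : z = x₀ + u ᵥ* Q := by
        rw [← mulVec_transpose, hu, add_comm z, ← add_assoc, f2_vec_add_self, zero_add]
      rw [h3, vecMulVec_add, ← add_assoc, h1, Matrix.mul_add, Matrix.add_mul, mul_vecMulVec,
        vecMulVec_mul, add_assoc]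
  simp only [h2]
  have h3 : (1 / 2 : ℝ) ^ Q.rank * (𝔼 p, if InIm Qᵀ (x p + x₀) then Φ p else 0) =
      𝔼 y : n → F, if Q *ᵥ y = 0 then chi y x₀ * 𝔼 p, Φ p * chi y (x p) else 0 := by
    have h4 : ∀ p, (1 / 2 : ℝ) ^ Q.rank * (if InIm Qᵀ (x p + x₀) then Φ p else 0) =
        𝔼 y : n → F, if Q *ᵥ y = 0 then chi y x₀ * (Φ p * chi y (x p)) else 0 := by
      intro p
      calc _ = Φ p * 𝔼 y : n → F, if Q *ᵥ y = 0 then chi y (x p + x₀) else 0 := by
            rw [expect_ker_chi]
            split_ifs <;> ring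
        _ = _ := by
            rw [mul_expect]
            refine expect_congr rfl fun y _ => ?_
            rw [chi_add]
            split_ifs <;> ring
    rw [mul_expect]
    simp only [h4]
    rw [expect_comm]
    refine expect_congr rfl fun y _ => ?_
    split_ifs
    · rw [mul_expect]
    · simp
  have h5 : (0 : ℝ) < (1 / 2 : ℝ) ^ Q.rank := by positivity
  refine le_of_mul_le_mul_left ?_ h5
  rw [← abs_of_pos h5, ← abs_mul, h3, abs_of_pos h5, ← prob_ker, expect_mul]
  refine (abs_expect_le _ _).trans (expect_le_expect fun y _ => ?_)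
  split_ifs with hy
  · rw [abs_mul, abs_chi, one_mul, one_mul]
    exact h y hy
  · simp

theorem card_ker_le (Q : Matrix n n F) {ρ : ℕ} (h : Fintype.card n ≤ Q.rank + ρ) :
    (univ.filter fun y : n → F => Q *ᵥ y = 0).card ≤ 2 ^ ρ := by
  refine Nat.le_of_mul_le_mul_right ?_ (show 0 < 2 ^ Q.rank by positivity)
  rw [card_ker, ← pow_add]
  exact Nat.pow_le_pow_right two_pos (by omega)

theorem prob_vecMul_zero {u : m → F} (hu : u ≠ 0) :
    (𝔼 A : Matrix m n F, if Aᵀ *ᵥ u = 0 then (1 : ℝ) else 0) = 1 / 2 ^ Fintype.card n := by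
  have h1 : ∀ A : Matrix m n F, (if Aᵀ *ᵥ u = 0 then (1 : ℝ) else 0) =
      𝔼 φ : n → F, ch (vecMulVec u φ)ᵀ A := by
    intro A
    rw [← expect_chi]
    refine expect_congr rfl fun φ _ => ?_
    rw [chi_comm, ← ch_vecMulVec, ← ch_transpose, transpose_transpose, ch_comm]
  simp only [h1]
  rw [expect_comm]
  have h2 : ∀ φ : n → F, (vecMulVec u φ)ᵀ = 0 ↔ φ = 0 := by
    intro φ
    rw [transpose_eq_zero]
    refine ⟨fun h => ?_, fun h => by ext i j; simp [h, vecMulVec_apply]⟩
    obtain ⟨i, hi⟩ := Function.ne_iff.1 hu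
    ext j
    have h3 := congrFun (congrFun h i) j
    rwa [vecMulVec_apply, f2_ne_zero.1 hi, one_mul] at h3
  simp only [expect_ch, h2]
  rw [Fintype.expect_eq_sum_div_card, sum_ite_eq' univ (0 : n → F) fun _ => (1 : ℝ),
    if_pos (mem_univ _), Fintype.card_fun, ZMod.card]
  push_cast
  rfl

theorem prob_rank_ne :
    (𝔼 A : Matrix m n F, if A.rank = Fintype.card m then (0 : ℝ) else 1) ≤
      2 ^ Fintype.card m / 2 ^ Fintype.card n := by
  have h1 : ∀ A : Matrix m n F, (if A.rank = Fintype.card m then (0 : ℝ) else 1) ≤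
      ∑ u ∈ univ.filter fun u : m → F => u ≠ 0, if Aᵀ *ᵥ u = 0 then (1 : ℝ) else 0 := by
    intro A
    have h2 : ∀ u ∈ univ.filter fun u : m → F => u ≠ 0,
        0 ≤ if Aᵀ *ᵥ u = 0 then (1 : ℝ) else 0 := fun u _ => by split_ifs <;> norm_num
    split_ifs with hA
    · exact sum_nonneg h2
    · have h3 : ∃ u : m → F, u ≠ 0 ∧ Aᵀ *ᵥ u = 0 := by
        by_contra h4
        have h5 : (univ.filter fun w : m → F => Aᵀ *ᵥ w = 0) = {0} := by
          ext w
          simp only [mem_filter, mem_univ, true_and, mem_singleton]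
          exact ⟨fun h6 => by_contra fun h7 => h4 ⟨w, h7, h6⟩, fun h6 => by rw [h6, mulVec_zero]⟩
        have h6 := card_ker Aᵀ
        rw [h5, card_singleton, one_mul, rank_transpose] at h6
        exact hA (Nat.pow_right_injective le_rfl h6)
      obtain ⟨u, h4, h5⟩ := h3
      refine le_trans ?_ (single_le_sum h2 (show u ∈ _ by simpa using h4))
      rw [if_pos h5]
  refine (expect_le_expect fun A _ => h1 A).trans ?_
  rw [expect_sum_comm, sum_congr rfl fun u hu => prob_vecMul_zero (mem_filter.1 hu).2, sum_const,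
    nsmul_eq_mul, mul_one_div]
  refine div_le_div_of_nonneg_right ?_ (by positivity)
  have h2 := card_le_univ (univ.filter fun u : m → F => u ≠ 0)
  rw [Fintype.card_fun, ZMod.card] at h2
  exact_mod_cast h2

theorem exists_enum {α : Type} [Nonempty α] {R : ℕ} (s : Finset α) (h : s.card ≤ R) :
    ∃ f : Fin R → α, ∀ a ∈ s, ∃ i, f i = a := by
  refine ⟨fun i => s.toList.getD i (Classical.arbitrary α), fun a ha => ?_⟩
  obtain ⟨i, hi, rfl⟩ := List.getElem_of_mem (mem_toList.2 ha)
  refine ⟨⟨i, hi.trans_le (by rwa [length_toList])⟩, ?_⟩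
  simp only [List.getD_eq_getElem _ _ hi]

theorem ValLE.lists {E SA SB : Type} [Fintype E] [DecidableEq SB] {ed : E → PEdge ℕ ℕ SA SB}
    {δ : ℝ} (h : ValLE ed δ) [Nonempty SA] [Nonempty SB] {R1 R2 : ℕ} (SU : ℕ → Finset SA)
    (SV : ℕ → Finset SB) (hU : ∀ u, (SU u).card ≤ R1) (hV : ∀ v, (SV v).card ≤ R2) :
    (𝔼 e, if ∃ a ∈ SU (ed e).2.1, (ed e).2.2 a ∈ SV (ed e).1 then (1 : ℝ) else 0) ≤
      R1 * R2 * δ := by
  choose f hf using fun u => exists_enum (SU u) (hU u)
  choose g hg using fun v => exists_enum (SV v) (hV v)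
  have h1 : ∀ e, (if ∃ a ∈ SU (ed e).2.1, (ed e).2.2 a ∈ SV (ed e).1 then (1 : ℝ) else 0) ≤
      ∑ q : Fin R1 × Fin R2,
        if (ed e).2.2 (f (ed e).2.1 q.1) = g (ed e).1 q.2 then (1 : ℝ) else 0 := by
    intro e
    have h2 : ∀ q ∈ (univ : Finset (Fin R1 × Fin R2)),
        0 ≤ if (ed e).2.2 (f (ed e).2.1 q.1) = g (ed e).1 q.2 then (1 : ℝ) else 0 :=
      fun q _ => by split_ifs <;> norm_num
    split_ifs with h3
    · obtain ⟨a, h4, h5⟩ := h3
      obtain ⟨i, hi⟩ := hf _ a h4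
      obtain ⟨j, hj⟩ := hg _ _ h5
      refine le_trans ?_ (single_le_sum h2 (mem_univ (i, j)))
      rw [if_pos (by rw [hi, hj])]
    · exact sum_nonneg h2
  refine (expect_le_expect fun e _ => h1 e).trans ?_
  rw [expect_sum_comm]
  refine (sum_le_sum fun q _ => h (fun v => g v q.2) fun u => f u q.1).trans (le_of_eq ?_)
  simp

end Vale.Agent.P342
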