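import Vale.Agent.P342.Sound2
import Vale.Agent.P342.Zoom

/-!
Soundness, part three: Fourier analysis along a second direction.
-/

set_option linter.unusedSectionVars false

namespace Vale.Agent.P342

open Finset Matrix Vale.Agent.Lib.PCP Vale.Agent.Lib.PCP.Bilin
open scoped BigOperators Classical

variable {l k : ℕ} {SA SB E : Type} [Fintype SA] [DecidableEq SA] [Nonempty SA] [Fintype SB]
  [DecidableEq SB] [Nonempty SB] [Fintype E] [DecidableEq E] [Nonempty E]

/-- The coordinates of the shifts. -/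
abbrev Cube (k : ℕ) (SA SB : Type) : Type := (Pt k SA ⊕ SB) ⊕ Unit

/-- The shifted table. -/
def shA (A : Tab l k SA) (w' : Vec l) (y : Cube k SA SB → ZMod 2) : Tab l k SA :=
  fun b q => A b q + y (Sum.inl (Sum.inl (b, q))) • w'

/-- The shifted table of the projected block. -/
def shF (F : SB → Vec l) (w' : Vec l) (y : Cube k SA SB → ZMod 2) : SB → Vec l :=
  fun s => F s + y (Sum.inl (Sum.inr s)) • w'

/-- The shifted constant. -/
def shc (c w' : Vec l) (y : Cube k SA SB → ZMod 2) : Vec l := c + y (Sum.inr ()) • w'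

/-- The shifted right vertex. -/
def skey (U : Fin k → ℕ) (v : ℕ) (w : Vec l) (j i : Fin k) (h : SA → Bool) (A : Tab l k SA)
    (F : SB → Vec l) (c w' : Vec l) (y : Cube k SA SB → ZMod 2) : Key l k SA SB :=
  rkey U v w j i h (shA A w' y) (shF F w' y) (shc c w' y)

/-- The function on the cube of shifts. -/
noncomputable def Ft (Tk : Key l k SA SB → Finset (Vec l)) (U : Fin k → ℕ) (v : ℕ) (w : Vec l)
    (j i : Fin k) (h : SA → Bool) (A : Tab l k SA) (F : SB → Vec l) (c w' φ : Vec l)
    (y : Cube k SA SB → ZMod 2) : ℝ :=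
  ind Tk (skey U v w j i h A F c w' y) φ - ind Tk (skey U v w j i h A F c w' y) (φ + w')

theorem abs_Ft_le (Tk : Key l k SA SB → Finset (Vec l)) (U v w j i h A F c w' φ y) :
    |Ft Tk U v w j i h A F c w' φ y| ≤ 1 := by
  have a0 := ind_nonneg Tk (skey U v w j i h A F c w' y) φ
  have a1 := ind_le_one Tk (skey U v w j i h A F c w' y) φ
  have b0 := ind_nonneg Tk (skey U v w j i h A F c w' y) (φ + w')
  have b1 := ind_le_one Tk (skey U v w j i h A F c w' y) (φ + w')
  rw [Ft, abs_le]; constructor <;> linarith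

/-- The row added to the left table. -/
def xeff (π : SA → SB) (j : Fin k) (y : Cube k SA SB → ZMod 2) : Pt k SA → ZMod 2 :=
  fun p => if p.1 = j then y (Sum.inl (Sum.inr (π p.2.1))) else y (Sum.inl (Sum.inl p))

/-- The character of a functional. -/
def alph (π : SA → SB) (j : Fin k) (g : Pt k SA → ZMod 2) : Cube k SA SB → ZMod 2 :=
  Sum.elim (Sum.elim (fun p => if p.1 = j then 0 else g p)
    (fun s => ∑ q : SA × Bool, if π q.1 = s then g (j, q) else 0)) fun _ => 1

theorem alph_dot (π : SA → SB) (j : Fin k) (g : Pt k SA → ZMod 2) (y : Cube k SA SB → ZMod 2) :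
    alph π j g ⬝ᵥ y = g ⬝ᵥ xeff π j y + y (Sum.inr ()) := by
  have h1 : ∑ s : SB, (∑ q : SA × Bool, if π q.1 = s then g (j, q) else 0) *
      y (Sum.inl (Sum.inr s)) = ∑ p : Pt k SA,
        if p.1 = j then g p * y (Sum.inl (Sum.inr (π p.2.1))) else 0 := by
    rw [Fintype.sum_prod_type, sum_comm]
    simp only [sum_ite_eq', mem_univ, if_true, sum_mul, ite_mul, zero_mul]
    rw [sum_comm]
    simp only [sum_ite_eq, mem_univ, if_true]
  simp only [dotProduct, Fintype.sum_sum_type, alph, Sum.elim_inl, Sum.elim_inr, h1, xeff,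
    univ_unique, sum_singleton, one_mul, PUnit.default_eq_unit, ← sum_add_distrib]
  congr 1
  refine sum_congr rfl fun p _ => ?_
  split_ifs <;> simp

theorem Ft_supp {Tk : Key l k SA SB → Finset (Vec l)} {U v w j i h A F c w' φ} (hij : i ≠ j)
    {π : SA → SB} {g : Pt k SA → ZMod 2}
    (hg : hat (Ft Tk U v w j i h A F c w' φ) (alph π j g) ≠ 0) :
    ∀ q ∈ supp g i, q.2 = h q.1 := by
  intro q hq
  by_contra hne
  refine hg (hat_eq_zero_of_even (z := Pi.single (Sum.inl (Sum.inl (i, q))) 1) (fun y => ?_) ?_)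
  · have : skey U v w j i h A F c w' (y + Pi.single (Sum.inl (Sum.inl (i, q))) 1) =
        skey U v w j i h A F c w' y := by
      refine Prod.ext rfl ?_
      simp only [skey, rkey, kfin, Prod.mk.injEq, true_and]
      refine ⟨?_, ?_⟩
      · funext b q'
        by_cases hb : b = j
        · simp [hb]
        · by_cases hb' : b = i
          · have : (q'.1, h q'.1) ≠ q := by
              rintro rfl; exact hne rfl
            simp [hb', hij, shA, this]
          · simp [hb, hb', shA]
      · funext s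
        simp [shF, shc]
    rw [Ft, Ft, this]
  · rw [dotProduct_single, mul_one]
    simpa [alph, hij] using (mem_filter.1 hq).2

theorem Ft_odd {Tk : Key l k SA SB → Finset (Vec l)} {U v w j i h A F c w' φ}
    {α : Cube k SA SB → ZMod 2} (h1 : α (Sum.inr ()) = 1)
    (hg : hat (Ft Tk U v w j i h A F c w' φ) α ≠ 0) : ∃ s, α (Sum.inl (Sum.inr s)) ≠ 0 := by
  by_contra hne
  push Not at hne
  refine hg (hat_eq_zero_of_even
    (z := Sum.elim (Sum.elim (fun _ => 0) fun _ => 1) fun _ => 1) (fun y => ?_) ?_)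
  · have : skey U v w j i h A F c w'
        (y + Sum.elim (Sum.elim (fun _ => 0) fun _ => 1) fun _ => 1) =
        skey U v w j i h A F c w' y := by
      refine Prod.ext rfl ?_
      simp only [skey, rkey, kfin, Prod.mk.injEq, true_and]
      refine ⟨?_, ?_⟩
      · funext b q'
        simp [shA]
      · funext s
        congr 1
        simp only [shF, shc, Pi.add_apply, Sum.elim_inl, Sum.elim_inr, add_smul, one_smul]
        rw [← vec_add_add (F s + y (Sum.inl (Sum.inr s)) • w' + (c + y (Sum.inr ()) • w')) w']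
        abel
    rw [Ft, Ft, this]
  · simp [dotProduct, Fintype.sum_sum_type, hne, h1]

/-- One label for each large Fourier coefficient. -/
noncomputable def picks (Φ : (Cube k SA SB → ZMod 2) → ℝ) (τ : ℝ) : Finset SB :=
  (univ.filter fun α => τ < |hat Φ α|).image fun α =>
    Classical.epsilon fun s => α (Sum.inl (Sum.inr s)) ≠ 0

theorem card_picks {Φ : (Cube k SA SB → ZMod 2) → ℝ} (hΦ : ∀ y, |Φ y| ≤ 1) {τ : ℝ} (h0 : 0 < τ)
    {N : ℕ} (hN : 1 ≤ N * τ ^ 2) : (picks Φ τ).card ≤ N := by
  refine card_image_le.trans ?_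
  have h1 : ((univ.filter fun α => τ < |hat Φ α|).card : ℝ) * τ ^ 2 ≤ 1 := by
    refine le_trans ?_ (parseval_le_one hΦ)
    rw [← nsmul_eq_mul, ← sum_const]
    refine (sum_le_sum fun α hα => ?_).trans
      (sum_le_sum_of_subset_of_nonneg (filter_subset _ _) fun _ _ _ => sq_nonneg _)
    rw [← sq_abs (hat Φ α)]
    exact pow_le_pow_left₀ h0.le (mem_filter.1 hα).2.le 2
  have h2 := le_of_mul_le_mul_right (h1.trans hN) (by positivity)
  exact_mod_cast h2

/-- The list of the small vertex. -/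
noncomputable def SVl (Tk : Key l k SA SB → Finset (Vec l)) (τ : ℝ) (U : Fin k → ℕ) (v : ℕ)
    (w : Vec l) (j i : Fin k) (h : SA → Bool) (A : Tab l k SA) (F : SB → Vec l) (c w' : Vec l) :
    Finset SB :=
  univ.biUnion fun φ => picks (Ft Tk U v w j i h A F c w' φ) τ

theorem card_SVl (Tk : Key l k SA SB → Finset (Vec l)) {τ : ℝ} (h0 : 0 < τ) {N : ℕ}
    (hN : 1 ≤ N * τ ^ 2) (U v w j i h A F c w') :
    (SVl Tk τ U v w j i h A F c w').card ≤ 2 ^ l * N := by
  refine (card_biUnion_le_card_mul _ _ N fun φ _ =>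
    card_picks (abs_Ft_le _ _ _ _ _ _ _ _ _ _ _ _) h0 hN).trans ?_
  simp

theorem SVl_update (Tk : Key l k SA SB → Finset (Vec l)) (τ : ℝ) (U v w j i h A F c w') (u : ℕ) :
    SVl Tk τ (Function.update U j u) v w j i h A F c w' = SVl Tk τ U v w j i h A F c w' := by
  have : ∀ y, skey (Function.update U j u) v w j i h A F c w' y = skey U v w j i h A F c w' y := by
    intro y
    simp [skey, rkey]
  have h2 : ∀ φ, Ft Tk (Function.update U j u) v w j i h A F c w' φ =
      Ft Tk U v w j i h A F c w' φ := fun φ => by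
    funext y
    rw [Ft, Ft, this]
  simp only [SVl, h2]

/-- The list of the big vertex. -/
noncomputable def SUl (R : ℕ) (σ : St (Fin l) (Pt k SA)) (j : Fin k) : Finset SA :=
  (sig R σ j).biUnion fun g => (supp g j).image Prod.fst

theorem card_SUl (R : ℕ) (σ : St (Fin l) (Pt k SA)) (j : Fin k) :
    (SUl R σ j).card ≤ (fam σ).card * R :=
  (card_biUnion_le_card_mul _ _ R fun _ hg => card_image_le.trans (mem_filter.1 hg).2).trans
    (Nat.mul_le_mul_right _ (card_filter_le _ _))

theorem card_fam {σ : St (Fin l) (Pt k SA)} {t ρ : ℕ} (h1 : σ.Gs.card ≤ t)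
    (h2 : Fintype.card (Pt k SA) ≤ σ.Q.rank + ρ) : (fam σ).card ≤ t * 2 ^ ρ := by
  refine card_image_le.trans ?_
  rw [card_product]
  refine Nat.mul_le_mul h1 ?_
  convert card_ker_le σ.Q h2

/-- A functional of the family has large support inside the graph of the noise. -/
def Noisy (R : ℕ) (σ : St (Fin l) (Pt k SA)) (i : Fin k) (h : SA → Bool) : Prop :=
  ∃ g ∈ fam σ, R < (supp g i).card ∧ ∀ q ∈ supp g i, q.2 = h q.1

theorem decode_lists {Tk : Key l k SA SB → Finset (Vec l)} {U v w j i h A F c w' φ} (hij : i ≠ j)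
    {π : SA → SB} {σ : St (Fin l) (Pt k SA)} {R : ℕ} {τ : ℝ} (h0 : 0 ≤ τ) {g : Pt k SA → ZMod 2}
    (hg : g ∈ fam σ) (h1 : τ < |hat (Ft Tk U v w j i h A F c w' φ) (alph π j g)|)
    (h2 : ¬ Noisy R σ i h) (h3 : sig R σ i = sig R σ j) :
    ∃ a ∈ SUl R σ j, π a ∈ SVl Tk τ U v w j i h A F c w' := by
  have hne : hat (Ft Tk U v w j i h A F c w' φ) (alph π j g) ≠ 0 := by
    intro h4
    rw [h4, abs_zero] at h1
    exact absurd h1 (not_lt.2 h0)
  have h4 : g ∈ sig R σ j := by
    rw [← h3]
    refine mem_filter.2 ⟨hg, not_lt.1 fun h5 => h2 ⟨g, hg, h5, Ft_supp hij hne⟩⟩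
  have h5 := Classical.epsilon_spec (Ft_odd rfl hne)
  set s := Classical.epsilon fun s => alph π j g (Sum.inl (Sum.inr s)) ≠ 0 with hs
  obtain ⟨q, -, hq⟩ := exists_ne_zero_of_sum_ne_zero h5
  have h6 : π q.1 = s ∧ g (j, q) ≠ 0 := by simpa using hq
  refine ⟨q.1, mem_biUnion.2 ⟨g, h4, mem_image_of_mem _ (mem_filter.2 ⟨mem_univ _, h6.2⟩)⟩,
    mem_biUnion.2 ⟨φ, mem_univ _, ?_⟩⟩
  rw [h6.1]
  exact mem_image.2 ⟨_, mem_filter.2 ⟨mem_univ _, h1⟩, rfl⟩

theorem prob_graph (s : Finset (SA × Bool)) :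
    (𝔼 h : SA → Bool, if ∀ q ∈ s, q.2 = h q.1 then (1 : ℝ) else 0) ≤ (1 / 2) ^ s.card := by
  induction s using Finset.induction_on with
  | empty => simp
  | insert a s ha ih =>
    rw [card_insert_of_notMem ha, pow_succ]
    by_cases h1 : (a.1, !a.2) ∈ s
    · refine le_trans (expect_le univ_nonempty fun h _ => ?_) (by positivity : (0 : ℝ) ≤ _)
      rw [if_neg]
      intro h2
      have h3 := h2 a (mem_insert_self _ _)
      have h4 := h2 _ (mem_insert_of_mem h1)
      simp [← h3] at h4
    · refine le_trans (le_of_eq ?_) (mul_le_mul_of_nonneg_right ih (by norm_num))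
      rw [← P325.expect_update _ a.1, expect_mul]
      refine expect_congr rfl fun h _ => ?_
      have h2 : ∀ b, (∀ q ∈ insert a s, q.2 = Function.update h a.1 b q.1) ↔
          (a.2 = b ∧ ∀ q ∈ s, q.2 = h q.1) := by
        intro b
        have h3 : ∀ q ∈ s, q.1 ≠ a.1 := by
          intro q hq h4
          by_cases h5 : q.2 = a.2
          · exact ha ((Prod.ext h4 h5 : q = a) ▸ hq)
          · exact h1 ((Prod.ext h4 (Bool.eq_not.2 h5) : q = (a.1, !a.2)) ▸ hq)
        simp only [mem_insert, forall_eq_or_imp, Function.update_self]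
        exact and_congr_right fun _ => forall₂_congr fun q hq => by
          rw [Function.update_of_ne (h3 q hq)]
      simp only [h2]
      rw [Fintype.expect_eq_sum_div_card]
      by_cases h3 : ∀ q ∈ s, q.2 = h q.1
      · simp only [eq_true h3, and_true, sum_ite_eq, mem_univ, if_true]
        simp
      · simp only [eq_false h3, and_false, if_false, sum_const_zero, zero_div, zero_mul]

theorem prob_noisy (R : ℕ) (σ : St (Fin l) (Pt k SA)) (i : Fin k) :
    (𝔼 h : SA → Bool, if Noisy R σ i h then (1 : ℝ) else 0) ≤ (fam σ).card * (1 / 2) ^ R := by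
  calc (𝔼 h : SA → Bool, if Noisy R σ i h then (1 : ℝ) else 0)
      ≤ 𝔼 h : SA → Bool, ∑ g ∈ fam σ, if R < (supp g i).card then
        (if ∀ q ∈ supp g i, q.2 = h q.1 then (1 : ℝ) else 0) else 0 :=
        expect_le_expect fun h _ => by
          have h0 : ∀ g ∈ fam σ, (0 : ℝ) ≤ if R < (supp g i).card then
              (if ∀ q ∈ supp g i, q.2 = h q.1 then (1 : ℝ) else 0) else 0 := fun g _ => by
            split_ifs <;> norm_num
          by_cases h1 : Noisy R σ i h
          · rw [if_pos h1]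
            obtain ⟨g, hg, h2, h3⟩ := h1
            refine le_trans ?_ (single_le_sum h0 hg)
            rw [if_pos h2, if_pos h3]
          · rw [if_neg h1]; exact sum_nonneg h0
    _ ≤ ∑ _g ∈ fam σ, (1 / 2 : ℝ) ^ R := by
        rw [expect_sum_comm]
        refine sum_le_sum fun g _ => ?_
        split_ifs with h1
        · exact (prob_graph _).trans (pow_le_pow_of_le_one (by norm_num) (by norm_num) h1.le)
        · simp
    _ = _ := by simp

end Vale.Agent.P342
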