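import Vale.Agent.P342.Sound3

/-!
Soundness, part four: the bound for a fixed projected block.
-/

set_option linter.unusedSectionVars false

namespace Vale.Agent.P342

open Finset Matrix Vale.Agent.Lib.PCP Vale.Agent.Lib.PCP.Bilin
open scoped BigOperators Classical

variable {l k : ℕ} {SA SB E : Type} [Fintype SA] [DecidableEq SA] [Nonempty SA] [Fintype SB]
  [DecidableEq SB] [Nonempty SB] [Fintype E] [DecidableEq E] [Nonempty E]

/-- The matrix lies in the zoom. -/
def InZoom (σ : St (Fin l) (Pt k SA)) (M : Mat l k SA) : Prop :=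
  ∃ C : Mat l k SA, M = σ.T + σ.P * C * σ.Q

theorem toMat_shift (A : Tab l k SA) (j : Fin k) (π : SA → SB) (w w' : Vec l) (F : SB → Vec l)
    (r : SA × Bool → ZMod 2) (y : Cube k SA SB → ZMod 2) :
    toMat (Function.update (shA A w' y) j (blk π w (shF F w' y) r)) =
      toMat (Function.update A j (blk π w F r)) + vecMulVec w' (xeff π j y) := by
  ext x p
  obtain ⟨b, q⟩ := p
  by_cases hb : b = j
  · subst hb
    simp only [toMat, Function.update_self, blk, shF, xeff, Matrix.add_apply, vecMulVec_apply,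
      if_true, Pi.add_apply, Pi.smul_apply, smul_eq_mul]
    ring
  · simp only [toMat, Function.update_of_ne hb, shA, xeff, Matrix.add_apply, vecMulVec_apply,
      if_neg hb, Pi.add_apply, Pi.smul_apply, smul_eq_mul]
    ring

theorem ind_sign (Tk : Key l k SA SB → Finset (Vec l)) (K : Key l k SA SB) (φ w' : Vec l)
    (s : ZMod 2) : ind Tk K (φ + s • w') - ind Tk K (φ + w' + s • w') =
      (ind Tk K φ - ind Tk K (φ + w')) * sg s := by
  rcases f2_cases s with rfl | rfl
  · simp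
  · rw [one_smul, vec_add_add, sg_one]; ring

theorem vecMulVec_mulVec_smul (w : Vec l) (x G : Pt k SA → ZMod 2) :
    vecMulVec w x *ᵥ G = (G ⬝ᵥ x) • w := by
  funext r
  simp only [mulVec, dotProduct, vecMulVec_apply, Pi.smul_apply, smul_eq_mul, sum_mul]
  exact sum_congr rfl fun _ _ => by ring

/-- The lists of the two ends of the projected edge are consistent. -/
def Win (Tk : Key l k SA SB → Finset (Vec l)) (R : ℕ) (τ : ℝ) (σ : St (Fin l) (Pt k SA))
    (π : SA → SB) (U : Fin k → ℕ) (v : ℕ) (w : Vec l) (j i : Fin k) (h : SA → Bool)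
    (A : Tab l k SA) (F : SB → Vec l) (c w' : Vec l) : Prop :=
  ∃ a ∈ SUl R σ j, π a ∈ SVl Tk τ U v w j i h A F c w'

theorem local_bound (Tk : Key l k SA SB → Finset (Vec l)) (R : ℕ) {τ : ℝ} (h0 : 0 ≤ τ)
    (σ : St (Fin l) (Pt k SA)) {G : Pt k SA → ZMod 2} (hG : G ∈ σ.Gs) (π : SA → SB)
    (U : Fin k → ℕ) (v : ℕ) (w : Vec l) {j i : Fin k} (hij : i ≠ j) (h : SA → Bool)
    (A : Tab l k SA) (F : SB → Vec l) (r : SA × Bool → ZMod 2) (c a' : Vec l) :
    (𝔼 y : Cube k SA SB → ZMod 2,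
      if InZoom σ (toMat (Function.update A j (blk π w F r)) +
          vecMulVec (σ.P *ᵥ a') (xeff π j y)) then
        ind Tk (skey U v w j i h A F c (σ.P *ᵥ a') y)
          ((toMat (Function.update A j (blk π w F r)) +
            vecMulVec (σ.P *ᵥ a') (xeff π j y)) *ᵥ G + shc c (σ.P *ᵥ a') y) -
        ind Tk (skey U v w j i h A F c (σ.P *ᵥ a') y)
          ((toMat (Function.update A j (blk π w F r)) +
            vecMulVec (σ.P *ᵥ a') (xeff π j y)) *ᵥ G + σ.P *ᵥ a' + shc c (σ.P *ᵥ a') y)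
      else 0) ≤ τ + (if Noisy R σ i h then 1 else 0) +
        if sig R σ i = sig R σ j → Win Tk R τ σ π U v w j i h A F c (σ.P *ᵥ a') then 1 else 0 := by
  set M := toMat (Function.update A j (blk π w F r)) with hM
  set w' := σ.P *ᵥ a' with hw'
  have n1 : (0 : ℝ) ≤ if Noisy R σ i h then 1 else 0 := by split_ifs <;> norm_num
  have n2 : (0 : ℝ) ≤ if sig R σ i = sig R σ j → Win Tk R τ σ π U v w j i h A F c w' then 1
      else 0 := by split_ifs <;> norm_num
  have h1 : ∀ y : Cube k SA SB → ZMod 2,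
      ind Tk (skey U v w j i h A F c w' y) ((M + vecMulVec w' (xeff π j y)) *ᵥ G + shc c w' y) -
        ind Tk (skey U v w j i h A F c w' y)
          ((M + vecMulVec w' (xeff π j y)) *ᵥ G + w' + shc c w' y) =
      Ft Tk U v w j i h A F c w' (M *ᵥ G + c) y * chi (alph π j G) y := by
    intro y
    rw [Ft, chi, alph_dot, ← ind_sign, add_mulVec, vecMulVec_mulVec_smul, shc, add_smul]
    congr 2 <;> abel
  simp only [h1]
  by_cases hw : w' = 0
  · have : ∀ y, Ft Tk U v w j i h A F c w' (M *ᵥ G + c) y = 0 := fun y => by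
      rw [Ft, hw, add_zero, sub_self]
    simp only [this, zero_mul, ite_self, Fintype.expect_const]
    linarith
  by_cases h2 : ∃ g ∈ fam σ, τ < |hat (Ft Tk U v w j i h A F c w' (M *ᵥ G + c)) (alph π j g)|
  · obtain ⟨g, hg, h3⟩ := h2
    have h4 : (1 : ℝ) ≤ (if Noisy R σ i h then 1 else 0) +
        if sig R σ i = sig R σ j → Win Tk R τ σ π U v w j i h A F c w' then 1 else 0 := by
      by_cases h5 : Noisy R σ i h
      · rw [if_pos h5]; linarith
      · have h7 : sig R σ i = sig R σ j → Win Tk R τ σ π U v w j i h A F c w' :=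
          fun h6 => decode_lists hij h0 hg h3 h5 h6
        rw [if_neg h5, if_pos h7, zero_add]
    refine le_trans (expect_le univ_nonempty fun y _ => ?_) (show (1 : ℝ) ≤ _ by linarith)
    split_ifs
    · refine (le_abs_self _).trans ?_
      rw [abs_mul, abs_chi, mul_one]
      exact abs_Ft_le _ _ _ _ _ _ _ _ _ _ _ _ _
    · exact zero_le_one
  · push Not at h2
    have h3 := zoom_row σ.T M σ.P σ.Q a' hw (xeff π j)
      (fun y => Ft Tk U v w j i h A F c w' (M *ᵥ G + c) y * chi (alph π j G) y) h0 fun z hz => by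
        refine le_trans (le_of_eq ?_) (h2 (G + z) (mem_image.2 ⟨(G, z),
          mem_product.2 ⟨hG, mem_filter.2 ⟨mem_univ _, hz⟩⟩, rfl⟩))
        congr 1
        refine expect_congr rfl fun y _ => ?_
        rw [mul_assoc, chi, chi, chi, ← sg_add, alph_dot, alph_dot, add_dotProduct]
        congr 2
        ring
    refine le_trans ?_ (show τ ≤ _ by linarith)
    refine le_trans (le_of_eq ?_) ((le_abs_self _).trans h3)
    exact expect_congr rfl fun y _ => if_congr Iff.rfl rfl rfl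

/-- The block has few companions. -/
def Small (R L : ℕ) (σ : St (Fin l) (Pt k SA)) (j : Fin k) : Prop :=
  L * (atom R σ j).card < (Zs σ.P (ofMat σ.T)).card

theorem expect_subset_le {ι : Type*} {s t : Finset ι} (hst : s ⊆ t) (hs : s.Nonempty) {L : ℕ}
    (hL : t.card ≤ L * s.card) {f : ι → ℝ} (hf : ∀ i, 0 ≤ f i) :
    𝔼 i ∈ s, f i ≤ L * 𝔼 i ∈ t, f i := by
  have h1 : (0 : ℝ) < s.card := Nat.cast_pos.2 (card_pos.2 hs)
  have h2 : (0 : ℝ) < t.card := Nat.cast_pos.2 (card_pos.2 (hs.mono hst))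
  have h3 : (t.card : ℝ) ≤ L * s.card := by exact_mod_cast hL
  have h4 : ∑ i ∈ s, f i ≤ ∑ i ∈ t, f i := sum_le_sum_of_subset_of_nonneg hst fun i _ _ => hf i
  have h5 : 0 ≤ ∑ i ∈ t, f i := sum_nonneg fun i _ => hf i
  rw [expect_eq_sum_div_card, expect_eq_sum_div_card, ← mul_div_assoc, div_le_div_iff₀ h1 h2]
  calc (∑ i ∈ s, f i) * t.card ≤ (∑ i ∈ t, f i) * (L * s.card) := by gcongr
    _ = _ := by ring

theorem Wt_shift (Tk : Key l k SA SB → Finset (Vec l)) (R : ℕ) (σ : St (Fin l) (Pt k SA))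
    (w : Vec l) (U : Fin k → ℕ) (j : Fin k) (v : ℕ) (A : Tab l k SA) (F : SB → Vec l)
    (φ w' : Vec l) (y : Cube k SA SB → ZMod 2) (a : SA × Bool → Vec l) :
    Wt Tk R σ w U j v (Function.update (shA A w' y) j a) (shF F w' y) φ =
      𝔼 i ∈ Iset R σ j, 𝔼 h : SA → Bool, 𝔼 c : Vec l,
        ind Tk (skey U v w j i h A F c w' y) (φ + shc c w' y) := by
  refine expect_congr rfl fun i _ => expect_congr rfl fun h _ => ?_
  rw [← expect_add_right _ (y (Sum.inr ()) • w')]
  refine expect_congr rfl fun c _ => ?_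
  have := rkey_update U v w j i h (shA A w' y) (shF F w' y) (shc c w' y) (U j) a
  rw [Function.update_eq_self] at this
  rw [skey, ← this]
  rfl

theorem block_bound (Tk : Key l k SA SB → Finset (Vec l)) (R L : ℕ) {τ : ℝ} (h0 : 0 ≤ τ)
    (σ : St (Fin l) (Pt k SA)) {G : Pt k SA → ZMod 2} (hG : G ∈ σ.Gs) (π : SA → SB)
    (U : Fin k → ℕ) (v : ℕ) (w : Vec l) {j : Fin k} (hj : j ∈ Zs σ.P (ofMat σ.T))
    (A : Tab l k SA) (F : SB → Vec l) (r : SA × Bool → ZMod 2) (a' : Vec l)
    (B : (Cube k SA SB → ZMod 2) → Tab l k SA)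
    (hB : ∀ y, B y = Function.update (shA A (σ.P *ᵥ a') y) j (blk π w (shF F (σ.P *ᵥ a') y) r)) :
    (𝔼 y : Cube k SA SB → ZMod 2, if InZoom σ (toMat (B y)) then
        Wt Tk R σ w U j v (B y) (shF F (σ.P *ᵥ a') y) (toMat (B y) *ᵥ G) -
        Wt Tk R σ w U j v (B y) (shF F (σ.P *ᵥ a') y) (toMat (B y) *ᵥ G + σ.P *ᵥ a') else 0) ≤
      τ + (fam σ).card * (1 / 2) ^ R + (if Small R L σ j then 1 else 0) +
        L * 𝔼 i ∈ Zs σ.P (ofMat σ.T), 𝔼 h : SA → Bool, 𝔼 c : Vec l,
          if Win Tk R τ σ π U v w j i h A F c (σ.P *ᵥ a') then 1 else 0 := by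
  have n0 : ∀ p : Prop, (0 : ℝ) ≤ if p then 1 else 0 := fun p => by split_ifs <;> norm_num
  have n2 : ∀ i, (0 : ℝ) ≤ 𝔼 h : SA → Bool, 𝔼 c : Vec l,
      if Win Tk R τ σ π U v w j i h A F c (σ.P *ᵥ a') then 1 else 0 := fun i =>
    expect_nonneg fun _ _ => expect_nonneg fun _ _ => n0 _
  have h1 : ∀ y, (if InZoom σ (toMat (B y)) then
        Wt Tk R σ w U j v (B y) (shF F (σ.P *ᵥ a') y) (toMat (B y) *ᵥ G) -
        Wt Tk R σ w U j v (B y) (shF F (σ.P *ᵥ a') y) (toMat (B y) *ᵥ G + σ.P *ᵥ a') else 0) =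
      𝔼 i ∈ Iset R σ j, 𝔼 h : SA → Bool, 𝔼 c : Vec l,
        if InZoom σ (toMat (B y)) then
          ind Tk (skey U v w j i h A F c (σ.P *ᵥ a') y)
            (toMat (B y) *ᵥ G + shc c (σ.P *ᵥ a') y) -
          ind Tk (skey U v w j i h A F c (σ.P *ᵥ a') y)
            (toMat (B y) *ᵥ G + σ.P *ᵥ a' + shc c (σ.P *ᵥ a') y) else 0 := by
    intro y
    split_ifs
    · simp only [expect_sub_distrib]
      rw [← Wt_shift, ← Wt_shift, ← hB]
    · simp
  simp only [h1]
  rw [expect_comm]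
  have h2 : ∀ i ∈ Iset R σ j, (𝔼 y : Cube k SA SB → ZMod 2, 𝔼 h : SA → Bool, 𝔼 c : Vec l,
        if InZoom σ (toMat (B y)) then
          ind Tk (skey U v w j i h A F c (σ.P *ᵥ a') y)
            (toMat (B y) *ᵥ G + shc c (σ.P *ᵥ a') y) -
          ind Tk (skey U v w j i h A F c (σ.P *ᵥ a') y)
            (toMat (B y) *ᵥ G + σ.P *ᵥ a' + shc c (σ.P *ᵥ a') y) else 0) ≤
      τ + (fam σ).card * (1 / 2) ^ R + 𝔼 h : SA → Bool, 𝔼 c : Vec l,
        if sig R σ i = sig R σ j → Win Tk R τ σ π U v w j i h A F c (σ.P *ᵥ a') then 1 else 0 := by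
    intro i hi
    rw [expect_comm]
    refine le_trans (expect_le_expect fun h _ => ?_) (show 𝔼 h : SA → Bool,
      (τ + (if Noisy R σ i h then 1 else 0) + 𝔼 c : Vec l,
        if sig R σ i = sig R σ j → Win Tk R τ σ π U v w j i h A F c (σ.P *ᵥ a') then 1 else 0) ≤ _
        from ?_)
    · rw [expect_comm]
      refine le_trans (expect_le_expect fun c _ => ?_) (le_of_eq (show 𝔼 c : Vec l,
        (τ + (if Noisy R σ i h then 1 else 0) +
          if sig R σ i = sig R σ j → Win Tk R τ σ π U v w j i h A F c (σ.P *ᵥ a') then 1 else 0) = _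
          from ?_))
      · simp only [hB, toMat_shift]
        exact local_bound Tk R h0 σ hG π U v w (ne_of_mem_Iset hi) h A F r c a'
      · rw [expect_add_distrib, Fintype.expect_const]
    · rw [expect_add_distrib, expect_add_distrib, Fintype.expect_const]
      have := prob_noisy R σ i
      linarith
  by_cases hs : Small R L σ j
  · refine expect_le_of_nonneg (by have := expect_nonneg fun i (_ : i ∈ Zs σ.P (ofMat σ.T)) => n2 i
                                   positivity) fun i hi => (h2 i hi).trans ?_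
    rw [if_pos hs]
    have h3 : (𝔼 h : SA → Bool, 𝔼 c : Vec l,
        if sig R σ i = sig R σ j → Win Tk R τ σ π U v w j i h A F c (σ.P *ᵥ a') then (1 : ℝ)
          else 0) ≤ 1 :=
      expect_le univ_nonempty fun _ _ => expect_le univ_nonempty fun _ _ => by
        split_ifs <;> norm_num
    have h4 := mul_nonneg (Nat.cast_nonneg (α := ℝ) L)
      (expect_nonneg fun i (_ : i ∈ Zs σ.P (ofMat σ.T)) => n2 i)
    linarith
  · rw [if_neg hs, add_zero]
    have h3 : (Zs σ.P (ofMat σ.T)).card ≤ L * (atom R σ j).card := not_lt.1 hs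
    have h4 : (atom R σ j).Nonempty := by
      rw [← card_pos]
      have := card_pos.2 ⟨j, hj⟩
      rcases Nat.eq_zero_or_pos (atom R σ j).card with h5 | h5
      · rw [h5] at h3; omega
      · exact h5
    have h5 : Iset R σ j = atom R σ j := if_pos h4
    refine (expect_le_expect h2).trans ?_
    rw [h5, expect_add_distrib, expect_const h4]
    refine add_le_add le_rfl (le_trans (le_of_eq ?_)
      (expect_subset_le (filter_subset _ _) h4 h3 n2))
    refine expect_congr rfl fun i hi => expect_congr rfl fun h _ => expect_congr rfl fun c _ => ?_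
    exact if_congr ⟨fun h6 => h6 (mem_filter.1 hi).2.2, fun h6 _ => h6⟩ rfl rfl

theorem card_small (R : ℕ) {L : ℕ} (hL : 0 < L) (σ : St (Fin l) (Pt k SA)) :
    (((Zs σ.P (ofMat σ.T)).filter (Small R L σ)).card : ℝ) ≤
      2 ^ (fam σ).card * ((Zs σ.P (ofMat σ.T)).card / L + 1) := by
  have h1 := card_le_mul_card_image_of_maps_to (f := sig R σ)
    (s := (Zs σ.P (ofMat σ.T)).filter (Small R L σ)) (t := (fam σ).powerset)
    (fun j _ => mem_powerset.2 (filter_subset _ _)) ((Zs σ.P (ofMat σ.T)).card / L + 1)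
    fun s _ => by
      rcases (((Zs σ.P (ofMat σ.T)).filter (Small R L σ)).filter
        fun j => sig R σ j = s).eq_empty_or_nonempty with h | ⟨j, hj⟩
      · rw [h]; simp
      · obtain ⟨h2, h3⟩ := mem_filter.1 hj
        have h4 : L * (atom R σ j).card < _ := (mem_filter.1 h2).2
        have h5 : (atom R σ j).card ≤ (Zs σ.P (ofMat σ.T)).card / L :=
          (Nat.le_div_iff_mul_le hL).2 (by rw [mul_comm]; exact h4.le)
        refine (card_le_card (t := insert j (atom R σ j)) fun i hi => ?_).trans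
          ((card_insert_le _ _).trans (by omega))
        obtain ⟨h6, h7⟩ := mem_filter.1 hi
        by_cases h8 : i = j
        · exact mem_insert.2 (Or.inl h8)
        · exact mem_insert_of_mem (mem_filter.2 ⟨(mem_filter.1 h6).1, h8, h7.trans h3.symm⟩)
  rw [card_powerset] at h1
  have h2 : (((Zs σ.P (ofMat σ.T)).card / L : ℕ) : ℝ) ≤ (Zs σ.P (ofMat σ.T)).card / L :=
    Nat.cast_div_le
  calc (((Zs σ.P (ofMat σ.T)).filter (Small R L σ)).card : ℝ)
      ≤ (((Zs σ.P (ofMat σ.T)).card / L + 1) * 2 ^ (fam σ).card : ℕ) := by exact_mod_cast h1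
    _ ≤ _ := by
        push_cast
        rw [mul_comm]
        gcongr

end Vale.Agent.P342
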