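import Vale.Agent.P342.Sound4

/-!
Soundness, part five: the advantage of a functional over its translate is small.
-/

set_option linter.unusedSectionVars false

namespace Vale.Agent.P342

open Finset Matrix Vale.Agent.Lib.PCP Vale.Agent.Lib.PCP.Bilin
open scoped BigOperators Classical

variable {l k : ℕ} {SA SB E : Type} [Fintype SA] [DecidableEq SA] [Nonempty SA] [Fintype SB]
  [DecidableEq SB] [Nonempty SB] [Fintype E] [DecidableEq E] [Nonempty E]

theorem inIm_zero (P : Matrix (Fin l) (Fin l) (ZMod 2)) : InIm P 0 := ⟨0, mulVec_zero _⟩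

theorem inIm_add {P : Matrix (Fin l) (Fin l) (ZMod 2)} {u v : Vec l} (hu : InIm P u)
    (hv : InIm P v) : InIm P (u + v) := by
  obtain ⟨a, rfl⟩ := hu
  obtain ⟨b, rfl⟩ := hv
  exact ⟨a + b, mulVec_add _ _ _⟩

theorem inIm_add_self (P : Matrix (Fin l) (Fin l) (ZMod 2)) (u : Vec l) : InIm P (u + u) := by
  rw [f2_vec_add_self]; exact inIm_zero P

/-- The tables agree modulo the image of `P`. -/
def EqMod (P : Matrix (Fin l) (Fin l) (ZMod 2)) (A A' : Tab l k SA) : Prop :=
  ∀ b q, InIm P (A b q + A' b q)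

theorem Zs_congr {P : Matrix (Fin l) (Fin l) (ZMod 2)} {A A' : Tab l k SA} (h : EqMod P A A') :
    Zs P A = Zs P A' := by
  refine filter_congr fun b _ => forall_congr' fun q => ⟨fun h1 => ?_, fun h1 => ?_⟩
  · have := inIm_add h1 (h b q)
    rwa [← add_assoc, f2_vec_add_self, zero_add] at this
  · have := inIm_add (h b q) h1
    rwa [vec_add_add] at this

/-- A choice of states which depends only on the table modulo the image of `P`. -/
structure Sel (P : Matrix (Fin l) (Fin l) (ZMod 2)) (t ρ : ℕ)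
    (good : (Fin k → ℕ) → Tab l k SA → Prop)
    (st : (Fin k → ℕ) → Tab l k SA → St (Fin l) (Pt k SA))
    (fn : (Fin k → ℕ) → Tab l k SA → Pt k SA → ZMod 2) : Prop where
  inv : ∀ U A A', EqMod P A A' → (good U A ↔ good U A') ∧ st U A = st U A' ∧ fn U A = fn U A'
  spec : ∀ U A, good U A → (st U A).P = P ∧ EqMod P A (ofMat (st U A).T) ∧
    (fam (st U A)).card ≤ t * 2 ^ ρ ∧ fn U A ∈ (st U A).Gs

variable {P : Matrix (Fin l) (Fin l) (ZMod 2)} {t ρ : ℕ} {good : (Fin k → ℕ) → Tab l k SA → Prop}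
  {st : (Fin k → ℕ) → Tab l k SA → St (Fin l) (Pt k SA)}
  {fn : (Fin k → ℕ) → Tab l k SA → Pt k SA → ZMod 2}

theorem Sel.Zs_eq (H : Sel P t ρ good st fn) {U : Fin k → ℕ} {A : Tab l k SA} (h : good U A) :
    Zs (st U A).P (ofMat (st U A).T) = Zs P A := by
  rw [(H.spec U A h).1, ← Zs_congr (H.spec U A h).2.1]

theorem prob_small (hk : 0 < k) (H : Sel P t ρ good st fn) (R : ℕ) {L : ℕ} (hL : 0 < L)
    (U : Fin k → ℕ) :
    (𝔼 j, 𝔼 A : Tab l k SA, if good U (Function.update A j 0) ∧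
      Small R L (st U (Function.update A j 0)) j then (1 : ℝ) else 0) ≤
      2 ^ (t * 2 ^ ρ) * (1 / L + nB l SA / k) := by
  haveI : Nonempty (Fin k) := ⟨⟨0, hk⟩⟩
  have hk' : (0 : ℝ) < k := Nat.cast_pos.2 hk
  have hL' : (0 : ℝ) < L := Nat.cast_pos.2 hL
  set ζ : ℝ := 𝔼 a : SA × Bool → Vec l, if ZeroAdv P a then 1 else 0 with hζ
  have h1 : 1 ≤ nB l SA * ζ := by
    rw [hζ, nB, Fintype.card_mul_expect]
    refine le_trans ?_ (single_le_sum (f := fun a : SA × Bool → Vec l =>
      if ZeroAdv P a then (1 : ℝ) else 0) (fun _ _ => by split_ifs <;> norm_num) (mem_univ 0))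
    rw [if_pos (show ZeroAdv P (0 : SA × Bool → Vec l) from fun _ => inIm_zero P)]
  have hζ0 : 0 < ζ := by
    by_contra h
    have := mul_nonpos_of_nonneg_of_nonpos (nB_pos (l := l) (SA := SA)).le (not_lt.1 h)
    linarith
  have h2 : ∀ j, ζ * (𝔼 A : Tab l k SA, if good U (Function.update A j 0) ∧
      Small R L (st U (Function.update A j 0)) j then (1 : ℝ) else 0) =
      𝔼 A : Tab l k SA, if ZeroAdv P (A j) ∧ good U A ∧ Small R L (st U A) j then 1 else 0 := by
    intro j
    rw [← P325.expect_update (fun A : Tab l k SA =>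
      if ZeroAdv P (A j) ∧ good U A ∧ Small R L (st U A) j then (1 : ℝ) else 0) j, mul_expect]
    refine expect_congr rfl fun A _ => ?_
    rw [hζ, expect_mul]
    refine expect_congr rfl fun a _ => ?_
    simp only [Function.update_self]
    by_cases ha : ZeroAdv P a
    · have h3 := H.inv U (Function.update A j 0) (Function.update A j a) fun b q => by
        by_cases hb : b = j
        · subst hb; simpa using ha q
        · simpa [hb] using inIm_add_self P (A b q)
      rw [if_pos ha, one_mul, h3.2.1]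
      exact if_congr (by rw [h3.1]; simp [ha]) rfl rfl
    · simp [ha]
  have h3 : ∀ A : Tab l k SA,
      (𝔼 j, if ZeroAdv P (A j) ∧ good U A ∧ Small R L (st U A) j then (1 : ℝ) else 0) ≤
      2 ^ (t * 2 ^ ρ) * ((𝔼 j, if ZeroAdv P (A j) then (1 : ℝ) else 0) * (1 / L) + 1 / k) := by
    intro A
    by_cases hg : good U A
    · have h4 := card_small R hL (st U A)
      rw [H.Zs_eq hg] at h4
      have h5 : (2 : ℝ) ^ (fam (st U A)).card ≤ 2 ^ (t * 2 ^ ρ) :=
        pow_le_pow_right₀ one_le_two (H.spec U A hg).2.2.1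
      rw [Fintype.expect_eq_sum_div_card, Fintype.expect_eq_sum_div_card, sum_boole, sum_boole,
        Fintype.card_fin]
      have h6 : (univ.filter fun j => ZeroAdv P (A j) ∧ good U A ∧ Small R L (st U A) j) =
          (Zs P A).filter (Small R L (st U A)) := by
        ext j; simp [Zs, hg]
      rw [h6, div_le_iff₀ hk']
      refine h4.trans (le_trans (mul_le_mul_of_nonneg_right h5 (by positivity)) (le_of_eq ?_))
      rw [Zs]
      field_simp
    · simp only [hg, false_and, and_false, if_false, Fintype.expect_const]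
      have : (0 : ℝ) ≤ 𝔼 j, if ZeroAdv P (A j) then (1 : ℝ) else 0 :=
        expect_nonneg fun _ _ => by split_ifs <;> norm_num
      positivity
  have h4 : 𝔼 A : Tab l k SA, (𝔼 j, if ZeroAdv P (A j) then (1 : ℝ) else 0) = ζ := by
    rw [expect_comm]
    simp only [P325.expect_coord (fun a => if ZeroAdv P a then (1 : ℝ) else 0),
      Fintype.expect_const]
    rfl
  refine le_of_mul_le_mul_left ?_ hζ0
  rw [mul_expect]
  simp only [h2]
  rw [expect_comm]
  refine (expect_le_expect fun A _ => h3 A).trans ?_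
  rw [← mul_expect, expect_add_distrib, ← expect_mul, h4, Fintype.expect_const, mul_left_comm]
  refine mul_le_mul_of_nonneg_left ?_ (by positivity)
  rw [mul_add]
  refine add_le_add le_rfl ?_
  rw [← mul_div_assoc, mul_comm ζ]
  exact div_le_div_of_nonneg_right h1 hk'.le

theorem expect_shift (Φ : Tab l k SA → (SB → Vec l) → ℝ) (w' a' : Vec l) :
    𝔼 F : SB → Vec l, 𝔼 A : Tab l k SA, Φ A F =
      𝔼 F : SB → Vec l, 𝔼 A : Tab l k SA, 𝔼 y : Cube k SA SB → ZMod 2,
        Φ (shA A w' y) (shF F a' y) := by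
  have h1 : ∀ F : SB → Vec l, 𝔼 A : Tab l k SA, 𝔼 y : Cube k SA SB → ZMod 2,
      Φ (shA A w' y) (shF F a' y) = 𝔼 y : Cube k SA SB → ZMod 2, 𝔼 A : Tab l k SA,
        Φ A (shF F a' y) := by
    intro F
    rw [expect_comm]
    exact expect_congr rfl fun y _ => Fintype.expect_equiv
      (Equiv.addRight fun b q => y (Sum.inl (Sum.inl (b, q))) • w') _ _ fun _ => rfl
  simp only [h1]
  rw [expect_comm (s := univ) (t := (univ : Finset (Cube k SA SB → ZMod 2))),
    ← Fintype.expect_const (ι := Cube k SA SB → ZMod 2) (𝔼 F : SB → Vec l, 𝔼 A, Φ A F)]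
  exact expect_congr rfl fun y _ => (Fintype.expect_equiv
    (Equiv.addRight fun s => y (Sum.inl (Sum.inr s)) • a') _ _ fun _ => rfl).symm

/-- The advantage of the functional over its translate. -/
noncomputable def Dif (ed : E → PEdge ℕ ℕ SA SB) (Tk : Key l k SA SB → Finset (Vec l)) (R : ℕ)
    (P : Matrix (Fin l) (Fin l) (ZMod 2)) (good : (Fin k → ℕ) → Tab l k SA → Prop)
    (st : (Fin k → ℕ) → Tab l k SA → St (Fin l) (Pt k SA))
    (fn : (Fin k → ℕ) → Tab l k SA → Pt k SA → ZMod 2) (w w' : Vec l) (U : Fin k → ℕ)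
    (A : Tab l k SA) (j : Fin k) (x : E) (F : SB → Vec l) : ℝ :=
  if good U A ∧ InZoom (st U A) (toMat A) then
    Wt Tk R (st U A) w U j (ed x).1 A (fun s => P *ᵥ F s) (toMat A *ᵥ fn U A) -
      Wt Tk R (st U A) w U j (ed x).1 A (fun s => P *ᵥ F s) (toMat A *ᵥ fn U A + w') else 0

theorem Dif_shift (H : Sel P t ρ good st fn) (ed : E → PEdge ℕ ℕ SA SB)
    (Tk : Key l k SA SB → Finset (Vec l)) (R L : ℕ) {τ : ℝ} (h0 : 0 ≤ τ) (a a' : Vec l)
    (U : Fin k → ℕ) (A : Tab l k SA) (j : Fin k) (x : E) (F : SB → Vec l)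
    (r : SA × Bool → ZMod 2) :
    𝔼 y : Cube k SA SB → ZMod 2, Dif ed Tk R P good st fn (P *ᵥ a) (P *ᵥ a') U
      (Function.update (shA A (P *ᵥ a') y) j
        (blk (ed x).2.2 (P *ᵥ a) (fun s => P *ᵥ shF F a' y s) r)) j x (shF F a' y) ≤
      τ + (t * 2 ^ ρ) * (1 / 2) ^ R + (if good U (Function.update A j 0) ∧
        Small R L (st U (Function.update A j 0)) j then 1 else 0) +
        L * 𝔼 i ∈ Zs P (Function.update A j 0), 𝔼 h : SA → Bool, 𝔼 c : Vec l,
          if good U (Function.update A j 0) ∧ Win Tk R τ (st U (Function.update A j 0))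
            (ed x).2.2 U (ed x).1 (P *ᵥ a) j i h A (fun s => P *ᵥ F s) c (P *ᵥ a') then 1
          else 0 := by
  have h1 : ∀ y : Cube k SA SB → ZMod 2,
      (fun s => P *ᵥ shF F a' y s) = shF (fun s => P *ᵥ F s) (P *ᵥ a') y := fun y => by
    funext s
    rw [shF, shF, mulVec_add, mulVec_smul]
  have h2 : ∀ y : Cube k SA SB → ZMod 2, EqMod P (Function.update (shA A (P *ᵥ a') y) j
      (blk (ed x).2.2 (P *ᵥ a) (shF (fun s => P *ᵥ F s) (P *ᵥ a') y) r))
      (Function.update A j 0) := fun y b q => by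
    by_cases hb : b = j
    · subst hb
      refine ⟨F ((ed x).2.2 q.1) + y (Sum.inl (Sum.inr ((ed x).2.2 q.1))) • a' + r q • a, ?_⟩
      simp [blk, shF, mulVec_add, mulVec_smul]
    · refine ⟨y (Sum.inl (Sum.inl (b, q))) • a', ?_⟩
      simp only [Function.update_of_ne hb, shA, mulVec_smul]
      rw [add_right_comm, f2_vec_add_self, zero_add]
  simp only [Dif, h1, (H.inv U _ _ (h2 _)).1, (H.inv U _ _ (h2 _)).2.1, (H.inv U _ _ (h2 _)).2.2]
  by_cases hg : good U (Function.update A j 0)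
  · obtain ⟨h3, -, h4, h5⟩ := H.spec U _ hg
    have h6 := block_bound Tk R L h0 _ h5 (ed x).2.2 U (ed x).1 (P *ᵥ a) (j := j) (by
      rw [H.Zs_eq hg]
      exact mem_filter.2 ⟨mem_univ _, fun q => by simpa using inIm_zero P⟩) A
      (fun s => P *ᵥ F s) r a' _ fun _ => rfl
    rw [H.Zs_eq hg, h3] at h6
    simp only [hg, true_and]
    refine h6.trans ?_
    have h7 : ((fam (st U (Function.update A j 0))).card : ℝ) ≤ t * 2 ^ ρ := by exact_mod_cast h4
    gcongr
  · simp only [hg, false_and, if_false, Fintype.expect_const, expect_const_zero, mul_zero,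
      add_zero]
    positivity

theorem prob_win (H : Sel P t ρ good st fn) {ed : E → PEdge ℕ ℕ SA SB} {δ : ℝ} (hv : ValLE ed δ)
    (Tk : Key l k SA SB → Finset (Vec l)) (R : ℕ) {τ : ℝ} (h0 : 0 < τ) {N : ℕ}
    (hN : 1 ≤ N * τ ^ 2) (w w' : Vec l) (A A₀ : Tab l k SA) (j i : Fin k) (h : SA → Bool)
    (F : SB → Vec l) (c : Vec l) :
    (𝔼 e : Fin k → E, if good (bigs ed e) A₀ ∧ Win Tk R τ (st (bigs ed e) A₀) (ed (e j)).2.2
      (bigs ed e) (ed (e j)).1 w j i h A F c w' then (1 : ℝ) else 0) ≤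
      (t * 2 ^ ρ * R : ℕ) * (2 ^ l * N : ℕ) * δ := by
  rw [← P325.expect_update _ j]
  refine expect_le univ_nonempty fun e _ => ?_
  refine le_trans (le_of_eq ?_) (hv.lists
    (fun u => if good (Function.update (bigs ed e) j u) A₀ then
      SUl R (st (Function.update (bigs ed e) j u) A₀) j else ∅)
    (fun v => SVl Tk τ (bigs ed e) v w j i h A F c w') (fun u => ?_)
    fun v => card_SVl Tk h0 hN _ _ _ _ _ _ _ _ _ _)
  · refine expect_congr rfl fun x _ => if_congr ?_ rfl rfl
    simp only [bigs_update, Function.update_self, Win, SVl_update]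
    by_cases hg : good (Function.update (bigs ed e) j (ed x).2.1) A₀
    · simp [hg]
    · simp [hg]
  · split_ifs with hg
    · exact (card_SUl _ _ _).trans (Nat.mul_le_mul_right _ (H.spec _ _ hg).2.2.1)
    · simp

theorem advantage_le (hk : 0 < k) (H : Sel P t ρ good st fn) {ed : E → PEdge ℕ ℕ SA SB} {δ : ℝ}
    (hδ : 0 ≤ δ) (hv : ValLE ed δ) (Tk : Key l k SA SB → Finset (Vec l)) (R : ℕ) {L : ℕ}
    (hL : 0 < L) {τ : ℝ} (h0 : 0 < τ) {N : ℕ} (hN : 1 ≤ N * τ ^ 2) (a a' : Vec l) :
    𝔼 e : Fin k → E, 𝔼 A : Tab l k SA, Av ed (bigs ed e) P (P *ᵥ a) A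
      (Dif ed Tk R P good st fn (P *ᵥ a) (P *ᵥ a') (bigs ed e) A) ≤
      τ + (t * 2 ^ ρ) * (1 / 2) ^ R + 2 ^ (t * 2 ^ ρ) * (1 / L + nB l SA / k) +
        L * ((t * 2 ^ ρ * R : ℕ) * (2 ^ l * N : ℕ) * δ) := by
  haveI : Nonempty (Fin k) := ⟨⟨0, hk⟩⟩
  rw [transfer]
  have h1 : ∀ (j : Fin k) (e : Fin k → E), 𝔼 F : SB → Vec l, 𝔼 r : SA × Bool → ZMod 2,
      𝔼 A : Tab l k SA, Dif ed Tk R P good st fn (P *ᵥ a) (P *ᵥ a') (bigs ed e)
        (Function.update A j (blk (ed (e j)).2.2 (P *ᵥ a) (fun s => P *ᵥ F s) r)) j (e j) F ≤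
      τ + (t * 2 ^ ρ) * (1 / 2) ^ R + (𝔼 A : Tab l k SA, if good (bigs ed e)
        (Function.update A j 0) ∧ Small R L (st (bigs ed e) (Function.update A j 0)) j then 1
          else 0) +
        L * 𝔼 F : SB → Vec l, 𝔼 A : Tab l k SA, 𝔼 i ∈ Zs P (Function.update A j 0),
          𝔼 h : SA → Bool, 𝔼 c : Vec l,
          if good (bigs ed e) (Function.update A j 0) ∧
            Win Tk R τ (st (bigs ed e) (Function.update A j 0)) (ed (e j)).2.2 (bigs ed e)
              (ed (e j)).1 (P *ᵥ a) j i h A (fun s => P *ᵥ F s) c (P *ᵥ a') then 1 else 0 := by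
    intro j e
    rw [expect_comm]
    refine expect_le univ_nonempty fun r _ => ?_
    rw [expect_shift (fun A F => Dif ed Tk R P good st fn (P *ᵥ a) (P *ᵥ a') (bigs ed e)
      (Function.update A j (blk (ed (e j)).2.2 (P *ᵥ a) (fun s => P *ᵥ F s) r)) j (e j) F)
      (P *ᵥ a') a']
    refine (expect_le_expect fun F _ => expect_le_expect fun A _ =>
      Dif_shift H ed Tk R L h0.le a a' (bigs ed e) A j (e j) F r).trans (le_of_eq ?_)
    simp only [expect_add_distrib, Fintype.expect_const, ← mul_expect]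
  refine (expect_le_expect fun j _ => expect_le_expect fun e _ => h1 j e).trans ?_
  simp only [expect_add_distrib, Fintype.expect_const, ← mul_expect]
  refine add_le_add (add_le_add le_rfl ?_) (mul_le_mul_of_nonneg_left ?_ (Nat.cast_nonneg _))
  · rw [expect_comm]
    exact expect_le univ_nonempty fun e _ => prob_small hk H R hL _
  · refine expect_le univ_nonempty fun j _ => ?_
    rw [expect_comm]
    refine expect_le univ_nonempty fun F _ => ?_
    rw [expect_comm]
    refine expect_le univ_nonempty fun A _ => ?_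
    rw [expect_comm]
    refine expect_le_of_nonneg (by positivity) fun i _ => ?_
    rw [expect_comm]
    refine expect_le univ_nonempty fun h _ => ?_
    rw [expect_comm]
    exact expect_le univ_nonempty fun c _ => prob_win H hv Tk R h0 hN _ _ _ _ _ _ _ _ _

end Vale.Agent.P342
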