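import Vale.Agent.P342.StructAux

/-!
The structure theorem: lists of labels which are consistent with the weights on a dense set come
from a linear functional on a zoom of bounded order.
-/

set_option linter.unusedSectionVars false

namespace Vale.Agent.P342

open Finset Matrix Vale.Agent.Lib.PCP Vale.Agent.Lib.PCP.Bilin
open scoped BigOperators

section

variable {m n : Type} [Fintype m] [Fintype n] [DecidableEq m] [DecidableEq n]

theorem St.Good.mono {t ρ ρ' : ℕ} {δ δ' : ℝ}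
    {ξ : St m n → (m → F) → Matrix m n F → (m → F) → ℝ} {σ : St m n} (h : σ.Good t ρ δ ξ)
    (hρ : ρ ≤ ρ') (hδ : δ' ≤ δ) : σ.Good t ρ' δ' ξ := by
  obtain ⟨h1, h2, h3, G, hG, h4⟩ := h
  exact ⟨by omega, by omega, h3, G, hG, hδ.trans h4⟩

open Classical in
theorem exists_pt {σ : St m n} {B : Matrix m n F → Prop} {ε : ℝ} (hε : 0 < ε)
    (h : ε ≤ 𝔼 C : Matrix m n F, if B (σ.pt C) then (1 : ℝ) else 0) : ∃ C, B (σ.pt C) := by
  by_contra hne
  push Not at hne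
  simp [hne] at h
  linarith

open Classical in
/-- Either an old functional has a large weight, or the best remaining label has. -/
theorem old_or_new {t s : ℕ} {ε : ℝ} (hε : 0 < ε)
    {ξ : St m n → (m → F) → Matrix m n F → (m → F) → ℝ} (hξ : Weights t ξ) (σ : St m n)
    (hP : 0 < σ.P.rank) (hG : σ.Gs.card ≤ t) (B : Matrix m n F → Prop)
    (hB : ε ≤ 𝔼 C : Matrix m n F, if B (σ.pt C) then (1 : ℝ) else 0)
    (L₀ L : Matrix m n F → Finset (m → F)) (hL : ∀ A, (L A).card ≤ s)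
    (h₀ : ∀ a A, σ.P *ᵥ a ≠ 0 → B A → 1 ≤ ∑ f ∈ L₀ A, ξ σ (σ.P *ᵥ a) A f)
    (hsub : ∀ A, B A → L₀ A ⊆ σ.Gs.image (A *ᵥ ·) ∪ L A) :
    (∃ G ∈ σ.Gs, ε / (4 * (t + 1)) ≤ 𝔼 C : Matrix m n F, 𝔼 a : m → F,
      if σ.P *ᵥ a = 0 then 0 else ξ σ (σ.P *ᵥ a) (σ.pt C) (σ.pt C *ᵥ G)) ∨
    ∃ Fn : Matrix m n F → m → F, (∀ A, (L A).Nonempty → Fn A ∈ L A) ∧
      ε / 4 ≤ s * 𝔼 C : Matrix m n F, 𝔼 a : m → F, if σ.P *ᵥ a = 0 then 0 else
        if B (σ.pt C) then ξ σ (σ.P *ᵥ a) (σ.pt C) (Fn (σ.pt C)) else 0 := by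
  set W : Matrix m n F → (m → F) → ℝ := fun A f =>
    𝔼 a : m → F, if σ.P *ᵥ a = 0 then 0 else ξ σ (σ.P *ᵥ a) A f with hW
  have hW0 : ∀ A f, 0 ≤ W A f := fun A f => expect_nonneg fun a _ => by
    split_ifs
    · exact le_rfl
    · exact hξ.nonneg _ _ _ _
  have hF : ∀ A, ∃ f : m → F, ((L A).Nonempty → f ∈ L A) ∧ ∀ g ∈ L A, W A g ≤ W A f := by
    intro A
    rcases (L A).eq_empty_or_nonempty with h | h
    · exact ⟨0, by simp [h], by simp [h]⟩
    · obtain ⟨f, hf, hf'⟩ := exists_max_image (L A) (W A) h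
      exact ⟨f, fun _ => hf, hf'⟩
  choose Fn hFn hmax using hF
  by_contra hne
  rw [not_or] at hne
  obtain ⟨hold, hnew⟩ := hne
  push Not at hold hnew
  have hnew' := hnew Fn hFn
  have h1 : ∀ A, B A → 1 / 2 ≤ ∑ G ∈ σ.Gs, W A (A *ᵥ G) + s * W A (Fn A) := by
    intro A hA
    have h2 : 1 / 2 ≤ ∑ f ∈ L₀ A, W A f := by
      refine (half_le_prob_ne σ.P hP).trans ?_
      simp only [hW]
      rw [← expect_sum_comm]
      refine expect_le_expect fun a _ => ?_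
      split_ifs with ha
      · simp
      · exact h₀ a A ha hA
    have h3 : ∑ f ∈ L₀ A, W A f ≤ ∑ f ∈ σ.Gs.image (A *ᵥ ·) ∪ L A, W A f :=
      sum_le_sum_of_subset_of_nonneg (hsub A hA) fun f _ _ => hW0 A f
    have h4 := sum_union_inter (s₁ := σ.Gs.image (A *ᵥ ·)) (s₂ := L A) (f := W A)
    have h5 : 0 ≤ ∑ f ∈ σ.Gs.image (A *ᵥ ·) ∩ L A, W A f := sum_nonneg fun f _ => hW0 A f
    have h6 : ∑ f ∈ σ.Gs.image (A *ᵥ ·), W A f ≤ ∑ G ∈ σ.Gs, W A (A *ᵥ G) :=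
      sum_image_le_of_nonneg fun f _ => hW0 A f
    have h7 : ∑ f ∈ L A, W A f ≤ s * W A (Fn A) := by
      refine (sum_le_card_nsmul _ _ _ (hmax A)).trans ?_
      rw [nsmul_eq_mul]
      exact mul_le_mul_of_nonneg_right (by exact_mod_cast hL A) (hW0 _ _)
    linarith
  have h2 : ε / 2 ≤ ∑ G ∈ σ.Gs, 𝔼 C : Matrix m n F, W (σ.pt C) (σ.pt C *ᵥ G) +
      s * 𝔼 C : Matrix m n F, 𝔼 a : m → F, if σ.P *ᵥ a = 0 then 0 else
        if B (σ.pt C) then ξ σ (σ.P *ᵥ a) (σ.pt C) (Fn (σ.pt C)) else 0 := by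
    rw [← expect_sum_comm, mul_expect, ← expect_add_distrib]
    refine le_trans (div_le_div_of_nonneg_right hB (by norm_num)) ?_
    rw [div_eq_mul_one_div, expect_mul]
    refine expect_le_expect fun C _ => ?_
    by_cases hC : B (σ.pt C)
    · simp only [hC, if_true, one_mul]
      exact h1 _ hC
    · simp only [hC, if_false, zero_mul, ite_self, Fintype.expect_const, mul_zero, add_zero]
      exact sum_nonneg fun G _ => hW0 _ _
  have h3 : ∑ G ∈ σ.Gs, 𝔼 C : Matrix m n F, W (σ.pt C) (σ.pt C *ᵥ G) ≤ ε / 4 := by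
    refine (sum_le_card_nsmul _ _ _ fun G hG => (hold G hG).le).trans ?_
    rw [nsmul_eq_mul, ← mul_div_assoc, div_le_div_iff₀ (by positivity) (by norm_num)]
    have : (σ.Gs.card : ℝ) ≤ t := by exact_mod_cast hG
    nlinarith
  linarith

end

open Classical in
theorem struct_aux (t s : ℕ) : ∀ (ρ₀ : ℕ) (ε : ℝ), 0 < ε → ∃ (ρ : ℕ) (δ : ℝ), ρ₀ ≤ ρ ∧ 0 < δ ∧
    ∀ (m n : Type) [Fintype m] [Fintype n] [DecidableEq m] [DecidableEq n]
      (B : Matrix m n F → Prop) (L₀ L : Matrix m n F → Finset (m → F))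
      (ξ : St m n → (m → F) → Matrix m n F → (m → F) → ℝ) (σ : St m n),
      ρ < Fintype.card m → (2 : ℝ) ^ (Fintype.card m + ρ) ≤ δ * 2 ^ Fintype.card n →
      Fintype.card m ≤ σ.P.rank + ρ₀ → Fintype.card n ≤ σ.Q.rank + ρ₀ → σ.Gs.card + s ≤ t →
      ε ≤ (𝔼 C : Matrix m n F, if B (σ.pt C) then (1 : ℝ) else 0) →
      (∀ A, B A → A.rank = Fintype.card m) → (∀ A, (L A).card ≤ s) → Weights t ξ →
      (∀ σ a A, σ.P *ᵥ a ≠ 0 → B A → 1 ≤ ∑ f ∈ L₀ A, ξ σ (σ.P *ᵥ a) A f) →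
      (∀ A, B A → L₀ A ⊆ σ.Gs.image (A *ᵥ ·) ∪ L A) →
      ∃ σ' : St m n, σ'.Good t ρ δ ξ ∧ ∃ C, B (σ'.pt C) := by
  induction s with
  | zero =>
    intro ρ₀ ε hε
    refine ⟨ρ₀, ε / (4 * (t + 1)), le_rfl, by positivity, ?_⟩
    intro m n _ _ _ _ B L₀ L ξ σ hρ _ hP hQ hG hB _ hL hξ h₀ hsub
    rcases old_or_new hε hξ σ (by omega) (by omega) B hB L₀ L hL (h₀ σ) hsub with h | ⟨Fn, -, h⟩
    · exact ⟨σ, ⟨hP, hQ, by omega, h⟩, exists_pt hε hB⟩
    · simp only [Nat.cast_zero, zero_mul] at h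
      linarith
  | succ s ih =>
    intro ρ₀ ε hε
    set γ : ℝ := ε / (4 * (s + 1)) with hγ
    have hγ0 : 0 < γ := by positivity
    set η : ℝ := γ ^ 2 / (8 * (t + 1)) with hη
    have hη0 : 0 < η := by positivity
    obtain ⟨r, ε', hε', hz⟩ := zoom_step hη0
    obtain ⟨ρ, δ, hρ, hδ, H⟩ := ih (ρ₀ + r) ε' hε'
    refine ⟨ρ, min δ (min η (ε / (4 * (t + 1)))), by omega, by positivity, ?_⟩
    intro m n _ _ _ _ B L₀ L ξ σ hm hn hP hQ hG hB hrk hL hξ h₀ hsub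
    rcases old_or_new hε hξ σ (by omega) (by omega) B hB L₀ L hL (h₀ σ) hsub with h | ⟨Fn, hFn, h⟩
    · refine ⟨σ, St.Good.mono ⟨hP, hQ, by omega, h⟩ (by omega) ?_, exists_pt hε hB⟩
      exact (min_le_right _ _).trans (min_le_right _ _)
    have h1 := collide σ B Fn (ξ σ) (hξ.nonneg σ) (hξ.le_one σ) (hξ.sum_le σ) (hξ.row σ)
    have h2 : γ ≤ 𝔼 C : Matrix m n F, 𝔼 a : m → F, if σ.P *ᵥ a = 0 then 0 else
        if B (σ.pt C) then ξ σ (σ.P *ᵥ a) (σ.pt C) (Fn (σ.pt C)) else 0 := by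
      rw [hγ, div_le_iff₀ (by positivity)]
      push_cast at h
      linarith
    have hc0 : 0 ≤ coll σ B Fn :=
      expect_nonneg fun _ _ => expect_nonneg fun _ _ => expect_nonneg fun _ _ => by positivity
    have h3 : 4 * η ≤ coll σ B Fn := by
      have h4 := (pow_le_pow_left₀ hγ0.le h2 2).trans h1
      rw [hη, ← mul_div_assoc, div_le_iff₀ (by positivity)]
      nlinarith
    have h4 : ((1 : ℝ) / 2) ^ σ.Q.rank ≤ η * (1 / 2) ^ Fintype.card m := by
      have h5 : (2 : ℝ) ^ (Fintype.card m + ρ) ≤ η * 2 ^ (σ.Q.rank + ρ) :=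
        hn.trans (mul_le_mul ((min_le_right _ _).trans (min_le_left _ _))
          (pow_le_pow_right₀ (by norm_num) (by omega)) (by positivity) hη0.le)
      rw [pow_add, pow_add, ← mul_assoc] at h5
      have h6 := le_of_mul_le_mul_right h5 (by positivity)
      rw [one_div, inv_pow, inv_pow, ← div_eq_mul_inv, ← one_div,
        div_le_div_iff₀ (by positivity) (by positivity), one_mul]
      exact h6
    obtain ⟨G, P, Q, T, hP', hQ', hd⟩ := hz m n σ B Fn hrk h3 h4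
    have hpt : ∀ C, St.pt ⟨σ.pt T, σ.P * P, Q * σ.Q, insert G σ.Gs⟩ C = σ.pt (T + P * C * Q) := by
      intro C
      simp only [St.pt, Matrix.mul_add, Matrix.add_mul, Matrix.mul_assoc, add_assoc]
    have h5 := rank_sylvester σ.P P
    have h6 := rank_sylvester Q σ.Q
    have h7 := card_insert_le G σ.Gs
    obtain ⟨σ', hσ', C, hC⟩ := H m n (fun A => B A ∧ A *ᵥ G = Fn A) L₀
      (fun A => (L A).erase (Fn A)) ξ ⟨σ.pt T, σ.P * P, Q * σ.Q, insert G σ.Gs⟩ hm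
      (hn.trans (mul_le_mul_of_nonneg_right (min_le_left _ _) (by positivity)))
      (by dsimp only; omega) (by dsimp only; omega) (by dsimp only; omega)
      (by simp only [hpt]; convert hd using 3; unfold agr; congr)
      (fun A hA => hrk A hA.1)
      (fun A => by
        rcases (L A).eq_empty_or_nonempty with h | h
        · simp [h]
        · rw [card_erase_of_mem (hFn A h)]
          have := hL A
          omega)
      hξ (fun σ a A ha hA => h₀ σ a A ha hA.1)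
      (fun A hA f hf => by
        have h8 := hsub A hA.1 hf
        simp only [mem_union, mem_image, mem_insert, mem_erase] at h8 ⊢
        by_cases h9 : f = Fn A
        · exact Or.inl ⟨G, Or.inl rfl, by rw [hA.2, h9]⟩
        · rcases h8 with ⟨G', hG', h8⟩ | h8
          · exact Or.inl ⟨G', Or.inr hG', h8⟩
          · exact Or.inr ⟨h9, h8⟩)
    exact ⟨σ', hσ'.mono le_rfl (min_le_left _ _), C, hC.1⟩

/-- The structure theorem. -/
theorem struct_thm : StructThm := by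
  intro t ε hε
  obtain ⟨ρ, δ, -, hδ, H⟩ := struct_aux t t 0 ε hε
  refine ⟨ρ, δ, hδ, fun m n _ _ _ _ B L ξ hm hn hB hrk hL hξ h₀ => ?_⟩
  refine H m n B L L ξ ⟨0, 1, 1, ∅⟩ hm hn (by simp) (by simp) (by simp) ?_ hrk hL hξ h₀
    fun A _ => by simp
  have h1 : ∀ C : Matrix m n F, St.pt ⟨0, 1, 1, ∅⟩ C = C := fun C => by simp [St.pt]
  refine hB.trans_eq (expect_congr rfl fun C _ => ?_)
  rw [h1]

end Vale.Agent.P342
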