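import Vale.Agent.P342.Core
import Vale.Agent.Lib.PCP.Bilin.Expansion

/-!
Lemmas for the structure theorem: ranks of products, collisions along rows, random linear hashing,
and the passage to a smaller zoom by the expansion theorem.
-/

set_option linter.unusedSectionVars false

namespace Vale.Agent.P342

open Finset Matrix Vale.Agent.Lib.PCP Vale.Agent.Lib.PCP.Bilin
open scoped BigOperators

variable {m n : Type} [Fintype m] [Fintype n] [DecidableEq m] [DecidableEq n]

theorem prob_eq_le (X : Matrix n m F) (v : n → F) :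
    𝔼 w : m → F, (if X *ᵥ w = v then (1 : ℝ) else 0) ≤ (1 / 2) ^ X.rank := by
  rw [prob_eq]
  split_ifs
  · exact le_rfl
  · positivity

/-- Sylvester's rank inequality. -/
theorem rank_sylvester (P P' : Matrix m m F) :
    P.rank + P'.rank ≤ (P * P').rank + Fintype.card m := by
  have h1 : ∀ w : m → F, (if (P * P') *ᵥ w = 0 then (1 : ℝ) else 0) =
      ∑ v ∈ univ.filter (fun v => P *ᵥ v = 0), if P' *ᵥ w = v then (1 : ℝ) else 0 := by
    intro w
    rw [sum_ite_eq, ← mulVec_mulVec]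
    simp
  have h2 : ((1 : ℝ) / 2) ^ (P * P').rank ≤
      (univ.filter (fun v => P *ᵥ v = 0)).card * (1 / 2) ^ P'.rank := by
    rw [← prob_ker]
    simp only [h1]
    rw [expect_sum_comm, ← nsmul_eq_mul, ← sum_const]
    exact sum_le_sum fun v _ => prob_eq_le P' v
  have h3 := congrArg (Nat.cast : ℕ → ℝ) (card_ker P)
  push_cast at h3
  have h4 : (2 : ℝ) ^ (P.rank + P'.rank) ≤ 2 ^ ((P * P').rank + Fintype.card m) := by
    have h5 := mul_le_mul_of_nonneg_right h2
      (by positivity : (0 : ℝ) ≤ 2 ^ (P * P').rank * 2 ^ P'.rank * 2 ^ P.rank)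
    have h6 := two_pow_mul_half_pow (P * P').rank
    have h7 := two_pow_mul_half_pow P'.rank
    rw [pow_add, pow_add, ← h3]
    calc (2 : ℝ) ^ P.rank * 2 ^ P'.rank
        = (1 / 2) ^ (P * P').rank * (2 ^ (P * P').rank * 2 ^ P'.rank * 2 ^ P.rank) := by
          linear_combination (-(2 : ℝ) ^ P.rank * 2 ^ P'.rank) * h6
      _ ≤ _ := h5
      _ = _ := by
          linear_combination ((univ.filter (fun v => P *ᵥ v = 0)).card * 2 ^ (P * P').rank *
            (2 : ℝ) ^ P.rank) * h7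
  exact (pow_le_pow_iff_right₀ (by norm_num)).1 h4

theorem half_le_prob_ne (P : Matrix m m F) (h : 0 < P.rank) :
    (1 : ℝ) / 2 ≤ 𝔼 a : m → F, if P *ᵥ a = 0 then (0 : ℝ) else 1 := by
  have h1 : ∀ a : m → F, (if P *ᵥ a = 0 then (0 : ℝ) else 1) =
      1 - if P *ᵥ a = 0 then (1 : ℝ) else 0 := by
    intro a; split_ifs <;> simp
  simp only [h1]
  rw [expect_sub_distrib, prob_ker, Fintype.expect_const]
  have := pow_le_pow_of_le_one (by norm_num : (0 : ℝ) ≤ 1 / 2) (by norm_num) h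
  linarith

theorem St.pt_add (σ : St m n) (C : Matrix m n F) (a : m → F) (b : n → F) :
    σ.pt (C + vecMulVec a b) = σ.pt C + vecMulVec (σ.P *ᵥ a) (b ᵥ* σ.Q) := by
  rw [St.pt, St.pt, Matrix.mul_add, Matrix.add_mul, mul_vecMulVec, vecMulVec_mul, add_assoc]

/-- Cauchy-Schwarz: a large weight forces collisions. -/
theorem sq_weight_le {β Φ : Type} [Fintype β] [Nonempty β] [Fintype Φ] [DecidableEq Φ]
    (s : β → Prop) [DecidablePred s] (v : β → Φ) (ξ : Φ → ℝ) {K : ℝ} (h0 : ∀ φ, 0 ≤ ξ φ)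
    (h1 : ∀ φ, ξ φ ≤ 1) (hs : ∑ φ, ξ φ ≤ K) :
    (𝔼 b, if s b then ξ (v b) else 0) ^ 2 ≤
      K * 𝔼 b, 𝔼 b', if s b ∧ s b' ∧ v b = v b' then (1 : ℝ) else 0 := by
  set p : Φ → ℝ := fun φ => 𝔼 b, if s b ∧ v b = φ then (1 : ℝ) else 0 with hp
  have e1 : (𝔼 b, if s b then ξ (v b) else 0) = ∑ φ, ξ φ * p φ := by
    simp only [hp, mul_expect]
    rw [← expect_sum_comm]
    refine expect_congr rfl fun b _ => ?_
    by_cases hb : s b <;> simp [hb]
  have e2 : (𝔼 b, 𝔼 b', if s b ∧ s b' ∧ v b = v b' then (1 : ℝ) else 0) = ∑ φ, p φ ^ 2 := by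
    simp only [hp, sq, expect_mul_expect]
    rw [← expect_sum_comm]
    refine expect_congr rfl fun b _ => ?_
    rw [← expect_sum_comm]
    refine expect_congr rfl fun b' _ => ?_
    by_cases hb : s b <;> by_cases hb' : s b' <;> simp [hb, hb', eq_comm]
  rw [e1, e2]
  refine (sum_mul_sq_le_sq_mul_sq _ _ _).trans (mul_le_mul_of_nonneg_right ?_ (by positivity))
  exact (sum_le_sum fun φ _ => by nlinarith [h0 φ, h1 φ]).trans hs

open Classical in
/-- The probability of a collision along a random row of the zoom. -/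
noncomputable def coll (σ : St m n) (B : Matrix m n F → Prop) (Fn : Matrix m n F → m → F) : ℝ :=
  𝔼 C : Matrix m n F, 𝔼 a : m → F, 𝔼 b : n → F,
    if σ.P *ᵥ a ≠ 0 ∧ B (σ.pt C) ∧ B (σ.pt (C + vecMulVec a b)) ∧
      Fn (σ.pt C) = Fn (σ.pt (C + vecMulVec a b)) then (1 : ℝ) else 0

open Classical in
theorem collide (σ : St m n) (B : Matrix m n F → Prop) (Fn : Matrix m n F → m → F)
    (ξ : (m → F) → Matrix m n F → (m → F) → ℝ) {K : ℝ} (h0 : ∀ w A φ, 0 ≤ ξ w A φ)
    (h1 : ∀ w A φ, ξ w A φ ≤ 1) (hs : ∀ w A, ∑ φ, ξ w A φ ≤ K)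
    (hrow : ∀ w A x φ, ξ w (A + vecMulVec w x) φ = ξ w A φ) :
    (𝔼 C : Matrix m n F, 𝔼 a : m → F, if σ.P *ᵥ a = 0 then 0 else
      if B (σ.pt C) then ξ (σ.P *ᵥ a) (σ.pt C) (Fn (σ.pt C)) else 0) ^ 2 ≤ K * coll σ B Fn := by
  rw [coll, expect_comm, expect_comm (s := (univ : Finset (Matrix m n F))), mul_expect]
  refine (sq_expect_le _).trans (expect_le_expect fun a _ => ?_)
  by_cases ha : σ.P *ᵥ a = 0
  · simp [ha]
  simp only [ha, if_false, ne_eq, not_false_eq_true, true_and]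
  rw [← expect_fibration _ (fun b : n → F => vecMulVec a b),
    ← expect_fibration (fun C => 𝔼 b : n → F, if B (σ.pt C) ∧ B (σ.pt (C + vecMulVec a b)) ∧
      Fn (σ.pt C) = Fn (σ.pt (C + vecMulVec a b)) then (1 : ℝ) else 0)
      (fun b : n → F => vecMulVec a b), mul_expect]
  refine (sq_expect_le _).trans (expect_le_expect fun C _ => ?_)
  have h2 := sq_weight_le (fun b : n → F => B (σ.pt (C + vecMulVec a b)))
    (fun b => Fn (σ.pt (C + vecMulVec a b))) (ξ (σ.P *ᵥ a) (σ.pt C)) (h0 _ _) (h1 _ _) (hs _ _)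
  refine le_of_eq_of_le ?_ (h2.trans_eq ?_)
  · congr 1
    refine expect_congr rfl fun b _ => ?_
    conv_lhs => rw [show ξ (σ.P *ᵥ a) (σ.pt (C + vecMulVec a b)) =
      ξ (σ.P *ᵥ a) (σ.pt C) from funext fun φ => by rw [St.pt_add, hrow]]
  · refine congrArg (K * ·) (expect_congr rfl fun b _ => ?_)
    rw [← expect_add_left _ b]
    refine expect_congr rfl fun c _ => ?_
    rw [vecMulVec_add, ← add_assoc]

theorem prob_hash (A : Matrix m n F) (hA : A.rank = Fintype.card m) (φ : m → F) :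
    𝔼 G : n → F, (if A *ᵥ G = φ then (1 : ℝ) else 0) = (1 / 2) ^ Fintype.card m := by
  have h1 : univ.filter (InIm A) = univ := by
    apply eq_univ_of_card
    rw [card_im, hA, Fintype.card_fun, ZMod.card]
  have h2 : InIm A φ := by
    have := mem_univ φ
    rw [← h1, mem_filter] at this
    exact this.2
  rw [prob_eq, if_pos h2, hA]

theorem prob_hash₂ (A : Matrix m n F) (hA : A.rank = Fintype.card m) (φ : m → F) (x : n → F) :
    1 / 2 * ((1 / 2) ^ Fintype.card m - 𝔼 u : m → F, if u ᵥ* A = x then (1 : ℝ) else 0) ≤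
      𝔼 G : n → F, (if A *ᵥ G = φ ∧ x ⬝ᵥ G = 0 then (1 : ℝ) else 0) := by
  have h1 : ∀ G : n → F, (if A *ᵥ G = φ ∧ x ⬝ᵥ G = 0 then (1 : ℝ) else 0) =
      1 / 2 * ((if A *ᵥ G = φ then (1 : ℝ) else 0) +
        𝔼 u : m → F, chi φ u * chi (u ᵥ* A + x) G) := by
    intro G
    have h2 : ∀ u : m → F, chi φ u * chi (u ᵥ* A + x) G =
        chi (A *ᵥ G) u * chi φ u * sg (x ⬝ᵥ G) := by
      intro u
      rw [chi_add_left, chi_comm (A *ᵥ G), show chi (u ᵥ* A) G = chi u (A *ᵥ G) by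
        rw [chi, chi, dotProduct_mulVec], show chi x G = sg (x ⬝ᵥ G) from rfl]
      ring
    simp only [h2]
    rw [← expect_mul, expect_chi_mul_chi, sg_eq_ite']
    by_cases h3 : A *ᵥ G = φ <;> by_cases h4 : x ⬝ᵥ G = 0 <;> simp [h3, h4]
  simp only [h1]
  rw [← mul_expect, expect_add_distrib, prob_hash A hA, expect_comm]
  refine mul_le_mul_of_nonneg_left ?_ (by norm_num)
  rw [sub_eq_add_neg, ← expect_neg_distrib]
  refine add_le_add_right (expect_le_expect fun u _ => ?_) _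
  rw [← mul_expect, expect_chi]
  simp only [f2_vec_add_eq_zero]
  split_ifs
  · have := abs_le.1 (abs_chi φ u).le
    linarith [this.1]
  · simp

open Classical in
/-- The points of the zoom on which the labelling agrees with the functional `G`. -/
noncomputable def agr (σ : St m n) (B : Matrix m n F → Prop) (Fn : Matrix m n F → m → F)
    (G : n → F) (C : Matrix m n F) : ℝ :=
  if B (σ.pt C) ∧ σ.pt C *ᵥ G = Fn (σ.pt C) then 1 else 0

theorem agr_mean_le (σ : St m n) (B : Matrix m n F → Prop) (Fn : Matrix m n F → m → F)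
    (hB : ∀ A, B A → A.rank = Fintype.card m) :
    𝔼 G, 𝔼 C, agr σ B Fn G C ≤ (1 / 2) ^ Fintype.card m := by
  rw [expect_comm]
  refine expect_le univ_nonempty fun C _ => ?_
  by_cases h : B (σ.pt C)
  · simp only [agr, h, true_and]
    exact (prob_hash _ (hB _ h) _).le
  · simp [agr, h]

theorem agr_walk_ge (σ : St m n) (B : Matrix m n F → Prop) (Fn : Matrix m n F → m → F)
    (hB : ∀ A, B A → A.rank = Fintype.card m) :
    1 / 2 * ((1 / 2) ^ Fintype.card m * coll σ B Fn - (1 / 2) ^ σ.Q.rank) ≤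
      𝔼 G, 𝔼 C, 𝔼 a : m → F, 𝔼 b : n → F,
        agr σ B Fn G C * agr σ B Fn G (C + vecMulVec a b) := by
  classical
  have h1 : (𝔼 C : Matrix m n F, 𝔼 _a : m → F, 𝔼 b : n → F, 𝔼 u : m → F,
      if u ᵥ* σ.pt C = b ᵥ* σ.Q then (1 : ℝ) else 0) ≤ (1 / 2) ^ σ.Q.rank := by
    refine expect_le univ_nonempty fun C _ => expect_le univ_nonempty fun a _ => ?_
    rw [expect_comm]
    refine expect_le univ_nonempty fun u _ => ?_
    have := prob_eq_le σ.Qᵀ (u ᵥ* σ.pt C)
    simp only [mulVec_transpose, rank_transpose] at this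
    simpa only [eq_comm] using this
  refine le_trans (mul_le_mul_of_nonneg_left (sub_le_sub_left h1 _) (by norm_num)) ?_
  have h0 : 𝔼 G, 𝔼 C, 𝔼 a : m → F, 𝔼 b : n → F,
      agr σ B Fn G C * agr σ B Fn G (C + vecMulVec a b) = 𝔼 C, 𝔼 a : m → F, 𝔼 b : n → F, 𝔼 G,
        agr σ B Fn G C * agr σ B Fn G (C + vecMulVec a b) := by
    rw [expect_comm]
    refine expect_congr rfl fun C _ => ?_
    rw [expect_comm]
    refine expect_congr rfl fun a _ => ?_
    rw [expect_comm]
  rw [h0, coll, mul_expect, ← expect_sub_distrib, mul_expect]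
  refine expect_le_expect fun C _ => ?_
  rw [mul_expect, ← expect_sub_distrib, mul_expect]
  refine expect_le_expect fun a _ => ?_
  rw [mul_expect, ← expect_sub_distrib, mul_expect]
  refine expect_le_expect fun b _ => ?_
  split_ifs with h
  · obtain ⟨-, h2, h3, h4⟩ := h
    rw [mul_one]
    refine (prob_hash₂ _ (hB _ h2) (Fn (σ.pt C)) _).trans (expect_le_expect fun G _ => ?_)
    simp only [agr, h2, h3, true_and, ← h4]
    split_ifs with h5 h6 h7 <;> try norm_num
    · refine h7 ?_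
      rw [St.pt_add, add_mulVec, vecMulVec_mulVec, h5.1, h5.2]
      simp
    · exact h6 h5.1
    · exact h6 h5.1
  · have h5 : 0 ≤ 𝔼 u : m → F, if u ᵥ* σ.pt C = b ᵥ* σ.Q then (1 : ℝ) else 0 :=
      expect_nonneg fun _ _ => by positivity
    have h6 : 0 ≤ 𝔼 G, agr σ B Fn G C * agr σ B Fn G (C + vecMulVec a b) :=
      expect_nonneg fun _ _ => by unfold agr; positivity
    linarith

/-- Many collisions give a smaller zoom on which the labelling often agrees with a functional. -/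
theorem zoom_step {η : ℝ} (hη : 0 < η) : ∃ (r : ℕ) (ε : ℝ), 0 < ε ∧
    ∀ (m n : Type) [Fintype m] [Fintype n] [DecidableEq m] [DecidableEq n] (σ : St m n)
      (B : Matrix m n F → Prop) (Fn : Matrix m n F → m → F),
      (∀ A, B A → A.rank = Fintype.card m) → 4 * η ≤ coll σ B Fn →
      ((1 : ℝ) / 2) ^ σ.Q.rank ≤ η * (1 / 2) ^ Fintype.card m →
      ∃ (G : n → F) (P : Matrix m m F) (Q : Matrix n n F) (T : Matrix m n F),
        Fintype.card m ≤ P.rank + r ∧ Fintype.card n ≤ Q.rank + r ∧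
          ε ≤ 𝔼 C : Matrix m n F, agr σ B Fn G (T + P * C * Q) := by
  obtain ⟨r, ε, hε, H⟩ := expansion hη
  refine ⟨r, ε, hε, fun m n _ _ _ _ σ B Fn hB hc hQ => ?_⟩
  by_contra hne
  push Not at hne
  have h1 : ∀ G, 𝔼 C, 𝔼 a : m → F, 𝔼 b : n → F,
      agr σ B Fn G C * agr σ B Fn G (C + vecMulVec a b) ≤ η * 𝔼 C, agr σ B Fn G C := by
    intro G
    refine H m n _ (fun C => by unfold agr; positivity)
      (fun C => by unfold agr; split_ifs <;> norm_num) fun P Q T hr => ?_
    have h2 := rank_le_card_width P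
    have h3 := rank_le_card_width Q
    exact (hne G P Q T (by omega) (by omega)).le
  have h2 := expect_le_expect (s := univ) fun G _ => h1 G
  rw [← mul_expect] at h2
  have h3 := agr_walk_ge σ B Fn hB
  have h4 := mul_le_mul_of_nonneg_left (agr_mean_le σ B Fn hB) hη.le
  have h5 : (0 : ℝ) < (1 / 2) ^ Fintype.card m := by positivity
  have h6 := mul_le_mul_of_nonneg_left hc h5.le
  nlinarith [mul_pos hη h5]

end Vale.Agent.P342
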